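import Mathlib
import Crest.Agent.Lib.Ehrhard.Gain

/-! General Gaussian tools for R239, part 1 (helper622). -/

set_option autoImplicit false
set_option linter.unusedSectionVars false
open MeasureTheory ProbabilityTheory Set Filter Topology
open scoped RealInnerProductSpace ENNReal NNReal InnerProduct

namespace Crest.Agent.R239

open Crest.Agent.Lib.Ehrhard (phi Phi Psi)

variable {E : Type*} [NormedAddCommGroup E] [InnerProductSpace ℝ E] [FiniteDimensional ℝ E]
  [MeasurableSpace E] [BorelSpace E]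
variable {F : Type*} [NormedAddCommGroup F] [InnerProductSpace ℝ F] [FiniteDimensional ℝ F]
  [MeasurableSpace F] [BorelSpace F]
variable {G : Type*} [NormedAddCommGroup G] [InnerProductSpace ℝ G] [FiniteDimensional ℝ G]
  [MeasurableSpace G] [BorelSpace G]

/-- The centred Gaussian measure with covariance `A A†`. -/
noncomputable def gau (A : F →L[ℝ] E) : Measure E := (stdGaussian F).map A

instance (A : F →L[ℝ] E) : IsProbabilityMeasure (gau A) :=
  Measure.isProbabilityMeasure_map A.continuous.aemeasurable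

lemma gau_id : gau (ContinuousLinearMap.id ℝ E) = stdGaussian E := by
  simp [gau]

lemma gau_apply (A : F →L[ℝ] E) {K : Set E} (hK : MeasurableSet K) :
    gau A K = stdGaussian F (A ⁻¹' K) := Measure.map_apply A.continuous.measurable hK

lemma gau_real_apply (A : F →L[ℝ] E) {K : Set E} (hK : MeasurableSet K) :
    (gau A).real K = (stdGaussian F).real (A ⁻¹' K) := by
  simp [Measure.real, gau_apply A hK]

lemma gau_map (A : F →L[ℝ] E) (B : E →L[ℝ] G) : (gau A).map B = gau (B ∘L A) := by
  unfold gau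
  rw [Measure.map_map B.continuous.measurable A.continuous.measurable]
  rfl

open Complex in
lemma charFun_gau (A : F →L[ℝ] E) (t : E) :
    charFun (gau A) t = Complex.exp (-((‖A.adjoint t‖ ^ 2 / 2 : ℝ) : ℂ)) := by
  have h := charFun_stdGaussian (E := F) (A.adjoint t)
  rw [charFun_apply] at h ⊢
  unfold gau
  rw [integral_map A.continuous.aemeasurable (by fun_prop)]
  simp_rw [ContinuousLinearMap.adjoint_inner_right] at h
  rw [h]
  push_cast
  ring_nf

/-- Two centred Gaussians with the same covariance coincide. -/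
lemma gau_ext {A : F →L[ℝ] E} {B : G →L[ℝ] E} (h : ∀ t, ‖A.adjoint t‖ = ‖B.adjoint t‖) :
    gau A = gau B := by
  apply Measure.ext_of_charFun
  ext t
  rw [charFun_gau, charFun_gau, h]

lemma norm_adjoint_sq (A : F →L[ℝ] E) (t : E) : ‖A.adjoint t‖ ^ 2 = ⟪(A ∘L A.adjoint) t, t⟫ := by
  rw [← real_inner_self_eq_norm_sq, ContinuousLinearMap.adjoint_inner_left]
  simp [real_inner_comm]


/-- Law of `A x + B y` for independent standard `x, y`. -/
lemma map_add_prod {A : F →L[ℝ] E} {B : G →L[ℝ] E} {H : Type*} [NormedAddCommGroup H]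
    [InnerProductSpace ℝ H] [FiniteDimensional ℝ H] [MeasurableSpace H] [BorelSpace H]
    {C : H →L[ℝ] E} (h : ∀ t, ‖A.adjoint t‖ ^ 2 + ‖B.adjoint t‖ ^ 2 = ‖C.adjoint t‖ ^ 2) :
    ((stdGaussian F).prod (stdGaussian G)).map (fun p => A p.1 + B p.2) = gau C := by
  have e : ((stdGaussian F).prod (stdGaussian G)).map (fun p => A p.1 + B p.2)
      = (gau A).conv (gau B) := by
    unfold gau Measure.conv
    rw [Measure.map_prod_map _ _ A.continuous.measurable B.continuous.measurable,
      Measure.map_map (by fun_prop) (by fun_prop)]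
    rfl
  rw [e]
  apply Measure.ext_of_charFun
  ext t
  rw [charFun_conv, charFun_gau, charFun_gau, charFun_gau, ← Complex.exp_add, ← h t]
  congr 1
  push_cast
  ring



/-- `N(0, CC†)(K) = E_x N(0, BB†)(K - A x)`. -/
lemma gau_mix {A : F →L[ℝ] E} {B : G →L[ℝ] E} {H : Type*} [NormedAddCommGroup H]
    [InnerProductSpace ℝ H] [FiniteDimensional ℝ H] [MeasurableSpace H] [BorelSpace H]
    {C : H →L[ℝ] E} (h : ∀ t, ‖A.adjoint t‖ ^ 2 + ‖B.adjoint t‖ ^ 2 = ‖C.adjoint t‖ ^ 2)
    {K : Set E} (hK : MeasurableSet K) :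
    gau C K = ∫⁻ x, gau B {z | A x + z ∈ K} ∂(stdGaussian F) := by
  rw [← map_add_prod h, Measure.map_apply (by fun_prop) hK,
    Measure.prod_apply (by
      exact (by fun_prop : Measurable fun p : F × G => A p.1 + B p.2) hK)]
  refine lintegral_congr fun x => ?_
  rw [gau_apply]
  · rfl
  · exact (by fun_prop : Measurable fun z : E => A x + z) hK

/-- `N(0, CC†)(K) = E_{x ~ N(0, AA†)} N(0, BB†)(K - x)`. -/
lemma gau_mix' {A : F →L[ℝ] E} {B : G →L[ℝ] E} {H : Type*} [NormedAddCommGroup H]
    [InnerProductSpace ℝ H] [FiniteDimensional ℝ H] [MeasurableSpace H] [BorelSpace H]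
    {C : H →L[ℝ] E} (h : ∀ t, ‖A.adjoint t‖ ^ 2 + ‖B.adjoint t‖ ^ 2 = ‖C.adjoint t‖ ^ 2)
    {K : Set E} (hK : MeasurableSet K) :
    gau C K = ∫⁻ x, gau B {z | x + z ∈ K} ∂(gau A) := by
  rw [gau_mix h hK]
  conv_rhs => rw [gau]
  rw [lintegral_map _ A.continuous.measurable]
  exact measurable_measure_prodMk_left ((by fun_prop : Measurable fun p : E × E => p.1 + p.2) hK)





/-- One-dimensional marginals. -/
lemma gau_map_inner (A : F →L[ℝ] E) (n : E) :
    (gau A).map (fun x => ⟪n, x⟫) = gaussianReal 0 (‖A.adjoint n‖₊ ^ 2) := by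
  have e : (fun x : E => ⟪n, x⟫) = (innerSL ℝ n : E →L[ℝ] ℝ) := rfl
  rw [e, gau_map]
  apply Measure.ext_of_charFun
  ext t
  rw [charFun_gau, charFun_gaussianReal]
  have h1 : ((innerSL ℝ n) ∘L A).adjoint t = t • A.adjoint n := by
    rw [ContinuousLinearMap.adjoint_comp]
    simp only [ContinuousLinearMap.coe_comp, Function.comp_apply]
    rw [← map_smul]
    congr 1
    apply ext_inner_right ℝ
    intro v
    rw [ContinuousLinearMap.adjoint_inner_left]
    simp [inner_smul_left, mul_comm]
  rw [h1, norm_smul]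
  congr 1
  push_cast
  rw [mul_pow, Real.norm_eq_abs]
  have : ((|t| : ℝ) : ℂ) ^ 2 = (t : ℂ) ^ 2 := by
    norm_cast
    exact sq_abs t
  rw [this]
  ring



@[simp] lemma adjoint_id' : (ContinuousLinearMap.id ℝ E).adjoint = ContinuousLinearMap.id ℝ E := by
  ext v
  apply ext_inner_right ℝ
  intro w
  rw [ContinuousLinearMap.adjoint_inner_left]
  simp


end Crest.Agent.R239
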