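import Mathlib
import Crest.Agent.R239.Gau1

/-! R239, block F6 (one level comparison), sub-leaves (a) and (b) (helper696):
support functions of pulled back / averaged bodies, and the type 0 comparison.  FDef free. -/

set_option autoImplicit false
set_option linter.unusedSectionVars false
open MeasureTheory ProbabilityTheory Set Filter Topology Pointwise
open scoped RealInnerProductSpace

namespace Crest.Agent.R239.F6core696

variable {E : Type*} [NormedAddCommGroup E] [InnerProductSpace ℝ E] [FiniteDimensional ℝ E]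
  [MeasurableSpace E] [BorelSpace E]

/-- support function -/
noncomputable def hs (K : Set E) (z : E) : ℝ := sSup ((fun x => ⟪x, z⟫) '' K)

lemma hs_le {K : Set E} (hne : K.Nonempty) {z : E} {c : ℝ} (h : ∀ x ∈ K, ⟪x, z⟫ ≤ c) : hs K z ≤ c :=
  csSup_le (hne.image _) (by rintro _ ⟨x, hx, rfl⟩; exact h x hx)

lemma bdd_of_compact {K : Set E} (hK : IsCompact K) (z : E) :
    BddAbove ((fun x => ⟪x, z⟫) '' K) :=
  (hK.image (by fun_prop)).bddAbove

lemma le_hs {K : Set E} (hK : IsCompact K) {x : E} (hx : x ∈ K) (z : E) : ⟪x, z⟫ ≤ hs K z :=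
  le_csSup (bdd_of_compact hK z) ⟨x, hx, rfl⟩

lemma hs_mono {K B : Set E} (hK : IsCompact K) (hB : B.Nonempty) (h : B ⊆ K) (z : E) :
    hs B z ≤ hs K z := hs_le hB fun _ hx => le_hs hK (h hx) z

/-- Minkowski combination `(1-a) K + a B` -/
def mix (a : ℝ) (K B : Set E) : Set E := (1 - a) • K + a • B

lemma mem_mix {a : ℝ} {K B : Set E} {x : E} :
    x ∈ mix a K B ↔ ∃ k ∈ K, ∃ b ∈ B, x = (1 - a) • k + a • b := by
  simp only [mix, Set.mem_add, Set.mem_smul_set]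
  constructor
  · rintro ⟨_, ⟨k, hk, rfl⟩, _, ⟨b, hb, rfl⟩, h⟩
    exact ⟨k, hk, b, hb, h.symm⟩
  · rintro ⟨k, hk, b, hb, rfl⟩
    exact ⟨_, ⟨k, hk, rfl⟩, _, ⟨b, hb, rfl⟩, rfl⟩

lemma mix_compact {a : ℝ} {K B : Set E} (hK : IsCompact K) (hB : IsCompact B) :
    IsCompact (mix a K B) := (hK.smul _).add (hB.smul _)

lemma mix_nonempty {a : ℝ} {K B : Set E} (hK : K.Nonempty) (hB : B.Nonempty) :
    (mix a K B).Nonempty := by
  obtain ⟨k, hk⟩ := hK; obtain ⟨b, hb⟩ := hB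
  exact ⟨_, mem_mix.2 ⟨k, hk, b, hb, rfl⟩⟩

lemma mix_convex {a : ℝ} {K B : Set E} (hK : Convex ℝ K) (hB : Convex ℝ B) :
    Convex ℝ (mix a K B) := (hK.smul _).add (hB.smul _)

lemma mix_neg {a : ℝ} {K B : Set E} (hK : ∀ x ∈ K, -x ∈ K) (hB : ∀ x ∈ B, -x ∈ B) :
    ∀ x ∈ mix a K B, -x ∈ mix a K B := by
  intro x hx
  obtain ⟨k, hk, b, hb, rfl⟩ := mem_mix.1 hx
  exact mem_mix.2 ⟨-k, hK k hk, -b, hB b hb, by simp only [smul_neg]; abel⟩

lemma mix_subset {a : ℝ} (h0 : 0 ≤ a) (h1 : a ≤ 1) {K B C : Set E} (hC : Convex ℝ C) (hK : K ⊆ C)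
    (hB : B ⊆ C) : mix a K B ⊆ C := by
  intro x hx
  obtain ⟨k, hk, b, hb, rfl⟩ := mem_mix.1 hx
  exact hC (hK hk) (hB hb) (by linarith) h0 (by ring)

lemma hs_mix {a : ℝ} (h0 : 0 ≤ a) (h1 : a ≤ 1) {K B : Set E} (hK : IsCompact K) (hB : IsCompact B)
    (hKn : K.Nonempty) (hBn : B.Nonempty) (z : E) :
    hs (mix a K B) z = (1 - a) * hs K z + a * hs B z := by
  have h1' : 0 ≤ 1 - a := by linarith
  apply le_antisymm
  · apply hs_le (mix_nonempty hKn hBn)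
    intro x hx
    obtain ⟨k, hk, b, hb, rfl⟩ := mem_mix.1 hx
    rw [inner_add_left, inner_smul_left, inner_smul_left]
    simp only [conj_trivial]
    have := le_hs hK hk z
    have := le_hs hB hb z
    gcongr
  · obtain ⟨k, hk, hkz⟩ := hK.exists_isMaxOn hKn (f := fun x => ⟪x, z⟫) (by fun_prop)
    obtain ⟨b, hb, hbz⟩ := hB.exists_isMaxOn hBn (f := fun x => ⟪x, z⟫) (by fun_prop)
    have e1 : hs K z ≤ ⟪k, z⟫ := hs_le hKn fun x hx => hkz hx
    have e2 : hs B z ≤ ⟪b, z⟫ := hs_le hBn fun x hx => hbz hx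
    have : ⟪(1 - a) • k + a • b, z⟫ ≤ hs (mix a K B) z :=
      le_hs (mix_compact hK hB) (mem_mix.2 ⟨k, hk, b, hb, rfl⟩) z
    rw [inner_add_left, inner_smul_left, inner_smul_left] at this
    simp only [conj_trivial] at this
    have h3 : (1 - a) * hs K z ≤ (1 - a) * ⟪k, z⟫ := mul_le_mul_of_nonneg_left e1 h1'
    have h4 : a * hs B z ≤ a * ⟪b, z⟫ := mul_le_mul_of_nonneg_left e2 h0
    linarith

lemma Eh_mix {a : ℝ} (h0 : 0 ≤ a) (h1 : a ≤ 1) {K B : Set E} (hK : IsCompact K)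
    (hB : IsCompact B) (hKn : K.Nonempty) (hBn : B.Nonempty) (μ : Multiset E) :
    (μ.map (hs (mix a K B))).sum = (1 - a) * (μ.map (hs K)).sum + a * (μ.map (hs B)).sum := by
  induction μ using Multiset.induction_on with
  | empty => simp
  | cons z μ ih =>
    simp only [Multiset.map_cons, Multiset.sum_cons]
    rw [ih, hs_mix h0 h1 hK hB hKn hBn]; ring

/-- preimages under a linear map of a Minkowski combination -/
lemma mix_preimage_subset {a : ℝ} (L : E →L[ℝ] E) (K B : Set E) :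
    mix a (L ⁻¹' K) (L ⁻¹' B) ⊆ L ⁻¹' (mix a K B) := by
  intro x hx
  obtain ⟨k, hk, b, hb, rfl⟩ := mem_mix.1 hx
  exact mem_mix.2 ⟨L k, hk, L b, hb, by simp⟩

/-- pull back by the contraction `T x = x - s⟪v,x⟫v` and a slab cut -/
lemma hs_pullback {K' B : Set E} (hK' : IsCompact K') (hB : B.Nonempty) {T : E →L[ℝ] E} {v : E}
    {s t : ℝ} (hs0 : 0 ≤ s) (hT : ∀ x, T x = x - (s * ⟪v, x⟫) • v)
    (hBK : ∀ x ∈ B, T x ∈ K') (hBt : ∀ x ∈ B, |⟪v, x⟫| ≤ t) (z : E) :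
    hs B z ≤ hs K' z + s * t * |⟪v, z⟫| := by
  apply hs_le hB
  intro x hx
  have h1 : ⟪x, z⟫ = ⟪T x, z⟫ + s * ⟪v, x⟫ * ⟪v, z⟫ := by
    rw [hT x, inner_sub_left, inner_smul_left]
    simp
  have h2 : ⟪T x, z⟫ ≤ hs K' z := le_hs hK' (hBK x hx) z
  have h3 : s * ⟪v, x⟫ * ⟪v, z⟫ ≤ s * t * |⟪v, z⟫| := by
    have ht : 0 ≤ t := (abs_nonneg _).trans (hBt x hx)
    calc s * ⟪v, x⟫ * ⟪v, z⟫ ≤ |s * ⟪v, x⟫ * ⟪v, z⟫| := le_abs_self _
      _ = s * |⟪v, x⟫| * |⟪v, z⟫| := by rw [abs_mul, abs_mul, abs_of_nonneg hs0]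
      _ ≤ s * t * |⟪v, z⟫| := by
        gcongr
        exact hBt x hx
  linarith

lemma Eh_pullback {K' B : Set E} (hK' : IsCompact K') (hB : B.Nonempty) {T : E →L[ℝ] E} {v : E}
    {s t : ℝ} (hs0 : 0 ≤ s) (hT : ∀ x, T x = x - (s * ⟪v, x⟫) • v)
    (hBK : ∀ x ∈ B, T x ∈ K') (hBt : ∀ x ∈ B, |⟪v, x⟫| ≤ t) (μ : Multiset E) :
    (μ.map (hs B)).sum ≤ (μ.map (hs K')).sum + s * t * (μ.map (fun z => |⟪v, z⟫|)).sum := by
  induction μ using Multiset.induction_on with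
  | empty => simp
  | cons z μ ih =>
    simp only [Multiset.map_cons, Multiset.sum_cons]
    have := hs_pullback hK' hB hs0 hT hBK hBt z
    linarith

/-! ### measures -/


lemma gau_real_inter_range {H : E →L[ℝ] E} {M : Submodule ℝ E} (hM : ∀ g, H g ∈ M) {A : Set E}
    (hA : MeasurableSet A) :
    (gau H).real (A ∩ M) = (gau H).real A := by
  have hMm : MeasurableSet (M : Set E) := (Submodule.closed_of_finiteDimensional M).measurableSet
  rw [gau_real_apply H (hA.inter hMm), gau_real_apply H hA]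
  congr 1
  ext g
  simp [hM g]




end Crest.Agent.R239.F6core696
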