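import Mathlib
import Crest.Agent.R239.Gau1

/-! R239 / S0370, definitions of the static flag potential of helper583 (docs 2387-2390) with the
repair of helper236 (demotion + mixture).  All objects live in one Euclidean space `E`, the only
measure is `stdGaussian E`, level `i` is the law `gau (V.H i)`.

* a population is a `Multiset E` (mass = length of the vectors);
* a splitting `mu -> mu'` is a `Multiset (E × E)`: mu = s.map (p.1 + p.2), mu' = s.map fst + s.map snd.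
-/

set_option autoImplicit false
open MeasureTheory ProbabilityTheory
open scoped RealInnerProductSpace

namespace Crest.Agent.R239.FD

open Crest.Agent.R239 (gau)

variable {E : Type*} [NormedAddCommGroup E] [InnerProductSpace ℝ E] [FiniteDimensional ℝ E]
  [MeasurableSpace E] [BorelSpace E]

/-- decay between levels -/
noncomputable def th : ℝ := 4 / 5

/-- weights of the precision form: `om m = th^(-2m) (1 - th^2)`, `1 + Σ_{m=1}^{n} om m = th^(-2n)` -/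
noncomputable def om (m : ℕ) : ℝ := (th⁻¹) ^ (2 * m) * (1 - th ^ 2)

/-- weights of the cap gauge: `omN m = th^(-m) (1 - th)`, `1 + Σ_{m=1}^{n} omN m = th^(-n)` -/
noncomputable def omN (m : ℕ) : ℝ := (th⁻¹) ^ m * (1 - th)

/-- parameters: cap constant, price of a dimension, ratio of the grid, bottom level -/
structure Par where
  rho : ℝ
  kap : ℝ
  A : ℝ
  tau : ℝ

/-- level `lam i = tau A^i` -/
noncomputable def Par.lam (p : Par) (i : ℕ) : ℝ := p.tau * p.A ^ i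

/-- basic conditions on the parameters, assumed everywhere -/
structure Par.Ok (p : Par) : Prop where
  tau_pos : 0 < p.tau
  A_ge : 16 ≤ p.A
  kap_pos : 0 < p.kap
  kap_le : p.kap ≤ 1
  rho_ge : 16 ≤ p.rho
  kap_rho : 16 ≤ p.kap * p.rho ^ 2

/-- a flag: decreasing subspaces, zero from `n` on -/
structure Flag (E : Type*) [NormedAddCommGroup E] [InnerProductSpace ℝ E] where
  n : ℕ
  M : ℕ → Submodule ℝ E
  anti : Antitone M
  bot : ∀ i, n ≤ i → M i = ⊥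

namespace Flag

variable (V : Flag E)

/-- orthogonal projection on `M j` -/
noncomputable def P (j : ℕ) : E →L[ℝ] E := (V.M j).starProjection

/-- orthogonal projection on the block `V_j = M j ⊖ M (j+1)` -/
noncomputable def Q (j : ℕ) : E →L[ℝ] E := V.P j - V.P (j + 1)

/-- dimension of the block `V_j` -/
noncomputable def k (j : ℕ) : ℕ := Module.finrank ℝ (V.M j) - Module.finrank ℝ (V.M (j + 1))

/-- square root of the covariance of level `i`: `H i = Σ_{j ≥ i} th^(j-i) Q_j` -/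
noncomputable def H (i : ℕ) : E →L[ℝ] E := ∑ j ∈ Finset.Ico i V.n, th ^ (j - i) • V.Q j

/-- inverse of `H i` on `M i` (zero on the orthogonal complement) -/
noncomputable def Hi (i : ℕ) : E →L[ℝ] E := ∑ j ∈ Finset.Ico i V.n, (th⁻¹) ^ (j - i) • V.Q j

/-- trace of `H i` -/
noncomputable def rr (i : ℕ) : ℝ := ∑ j ∈ Finset.Ico i V.n, th ^ (j - i) * (V.k j : ℝ)

/-- the gauge `N_i(x) = Σ_{j ≥ i} th^(-(j-i)) |Q_j x|^2` (`= <x, Hi i x>` on `M i`);
`E_{g_i} N_i = rr i` exactly -/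
noncomputable def N (i : ℕ) (x : E) : ℝ :=
  ∑ j ∈ Finset.Ico i V.n, (th⁻¹) ^ (j - i) * ‖V.Q j x‖ ^ 2

/-- the cap body of level `i`: ONE ellipsoid per level (helper949, helper506, helper236) -/
def cap (rho : ℝ) (i : ℕ) : Set E := {x | x ∈ V.M i ∧ V.N i x ≤ rho ^ 2 * V.rr i}

end Flag

/-- support function (always used for bounded symmetric nonempty `K`) -/
noncomputable def hs (K : Set E) (z : E) : ℝ := sSup ((fun x : E => ⟪x, z⟫) '' K)

/-- `E_mu h_K` -/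
noncomputable def Eh (K : Set E) (μ : Multiset E) : ℝ := (μ.map (hs K)).sum

/-- `S_mu(v) = Σ |<v, z>|` -/
noncomputable def S (μ : Multiset E) (v : E) : ℝ := (μ.map fun z => |⟪v, z⟫|).sum

/-- admissible bodies of level `i` -/
def Adm (p : Par) (V : Flag E) (i : ℕ) (K : Set E) : Prop :=
  IsClosed K ∧ Convex ℝ K ∧ (∀ x ∈ K, -x ∈ K) ∧ K ⊆ V.cap p.rho i ∧ 0 < (gau (V.H i)).real K

/-- the value of a body at level `i` -/
noncomputable def val (p : Par) (V : Flag E) (i : ℕ) (μ : Multiset E) (K : Set E) : ℝ :=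
  Eh K μ - p.lam i * Real.log ((gau (V.H i)).real K)

/-- `D_i(mu; V)` -/
noncomputable def D (p : Par) (V : Flag E) (i : ℕ) (μ : Multiset E) : ℝ :=
  sInf (val p V i μ '' {K | Adm p V i K})

/-- `J(mu; V)` -/
noncomputable def J (p : Par) (V : Flag E) (μ : Multiset E) : ℝ :=
  ∑ i ∈ Finset.range V.n, (D p V i μ - p.kap * p.lam i * V.k i)

/-- the functional `U(mu)` (`tau = 1` at the end: one grid, no sum over `tau`) -/
noncomputable def Ut (p : Par) (μ : Multiset E) : ℝ := sSup (Set.range fun V : Flag E => J p V μ)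

/-- near-maximiser flag -/
def NearMax (p : Par) (V : Flag E) (μ : Multiset E) (e0 : ℝ) : Prop :=
  ∀ V' : Flag E, J p V' μ ≤ J p V μ + e0

/-- near-optimal body of level `i` with slack `sl` (in units of value) -/
def NearOpt (p : Par) (V : Flag E) (i : ℕ) (μ : Multiset E) (K : Set E) (sl : ℝ) : Prop :=
  Adm p V i K ∧ val p V i μ K ≤ D p V i μ + sl

/-- `b_i(v) = |P_{M_i} v|^2` -/
noncomputable def Flag.b (V : Flag E) (v : E) (i : ℕ) : ℝ := ‖V.P i v‖ ^ 2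

/-! ## One-body statements over `stdGaussian E` -/






/-- (BEN) benefit lemma in the form `removable or thin`: `K`, `K'` symmetric closed convex, `K'` a
cylinder in direction `w` (`x ∈ K' ↔ x - <w,x> w ∈ K'`), `C ⊇ (K + (K' ∩ w^⊥))/2`.  Either the
variance of `<w, .>` on `K` is `≤ 1 - c'`, or `gamma(C) ≥ exp(-dl) sqrt(gamma K gamma K')`. -/
def P_BEN (E : Type*) [NormedAddCommGroup E] [InnerProductSpace ℝ E] [FiniteDimensional ℝ E]
    [MeasurableSpace E] [BorelSpace E] (dl c' : ℝ) : Prop :=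
  ∀ (w : E), ‖w‖ = 1 → ∀ K K' C : Set E, IsClosed K → Convex ℝ K → (∀ x ∈ K, -x ∈ K) →
    IsClosed K' → Convex ℝ K' → (∀ x ∈ K', -x ∈ K') → IsClosed C →
    (∀ x, x ∈ K' ↔ x - ⟪w, x⟫ • w ∈ K') →
    (∀ x ∈ K, ∀ y ∈ K', ⟪w, y⟫ = 0 → (1 / 2 : ℝ) • x + (1 / 2 : ℝ) • y ∈ C) →
      (∫ g in K, ⟪w, g⟫ ^ 2 ∂(stdGaussian E)) ≤ (1 - c') * (stdGaussian E).real K ∨
      Real.exp (-dl) * Real.sqrt ((stdGaussian E).real K * (stdGaussian E).real K')
        ≤ (stdGaussian E).real C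

/-! ## The tilted flag -/

/-- `T_s = 1 - s v v^T` -/
noncomputable def Ts (v : E) (s : ℝ) : E →L[ℝ] E :=
  ContinuousLinearMap.id ℝ E - s • (innerSL ℝ v).smulRight v

omit [FiniteDimensional ℝ E] [MeasurableSpace E] [BorelSpace E] in
lemma Ts_apply (v : E) (s : ℝ) (x : E) : Ts v s x = x - (s * ⟪v, x⟫) • v := by
  simp [Ts, smul_smul]

/-- the flag `T_s M_j` -/
noncomputable def Flag.rot (V : Flag E) (v : E) (s : ℝ) : Flag E where
  n := V.n
  M j := (V.M j).map (Ts v s).toLinearMap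
  anti := fun _ _ h => Submodule.map_mono (V.anti h)
  bot := fun i h => by rw [V.bot i h, Submodule.map_bot]

/-- `q_i(x) = Sig_i^{-1}(x) - Sig^{s,-1}_i(T_s x)` for `x ∈ M_i`, `sb = 2 s - s^2` -/
noncomputable def qf (V : Flag E) (v : E) (sb : ℝ) (i : ℕ) (x : E) : ℝ :=
  sb * ⟪v, x⟫ ^ 2 + sb * ∑ j ∈ Finset.Ico (i + 1) V.n,
    om (j - i) * (⟪v, x⟫ ^ 2 - ⟪v - V.P j v, x⟫ ^ 2 / (1 - sb * V.b v j))


/-- fixed weights of the majorant (746) -/
noncomputable def em (eps : ℝ) (m : ℕ) : ℝ := eps * (th ^ 2 / 2) ^ m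

/-- the majorant `q+` (746) -/
noncomputable def qp (V : Flag E) (v : E) (sb eps : ℝ) (i : ℕ) (x : E) : ℝ :=
  sb * (⟪v, x⟫ ^ 2 + ∑ j ∈ Finset.Ico (i + 1) V.n,
    om (j - i) * (em eps (j - i) * ⟪v - V.P j v, x⟫ ^ 2 + (1 + 1 / em eps (j - i)) * ⟪V.P j v, x⟫ ^ 2))

/-- `B_i = Σ_{m ≥ 1} (25/8)^m b_{i+m}` -/
noncomputable def BB (V : Flag E) (v : E) (i : ℕ) : ℝ :=
  ∑ j ∈ Finset.Ico (i + 1) V.n, (25 / 8 : ℝ) ^ (j - i) * V.b v j

/-! ## Flag statements -/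

/-- (U1) at one level -/
def P_D_mono (E : Type*) [NormedAddCommGroup E] [InnerProductSpace ℝ E] [FiniteDimensional ℝ E]
    [MeasurableSpace E] [BorelSpace E] (p : Par) : Prop :=
  ∀ (V : Flag E) (i : ℕ) (s : Multiset (E × E)),
    D p V i (s.map fun q => q.1 + q.2) ≤ D p V i (s.map Prod.fst + s.map Prod.snd)

/-- the empty population -/
def P_J0 (E : Type*) [NormedAddCommGroup E] [InnerProductSpace ℝ E] [FiniteDimensional ℝ E]
    [MeasurableSpace E] [BorelSpace E] (p : Par) : Prop :=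
  ∀ V : Flag E, J p V 0 ≤ 0

/-- (U2) for one flag -/
def P_U2 (E : Type*) [NormedAddCommGroup E] [InnerProductSpace ℝ E] [FiniteDimensional ℝ E]
    [MeasurableSpace E] [BorelSpace E] (p : Par) (C : ℝ) : Prop :=
  ∀ (V : Flag E) (z : E) (μ : Multiset E),
    J p V (z ::ₘ μ) ≤ J p V μ + C * Real.sqrt (Module.finrank ℝ E) * ‖z‖

/-- insertion (Step A): cost of a new direction at the levels `≤ I` -/
def P_INS (E : Type*) [NormedAddCommGroup E] [InnerProductSpace ℝ E] [FiniteDimensional ℝ E]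
    [MeasurableSpace E] [BorelSpace E] (p : Par) : Prop :=
  ∀ (V : Flag E) (μ : Multiset E) (v : E) (I : ℕ), ‖v‖ = 1 →
    ∃ V' : Flag E, (∀ i, I < i → V'.M i = V.M i) ∧
      (∀ i, i ≤ I → V'.M i = V.M i ⊔ Submodule.span ℝ {v}) ∧
      J p V μ - p.lam I * (p.kap + 8 / p.rho ^ 2 + 2 / (p.A * th ^ 2)) ≤ J p V' μ

/-- growth (Step B1) at level `I`; the letter is served with `eta' = lam I / (C1 S')` -/
def P_GROWTH (E : Type*) [NormedAddCommGroup E] [InnerProductSpace ℝ E] [FiniteDimensional ℝ E]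
    [MeasurableSpace E] [BorelSpace E] (p : Par) (C1 C3 C4 eta : ℝ) : Prop :=
  ∀ (V : Flag E) (I : ℕ) (v : E) (s : Multiset (E × E)) (eta' : ℝ), ‖v‖ = 1 → v ∈ V.M I →
    ‖V.Hi I v‖ ^ 2 ≤ C3 → V.N I v ≤ C4 → th ^ 2 ≤ V.rr I →
    2 * S (s.map fun q => q.1 + q.2) v < S (s.map Prod.fst + s.map Prod.snd) v →
    0 < eta' → eta' ≤ eta → C1 * eta' * S (s.map Prod.fst + s.map Prod.snd) v = p.lam I →
    D p V I (s.map fun q => q.1 + q.2) + 2 / 5 * (p.lam I / C1)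
      ≤ D p V I (s.map Prod.fst + s.map Prod.snd)

/-- `thin at level i`: every near-optimal body has small variance in every block direction -/
def ThinAt (p : Par) (V : Flag E) (μ : Multiset E) (i : ℕ) (c' dl : ℝ) : Prop :=
  ∀ K, NearOpt p V i μ K (dl * p.lam i) → ∀ w : E, ‖w‖ = 1 → V.Q i w = w →
    (∫ x in K, ⟪w, x⟫ ^ 2 ∂(gau (V.H i))) ≤ (1 - c') * (gau (V.H i)).real K

/-- THIN (demotion): near-maximal flags are thin at all levels `≥ 1` -/
def P_THIN (E : Type*) [NormedAddCommGroup E] [InnerProductSpace ℝ E] [FiniteDimensional ℝ E]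
    [MeasurableSpace E] [BorelSpace E] (p : Par) (c' dl : ℝ) : Prop :=
  ∀ (V : Flag E) (μ : Multiset E) (i : ℕ), 1 ≤ i → NearMax p V μ (dl * p.lam i) →
    ThinAt p V μ i c' dl

/-- (ROT) rotation formula C1 -/
def P_ROT (E : Type*) [NormedAddCommGroup E] [InnerProductSpace ℝ E] [FiniteDimensional ℝ E]
    [MeasurableSpace E] [BorelSpace E] : Prop :=
  ∀ (V : Flag E) (v : E) (s : ℝ) (i : ℕ) (x : E), ‖v‖ = 1 → 0 < s → s < 1 → x ∈ V.M i →
    ‖(V.rot v s).Hi i (Ts v s x)‖ ^ 2 = ‖V.Hi i x‖ ^ 2 - qf V v (2 * s - s ^ 2) i x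


/-- one-level comparison `V` versus `V^s` at a level above `I` (F6) -/
def P_LEVhi (E : Type*) [NormedAddCommGroup E] [InnerProductSpace ℝ E] [FiniteDimensional ℝ E]
    [MeasurableSpace E] [BorelSpace E] (p : Par) (s c' dl c9 C9 : ℝ) : Prop :=
  ∀ (V : Flag E) (μ : Multiset E) (v : E) (I i : ℕ), ‖v‖ = 1 → S μ v ≤ p.lam I → I < i →
    i < V.n → ThinAt p V μ i c' dl →
    D p V i μ + p.lam i * (c9 * V.b v i - C9 * BB V v i) - C9 * p.lam I * (1 / 2) ^ (i - I)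
      ≤ D p (V.rot v s) i μ

/-- one-level comparison `V` versus `V^s` at a level `≤ I` (F6) -/
def P_LEVlo (E : Type*) [NormedAddCommGroup E] [InnerProductSpace ℝ E] [FiniteDimensional ℝ E]
    [MeasurableSpace E] [BorelSpace E] (p : Par) (s C9 : ℝ) : Prop :=
  ∀ (V : Flag E) (μ : Multiset E) (v : E) (I i : ℕ), ‖v‖ = 1 → S μ v ≤ p.lam I → i ≤ I →
    i < V.n →
    D p V i μ - p.lam i * C9 * BB V v i - C9 * p.lam I * (1 / 2) ^ (I - i)
      ≤ D p (V.rot v s) i μ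

/-- T1: tilt estimate for near-maximisers -/
def P_T1 (E : Type*) [NormedAddCommGroup E] [InnerProductSpace ℝ E] [FiniteDimensional ℝ E]
    [MeasurableSpace E] [BorelSpace E] (p : Par) (C8 dl : ℝ) : Prop :=
  ∀ (V : Flag E) (μ : Multiset E) (I : ℕ) (v : E), ‖v‖ = 1 → S μ v ≤ p.lam I →
    NearMax p V μ (dl * p.tau) →
    (∑ i ∈ Finset.Ico (I + 1) V.n, p.lam i * V.b v i) ≤ C8 * p.lam I

/-- (U3): growth of `Ut` if `I` is the level of the letter (`lam I ≤ C1 eta s' < lam (I+1)`) -/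
def P_U3t (E : Type*) [NormedAddCommGroup E] [InnerProductSpace ℝ E] [FiniteDimensional ℝ E]
    [MeasurableSpace E] [BorelSpace E] (p : Par) (C1 eta c : ℝ) : Prop :=
  ∀ (I : ℕ) (v : E) (s : Multiset (E × E)), ‖v‖ = 1 →
    2 * S (s.map fun q => q.1 + q.2) v < S (s.map Prod.fst + s.map Prod.snd) v →
    p.lam I ≤ C1 * eta * S (s.map Prod.fst + s.map Prod.snd) v →
    C1 * eta * S (s.map Prod.fst + s.map Prod.snd) v < p.A * p.lam I →
    Ut p (s.map fun q => q.1 + q.2) + c * S (s.map Prod.fst + s.map Prod.snd) v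
      ≤ Ut p (s.map Prod.fst + s.map Prod.snd)

/-! ## Targets of the blocks (order of the constants) -/

/-- target of G5 -/
def Target_BEN : Prop := ∀ dl : ℝ, 0 < dl → ∃ c' : ℝ, 0 < c' ∧ c' < 1 ∧ ∀ d : ℕ,
  P_BEN (EuclideanSpace ℝ (Fin d)) dl c'

/-- target of G6 -/
def Target_GROWTH : Prop := ∃ C1 : ℝ, 1 ≤ C1 ∧ ∀ C3 C4 : ℝ, ∃ eta : ℝ, 0 < eta ∧ eta ≤ 1 ∧
  ∀ (d : ℕ) (p : Par), p.Ok → P_GROWTH (EuclideanSpace ℝ (Fin d)) p C1 C3 C4 eta

/-- target of F4 -/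
def Target_THIN : Prop := ∀ kap : ℝ, 0 < kap → kap ≤ 1 → ∃ c' dl rho0 : ℝ, 0 < c' ∧ c' < 1 ∧ 0 < dl ∧
  ∀ (d : ℕ) (p : Par), p.Ok → p.kap = kap → rho0 ≤ p.rho → P_THIN (EuclideanSpace ℝ (Fin d)) p c' dl

/-- target of F6 -/
def Target_LEV : Prop := ∀ c' dl : ℝ, 0 < c' → c' < 1 → 0 < dl → ∃ s c9 C9 rho0 : ℝ, 0 < s ∧ s < 1 ∧
  0 < c9 ∧ 0 < C9 ∧ ∀ (d : ℕ) (p : Par), p.Ok → rho0 ≤ p.rho →
    P_LEVhi (EuclideanSpace ℝ (Fin d)) p s c' dl c9 C9 ∧ P_LEVlo (EuclideanSpace ℝ (Fin d)) p s C9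

/-- target of F9 (uses Target_THIN and Target_LEV) -/
def Target_T1 : Prop := ∀ kap : ℝ, 0 < kap → kap ≤ 1 → ∃ C8 dl rho0 A0 : ℝ, 0 < C8 ∧ 0 < dl ∧
  ∀ (d : ℕ) (p : Par), p.Ok → p.kap = kap → rho0 ≤ p.rho → A0 ≤ p.A →
    P_T1 (EuclideanSpace ℝ (Fin d)) p C8 dl

/-- target of F3 -/
def Target_INS : Prop := ∀ (d : ℕ) (p : Par), p.Ok → P_INS (EuclideanSpace ℝ (Fin d)) p

/-- target of F2 -/
def Target_U2 : Prop := ∀ p : Par, p.Ok → ∃ C : ℝ, 0 ≤ C ∧ ∀ d : ℕ,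
  P_U2 (EuclideanSpace ℝ (Fin d)) p C ∧ P_J0 (EuclideanSpace ℝ (Fin d)) p ∧
    P_D_mono (EuclideanSpace ℝ (Fin d)) p

/-- target of F10: growth, one grid (`tau = 1`), the functional is `Ut p` -/
def Target_U3 : Prop := ∃ (C1 eta c : ℝ) (p : Par), 1 ≤ C1 ∧ 0 < eta ∧ 0 < c ∧ p.Ok ∧ p.tau = 1 ∧
  ∀ d : ℕ, P_U3t (EuclideanSpace ℝ (Fin d)) p C1 eta c

end Crest.Agent.R239.FD
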