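import Mathlib

-- ▼ part R239/ProjRot_557
section

/-!
# R239 (583's proof): linear algebra of the flag moves (helper557)

For a subspace `M` of a finite dimensional real inner product space `E`, `P M = M.starProjection`.

* ROTATION (C1): `Tr v s x = x - s ⟪v, x⟫ v`, `‖v‖ = 1`, `sb = 2 s - s²`, `b = ‖P M v‖²`,
  `sb * b < 1`: explicit projection on `M.map (Tr v s)` and the formula for its norm.
* INSERTION: projection on `M ⊔ ℝ n` for a unit vector `n ⟂ M`.
* DEMOTION: projection on `M ⊓ (ℝ w)ᗮ` for a unit vector `w ∈ M`.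
-/

set_option autoImplicit false
set_option linter.unusedSectionVars false

open scoped RealInnerProductSpace
open Submodule

namespace Crest.Agent.R239.ProjRot557

variable {E : Type*} [NormedAddCommGroup E] [InnerProductSpace ℝ E] [FiniteDimensional ℝ E]

/-! ### Generalities -/

lemma inner_P_left (M : Submodule ℝ E) (x y : E) (hy : y ∈ M) :
    ⟪M.starProjection x, y⟫ = ⟪x, y⟫ := by
  have h := M.starProjection_inner_eq_zero x y hy
  rw [inner_sub_left] at h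
  linarith

lemma inner_P_right (M : Submodule ℝ E) (x y : E) (hx : x ∈ M) :
    ⟪x, M.starProjection y⟫ = ⟪x, y⟫ := by
  rw [real_inner_comm, inner_P_left M y x hx, real_inner_comm]

lemma inner_P_P (M : Submodule ℝ E) (x y : E) :
    ⟪M.starProjection x, M.starProjection y⟫ = ⟪M.starProjection x, y⟫ :=
  inner_P_right M _ y (M.starProjection_apply_mem x)

lemma inner_P_comm (M : Submodule ℝ E) (x y : E) :
    ⟪M.starProjection x, y⟫ = ⟪x, M.starProjection y⟫ := by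
  rw [← inner_P_P, inner_P_left M x _ (M.starProjection_apply_mem y)]

lemma norm_P_sq (M : Submodule ℝ E) (x : E) :
    ‖M.starProjection x‖ ^ 2 = ⟪M.starProjection x, x⟫ := by
  rw [← real_inner_self_eq_norm_sq, inner_P_P]


lemma P_P_of_le {M N : Submodule ℝ E} (h : M ≤ N) (x : E) :
    M.starProjection (N.starProjection x) = M.starProjection x := by
  apply eq_starProjection_of_mem_of_inner_eq_zero (M.starProjection_apply_mem x)
  intro w hw
  rw [inner_sub_left, inner_P_left N x w (h hw), inner_P_left M x w hw]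
  ring

lemma P_P_of_le' {M N : Submodule ℝ E} (h : M ≤ N) (x : E) :
    N.starProjection (M.starProjection x) = M.starProjection x :=
  starProjection_eq_self_iff.2 (h (M.starProjection_apply_mem x))


/-! ### Rotation -/

















/-! ### Insertion -/












/-! ### Demotion -/




end Crest.Agent.R239.ProjRot557
end

-- ▼ part R239/FlagAlg_557

/-!
# R239 (583's proof): algebra of the level operators of a flag (helper557)

`M : ℕ → Submodule ℝ E` antitone, `M n = ⊥`, `P j = (M j).starProjection`, `Q j = P j - P (j+1)`,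
`comb i n c = ∑ j ∈ Ico i n, c j • Q j`; `H i = comb i n (th^(j-i))`, `Hi i = comb i n (th^(j-i))⁻¹`.
-/

set_option autoImplicit false
set_option linter.unusedSectionVars false

open scoped RealInnerProductSpace
open Submodule Finset

namespace Crest.Agent.R239.FlagAlg557

open Crest.Agent.R239.ProjRot557

variable {E : Type*} [NormedAddCommGroup E] [InnerProductSpace ℝ E] [FiniteDimensional ℝ E]

section defs

variable (M : ℕ → Submodule ℝ E)

/-- projection on `M j` -/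
noncomputable def P (j : ℕ) : E →L[ℝ] E := (M j).starProjection

/-- projection on the block `M j ⊖ M (j+1)` -/
noncomputable def Q (j : ℕ) : E →L[ℝ] E := P M j - P M (j + 1)

/-- block diagonal operator -/
noncomputable def comb (i n : ℕ) (c : ℕ → ℝ) : E →L[ℝ] E := ∑ j ∈ Ico i n, c j • Q M j

/-- level operator -/
noncomputable def H (th : ℝ) (n i : ℕ) : E →L[ℝ] E := comb M i n fun j => th ^ (j - i)

/-- inverse level operator -/
noncomputable def Hi (th : ℝ) (n i : ℕ) : E →L[ℝ] E := comb M i n fun j => (th ^ (j - i))⁻¹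

end defs

variable {M : ℕ → Submodule ℝ E}

lemma Q_apply (j : ℕ) (x : E) : Q M j x = P M j x - P M (j + 1) x := rfl

lemma comb_apply (i n : ℕ) (c : ℕ → ℝ) (x : E) :
    comb M i n c x = ∑ j ∈ Ico i n, c j • Q M j x := by
  simp [comb]

lemma P_mem (j : ℕ) (x : E) : P M j x ∈ M j := (M j).starProjection_apply_mem x

lemma P_of_mem {j : ℕ} {x : E} (hx : x ∈ M j) : P M j x = x := starProjection_eq_self_iff.2 hx


lemma P_eq_zero {n : ℕ} (hn : M n = ⊥) (x : E) : P M n x = 0 := by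
  have := P_mem (M := M) n x
  rw [hn] at this
  exact (Submodule.mem_bot ℝ).1 this

lemma inner_P_comm' (j : ℕ) (x y : E) : ⟪P M j x, y⟫ = ⟪x, P M j y⟫ := inner_P_comm (M j) x y

lemma inner_Q_comm (j : ℕ) (x y : E) : ⟪Q M j x, y⟫ = ⟪x, Q M j y⟫ := by
  rw [Q_apply, Q_apply, inner_sub_left, inner_sub_right, inner_P_comm', inner_P_comm']

lemma inner_comb_comm (i n : ℕ) (c : ℕ → ℝ) (x y : E) :
    ⟪comb M i n c x, y⟫ = ⟪x, comb M i n c y⟫ := by
  rw [comb_apply, comb_apply, sum_inner, inner_sum]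
  refine sum_congr rfl fun j _ => ?_
  rw [inner_smul_left, inner_smul_right, inner_Q_comm]
  simp

section anti

variable (hM : Antitone M)
include hM

lemma P_P {i j : ℕ} (h : i ≤ j) (x : E) : P M j (P M i x) = P M j x :=
  P_P_of_le (hM h) x

lemma P_P' {i j : ℕ} (h : i ≤ j) (x : E) : P M i (P M j x) = P M j x :=
  P_P_of_le' (hM h) x

lemma Q_mem (j : ℕ) (x : E) : Q M j x ∈ M j :=
  (M j).sub_mem (P_mem j x) (hM (Nat.le_succ j) (P_mem (j + 1) x))

lemma P_Q_of_le {i j : ℕ} (h : i ≤ j) (x : E) : P M i (Q M j x) = Q M j x :=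
  P_of_mem (hM h (Q_mem hM j x))

lemma P_Q_of_lt {i j : ℕ} (h : j < i) (x : E) : P M i (Q M j x) = 0 := by
  rw [Q_apply, map_sub, P_P hM h.le, P_P hM (Nat.succ_le_of_lt h), sub_self]

lemma Q_P_of_le {i j : ℕ} (h : i ≤ j) (x : E) : Q M j (P M i x) = Q M j x := by
  rw [Q_apply, Q_apply, P_P hM h, P_P hM (h.trans (Nat.le_succ j))]

lemma Q_P_of_lt {i j : ℕ} (h : j < i) (x : E) : Q M j (P M i x) = 0 := by
  rw [Q_apply, P_P' hM h.le, P_P' hM (Nat.succ_le_of_lt h), sub_self]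

lemma Q_Q_self (j : ℕ) (x : E) : Q M j (Q M j x) = Q M j x := by
  conv_lhs => rw [Q_apply, P_Q_of_le hM le_rfl, P_Q_of_lt hM (Nat.lt_succ_self j), sub_zero]

lemma Q_Q_ne {i j : ℕ} (h : i ≠ j) (x : E) : Q M i (Q M j x) = 0 := by
  rcases lt_or_gt_of_ne h with h | h
  · rw [Q_apply, P_Q_of_le hM h.le, P_Q_of_le hM (Nat.succ_le_of_lt h), sub_self]
  · rw [Q_apply, P_Q_of_lt hM h, P_Q_of_lt hM (h.trans (Nat.lt_succ_self i)), sub_self]

lemma inner_Q_Q_ne {i j : ℕ} (h : i ≠ j) (x y : E) : ⟪Q M i x, Q M j y⟫ = 0 := by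
  rw [inner_Q_comm, Q_Q_ne hM h, inner_zero_right]

lemma norm_Q_sq (j : ℕ) (x : E) : ‖Q M j x‖ ^ 2 = ⟪Q M j x, x⟫ := by
  rw [← real_inner_self_eq_norm_sq, ← inner_Q_comm, Q_Q_self hM]

lemma norm_Q_sq' (j : ℕ) (x : E) : ‖Q M j x‖ ^ 2 = ‖P M j x‖ ^ 2 - ‖P M (j + 1) x‖ ^ 2 := by
  rw [norm_Q_sq hM, Q_apply, inner_sub_left]
  rw [show ⟪P M j x, x⟫ = ‖P M j x‖ ^ 2 from (norm_P_sq (M j) x).symm,
    show ⟪P M (j + 1) x, x⟫ = ‖P M (j + 1) x‖ ^ 2 from (norm_P_sq (M (j + 1)) x).symm]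


lemma sum_Q (i m : ℕ) (h : i ≤ m) (x : E) : ∑ j ∈ Ico i m, Q M j x = P M i x - P M m x := by
  induction m, h using Nat.le_induction with
  | base => simp
  | succ m hm ih => rw [sum_Ico_succ_top hm, ih, Q_apply]; abel

lemma sum_norm_Q_sq (i m : ℕ) (h : i ≤ m) (x : E) :
    ∑ j ∈ Ico i m, ‖Q M j x‖ ^ 2 = ‖P M i x‖ ^ 2 - ‖P M m x‖ ^ 2 := by
  induction m, h using Nat.le_induction with
  | base => simp
  | succ m hm ih => rw [sum_Ico_succ_top hm, ih, norm_Q_sq' hM]; ring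

lemma norm_comb_sq (i n : ℕ) (c : ℕ → ℝ) (x : E) :
    ‖comb M i n c x‖ ^ 2 = ∑ j ∈ Ico i n, c j ^ 2 * ‖Q M j x‖ ^ 2 := by
  rw [← real_inner_self_eq_norm_sq, comb_apply, sum_inner]
  refine sum_congr rfl fun j hj => ?_
  rw [inner_sum, sum_eq_single j]
  · rw [inner_smul_left, inner_smul_right, real_inner_self_eq_norm_sq]; simp; ring
  · intro k _ hk
    rw [inner_smul_left, inner_smul_right, inner_Q_Q_ne hM (Ne.symm hk)]; simp
  · intro h; exact absurd hj h


lemma Q_comb {i n j : ℕ} (hj : j ∈ Ico i n) (c : ℕ → ℝ) (x : E) :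
    Q M j (comb M i n c x) = c j • Q M j x := by
  rw [comb_apply, map_sum, sum_eq_single j]
  · rw [map_smul, Q_Q_self hM]
  · intro k _ hk
    rw [map_smul, Q_Q_ne hM (Ne.symm hk), smul_zero]
  · intro h; exact absurd hj h



lemma comb_comb (i n : ℕ) (c c' : ℕ → ℝ) (x : E) :
    comb M i n c (comb M i n c' x) = comb M i n (fun j => c j * c' j) x := by
  rw [comb_apply i n c, comb_apply i n (fun j => c j * c' j)]
  refine sum_congr rfl fun j hj => ?_
  rw [Q_comb hM hj, smul_smul]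

lemma comb_mem (i n : ℕ) (c : ℕ → ℝ) (x : E) : comb M i n c x ∈ M i := by
  rw [comb_apply]
  refine (M i).sum_mem fun j hj => (M i).smul_mem _ ?_
  exact hM (Finset.mem_Ico.1 hj).1 (Q_mem hM j x)

lemma comb_one {i n : ℕ} (h : i ≤ n) (hn : M n = ⊥) (x : E) :
    comb M i n (fun _ => 1) x = P M i x := by
  rw [comb_apply]
  simp only [one_smul]
  rw [sum_Q hM i n h, P_eq_zero hn, sub_zero]


lemma P_comb_self {i n : ℕ} (c : ℕ → ℝ) (x : E) : P M i (comb M i n c x) = comb M i n c x :=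
  P_of_mem (comb_mem hM i n c x)

/-- `P_j` commutes with block diagonal operators and cuts the sum. -/
lemma P_comb {i j n : ℕ} (hij : i ≤ j) (hjn : j ≤ n) (c : ℕ → ℝ) (x : E) :
    P M j (comb M i n c x) = comb M j n c x := by
  rw [comb_apply, comb_apply, map_sum, ← sum_Ico_consecutive _ hij hjn]
  have h1 : ∑ k ∈ Ico i j, P M j (c k • Q M k x) = 0 := by
    refine sum_eq_zero fun k hk => ?_
    rw [map_smul, P_Q_of_lt hM (Finset.mem_Ico.1 hk).2, smul_zero]
  rw [h1, zero_add]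
  refine sum_congr rfl fun k hk => ?_
  rw [map_smul, P_Q_of_le hM (Finset.mem_Ico.1 hk).1]

lemma comb_P_ge {i j n : ℕ} (hij : i ≤ j) (hjn : j ≤ n) (c : ℕ → ℝ) (x : E) :
    comb M i n c (P M j x) = comb M j n c x := by
  rw [comb_apply, comb_apply, ← sum_Ico_consecutive _ hij hjn]
  have h1 : ∑ k ∈ Ico i j, c k • Q M k (P M j x) = 0 := by
    refine sum_eq_zero fun k hk => ?_
    rw [Q_P_of_lt hM (Finset.mem_Ico.1 hk).2, smul_zero]
  rw [h1, zero_add]
  refine sum_congr rfl fun k hk => ?_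
  rw [Q_P_of_le hM (Finset.mem_Ico.1 hk).1]

lemma norm_P_sq_sum {i n : ℕ} (h : i ≤ n) (hn : M n = ⊥) (x : E) :
    ‖P M i x‖ ^ 2 = ∑ j ∈ Ico i n, ‖Q M j x‖ ^ 2 := by
  rw [sum_norm_Q_sq hM i n h, P_eq_zero hn]; simp

/-! ### Level operators -/

variable {th : ℝ} (hth : 0 < th)
include hth

lemma H_Hi {i n : ℕ} (h : i ≤ n) (hn : M n = ⊥) (x : E) : H M th n i (Hi M th n i x) = P M i x := by
  rw [H, Hi, comb_comb hM, ← comb_one hM h hn]
  congr 1
  unfold comb
  refine sum_congr rfl fun j _ => ?_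
  simp only [mul_inv_cancel₀ (pow_ne_zero (j - i) hth.ne')]

lemma Hi_H {i n : ℕ} (h : i ≤ n) (hn : M n = ⊥) (x : E) : Hi M th n i (H M th n i x) = P M i x := by
  rw [H, Hi, comb_comb hM, ← comb_one hM h hn]
  congr 1
  unfold comb
  refine sum_congr rfl fun j _ => ?_
  simp only [inv_mul_cancel₀ (pow_ne_zero (j - i) hth.ne')]

omit hM hth in
/-- `om m = th^{-2m} - th^{-2(m-1)}`. -/
noncomputable def om (th : ℝ) (m : ℕ) : ℝ := (th ^ m)⁻¹ ^ 2 - (th ^ (m - 1))⁻¹ ^ 2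

omit hM in
lemma om_eq (m : ℕ) (hm : 1 ≤ m) : om th m = (th ^ m)⁻¹ ^ 2 * (1 - th ^ 2) := by
  obtain ⟨k, rfl⟩ := Nat.exists_eq_add_of_le' hm
  have h := hth.ne'
  rw [om, Nat.add_sub_cancel]
  field_simp
  ring

omit hM in
lemma om_nonneg (h1 : th ≤ 1) (m : ℕ) : 0 ≤ om th m := by
  unfold om
  have ha : (th ^ (m - 1))⁻¹ ≤ (th ^ m)⁻¹ := by
    apply inv_anti₀ (pow_pos hth _)
    exact pow_le_pow_of_le_one hth.le h1 (Nat.sub_le m 1)
  have hb : 0 ≤ (th ^ (m - 1))⁻¹ := by positivity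
  nlinarith [mul_le_mul ha ha hb (hb.trans ha)]


omit hth in
/-- Abel summation: the precision of level `i`. -/
lemma norm_Hi_sq {i n : ℕ} (h : i < n) (hn : M n = ⊥) (x : E) :
    ‖Hi M th n i x‖ ^ 2
      = ‖P M i x‖ ^ 2 + ∑ j ∈ Ico (i + 1) n, om th (j - i) * ‖P M j x‖ ^ 2 := by
  rw [Hi, norm_comb_sq hM]
  -- telescoping from the bottom
  have key : ∀ m, i + 1 ≤ m → m ≤ n →
      ∑ j ∈ Ico i m, ((th ^ (j - i))⁻¹) ^ 2 * ‖Q M j x‖ ^ 2
        = ‖P M i x‖ ^ 2 + ∑ j ∈ Ico (i + 1) m, om th (j - i) * ‖P M j x‖ ^ 2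
          - ((th ^ (m - 1 - i))⁻¹) ^ 2 * ‖P M m x‖ ^ 2 := by
    intro m hm
    induction m, hm using Nat.le_induction with
    | base =>
      intro _
      rw [Nat.Ico_succ_singleton, sum_singleton, norm_Q_sq' hM]
      simp
    | succ m hm ih =>
      intro hmn
      rw [sum_Ico_succ_top (by omega), ih (by omega), sum_Ico_succ_top hm, norm_Q_sq' hM, om]
      have e1 : m + 1 - 1 - i = m - i := by omega
      have e2 : m - i - 1 = m - 1 - i := by omega
      rw [e1, e2]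
      ring
  rw [key n h le_rfl, P_eq_zero hn]
  simp

omit hth in
lemma norm_H_sq (n i : ℕ) (x : E) :
    ‖H M th n i x‖ ^ 2 = ∑ j ∈ Ico i n, (th ^ (j - i)) ^ 2 * ‖Q M j x‖ ^ 2 := by
  rw [H, norm_comb_sq hM]


omit hth in
/-- `P_j H_i = th^{j-i} H_j` for `i ≤ j`. -/
lemma P_H {i j n : ℕ} (hij : i ≤ j) (hjn : j ≤ n) (x : E) :
    P M j (H M th n i x) = th ^ (j - i) • H M th n j x := by
  rw [H, P_comb hM hij hjn, H, comb_apply, comb_apply, smul_sum]
  refine sum_congr rfl fun k hk => ?_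
  rw [smul_smul, ← pow_add]
  congr 2
  have := (Finset.mem_Ico.1 hk).1
  omega

omit hth in
lemma H_P {i j n : ℕ} (hij : i ≤ j) (hjn : j ≤ n) (x : E) :
    H M th n i (P M j x) = th ^ (j - i) • H M th n j x := by
  rw [← P_H hM hij hjn, H, comb_P_ge hM hij hjn, P_comb hM hij hjn]


omit hth in
/-- second moment of `⟪v - P_j v, H_i g⟫`. -/
lemma norm_H_sub_sq {i j n : ℕ} (hij : i ≤ j) (hjn : j ≤ n) (x : E) :
    ‖H M th n i (x - P M j x)‖ ^ 2 = ∑ l ∈ Ico i j, (th ^ (l - i)) ^ 2 * ‖Q M l x‖ ^ 2 := by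
  rw [norm_H_sq hM, ← sum_Ico_consecutive _ hij hjn]
  have h2 : ∑ k ∈ Ico j n, (th ^ (k - i)) ^ 2 * ‖Q M k (x - P M j x)‖ ^ 2 = 0 := by
    refine sum_eq_zero fun k hk => ?_
    rw [map_sub, Q_P_of_le hM (Finset.mem_Ico.1 hk).1, sub_self]; simp
  rw [h2, add_zero]
  refine sum_congr rfl fun k hk => ?_
  rw [map_sub, Q_P_of_lt hM (Finset.mem_Ico.1 hk).2, sub_zero]

lemma norm_H_sub_sq_le (h1 : th ≤ 1) {i j n : ℕ} (hij : i ≤ j) (hjn : j ≤ n) (x : E) :
    ‖H M th n i (x - P M j x)‖ ^ 2 ≤ ‖P M i x‖ ^ 2 - ‖P M j x‖ ^ 2 := by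
  rw [norm_H_sub_sq hM hij hjn, ← sum_norm_Q_sq hM i j hij]
  refine sum_le_sum fun l _ => ?_
  have h2 : (th ^ (l - i)) ^ 2 ≤ 1 := by
    have := pow_le_one₀ hth.le h1 (n := l - i)
    have h0 : 0 ≤ th ^ (l - i) := by positivity
    nlinarith
  nlinarith [sq_nonneg ‖Q M l x‖]

/-- 284's exact identity: `‖H_i v‖² + Σ_j om ‖H_i P_j v‖² = ‖P_i v‖²`. -/
lemma trace_identity {i n : ℕ} (h : i < n) (hn : M n = ⊥) (x : E) :
    ‖H M th n i x‖ ^ 2 + ∑ j ∈ Ico (i + 1) n, om th (j - i) * ‖H M th n i (P M j x)‖ ^ 2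
      = ‖P M i x‖ ^ 2 := by
  have h0 := hth.ne'
  have e1 : ∀ j ∈ Ico (i + 1) n, ‖H M th n i (P M j x)‖ ^ 2
      = ‖P M j (H M th n i x)‖ ^ 2 := by
    intro j hj
    have := Finset.mem_Ico.1 hj
    rw [H_P hM (by omega) (by omega), P_H hM (by omega) (by omega)]
  rw [sum_congr rfl fun j hj => by rw [e1 j hj]]
  have e2 : ‖H M th n i x‖ ^ 2 = ‖P M i (H M th n i x)‖ ^ 2 := by
    rw [H, P_comb_self hM]
  rw [e2, ← norm_Hi_sq hM h hn, Hi_H hM hth h.le hn]

end anti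

end Crest.Agent.R239.FlagAlg557
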