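import Mathlib
import Crest.Agent.R239.FDef
import Crest.Agent.R239.F6core_696
import Crest.Agent.R239.Cmp_142
import Crest.Agent.R239.FlagAlg_557

-- ▼ part R239/F6b_696
section

/-! R239, block F6b (one level comparison over FDef), helper696: flag algebra needed for the level
comparison, the map `Rm = Hi' ∘ T ∘ H`, pull back of a competitor body of the tilted flag, half sums,
and the two final inequalities (direct form and half sum form).  Cap agnostic. -/


set_option autoImplicit false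
set_option linter.unusedSectionVars false
open MeasureTheory ProbabilityTheory Set Filter Topology Pointwise
open scoped RealInnerProductSpace

namespace Crest.Agent.R239.F6b696

open Crest.Agent.R239 (gau gau_real_apply)
open Crest.Agent.R239.FD
open Crest.Agent.R239.F6core696 (mix mem_mix mix_compact mix_nonempty mix_convex mix_neg mix_subset
  mix_preimage_subset Eh_mix Eh_pullback)

variable {E : Type*} [NormedAddCommGroup E] [InnerProductSpace ℝ E] [FiniteDimensional ℝ E]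
  [MeasurableSpace E] [BorelSpace E]


lemma gau_isProb (H : E →L[ℝ] E) : IsProbabilityMeasure (gau H) := by
  unfold gau
  exact Measure.isProbabilityMeasure_map H.continuous.measurable.aemeasurable

/-! ### elementary flag algebra -/

variable (V : Flag E)

lemma P_mem (j : ℕ) (x : E) : V.P j x ∈ V.M j := by
  unfold Flag.P
  exact Submodule.starProjection_apply_mem _ _

lemma P_of_mem {j : ℕ} {x : E} (hx : x ∈ V.M j) : V.P j x = x := by
  unfold Flag.P
  exact Submodule.starProjection_eq_self_iff.2 hx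

lemma Q_apply (j : ℕ) (x : E) : V.Q j x = V.P j x - V.P (j + 1) x := rfl

lemma H_apply (i : ℕ) (x : E) : V.H i x = ∑ j ∈ Finset.Ico i V.n, th ^ (j - i) • V.Q j x := by
  simp only [Flag.H, _root_.sum_apply, _root_.smul_apply]

lemma Hi_apply (i : ℕ) (x : E) :
    V.Hi i x = ∑ j ∈ Finset.Ico i V.n, (th⁻¹) ^ (j - i) • V.Q j x := by
  simp only [Flag.Hi, _root_.sum_apply, _root_.smul_apply]

lemma Q_mem {i j : ℕ} (hij : i ≤ j) (x : E) : V.Q j x ∈ V.M i := by
  rw [Q_apply]
  exact (V.M i).sub_mem (V.anti hij (P_mem V j x)) (V.anti (hij.trans (Nat.le_succ j)) (P_mem V _ x))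

lemma H_mem (i : ℕ) (g : E) : V.H i g ∈ V.M i := by
  rw [H_apply]
  refine Submodule.sum_mem _ fun j hj => ?_
  exact (V.M i).smul_mem _ (Q_mem V (Finset.mem_Ico.1 hj).1 g)

lemma P_P_of_le {i j : ℕ} (h : i ≤ j) (x : E) : V.P j (V.P i x) = V.P j x := by
  have h1 : V.P j (x - V.P i x) = 0 := by
    unfold Flag.P
    rw [Submodule.starProjection_apply_eq_zero_iff]
    have h2 : x - (V.M i).starProjection x ∈ (V.M i)ᗮ := Submodule.sub_starProjection_mem_orthogonal x
    exact Submodule.orthogonal_le (V.anti h) h2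
  rw [map_sub, sub_eq_zero] at h1
  exact h1.symm

lemma P_P_of_le' {i j : ℕ} (h : i ≤ j) (x : E) : V.P i (V.P j x) = V.P j x :=
  P_of_mem V (V.anti h (P_mem V j x))

lemma P_of_n_le {i : ℕ} (h : V.n ≤ i) (x : E) : V.P i x = 0 := by
  have := P_mem V i x
  rw [V.bot i h] at this
  simpa using this

lemma Q_Q_self (j : ℕ) (x : E) : V.Q j (V.Q j x) = V.Q j x := by
  simp only [Q_apply, map_sub]
  rw [P_P_of_le V le_rfl, P_P_of_le V (Nat.le_succ j), P_P_of_le' V (Nat.le_succ j),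
    P_P_of_le V le_rfl]
  abel

lemma Q_Q_ne {j l : ℕ} (h : j ≠ l) (x : E) : V.Q j (V.Q l x) = 0 := by
  rcases lt_or_gt_of_ne h with h | h
  · -- j < l
    have h1 : V.Q l x ∈ V.M (j + 1) := Q_mem V h x
    rw [Q_apply, P_of_mem V (V.anti (Nat.le_succ j) h1), P_of_mem V h1, sub_self]
  · simp only [Q_apply, map_sub]
    rw [P_P_of_le V h.le, P_P_of_le V (show l + 1 ≤ j from h), P_P_of_le V (show l ≤ j + 1 by omega),
      P_P_of_le V (show l + 1 ≤ j + 1 by omega)]
    abel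

lemma sum_Q (i : ℕ) (x : E) : ∑ j ∈ Finset.Ico i V.n, V.Q j x = V.P i x := by
  have key : ∀ m, i ≤ m → ∑ j ∈ Finset.Ico i m, V.Q j x = V.P i x - V.P m x := by
    intro m hm
    induction m, hm using Nat.le_induction with
    | base => simp
    | succ m hm ih =>
      rw [Finset.sum_Ico_succ_top hm, ih, Q_apply]; abel
  rcases le_total i V.n with h | h
  · rw [key _ h, P_of_n_le V le_rfl, sub_zero]
  · rw [Finset.Ico_eq_empty (by omega), P_of_n_le V h]; simp

lemma th_pos : (0 : ℝ) < th := by unfold th; norm_num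

lemma H_Hi (i : ℕ) (x : E) : V.H i (V.Hi i x) = V.P i x := by
  rw [H_apply, ← sum_Q V i x]
  refine Finset.sum_congr rfl fun j hj => ?_
  rw [Hi_apply, map_sum, Finset.sum_eq_single_of_mem j hj]
  · rw [map_smul, Q_Q_self, smul_smul, ← mul_pow, mul_inv_cancel₀ th_pos.ne', one_pow, one_smul]
  · intro l _ hl
    rw [map_smul, Q_Q_ne V (Ne.symm hl), smul_zero]



/-! ### the tilt -/

variable {v : E} {s : ℝ}


lemma Ts_mem (i : ℕ) {x : E} (hx : x ∈ V.M i) : Ts v s x ∈ (V.rot v s).M i :=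
  Submodule.mem_map_of_mem hx

/-- the comparison map of level `i` -/
noncomputable def Rm (V : Flag E) (v : E) (s : ℝ) (i : ℕ) : E →L[ℝ] E :=
  (V.rot v s).Hi i ∘L Ts v s ∘L V.H i

lemma Rm_apply (i : ℕ) (g : E) : Rm V v s i g = (V.rot v s).Hi i (Ts v s (V.H i g)) := rfl

/-- `T H g = H' R g` -/
lemma Ts_H (i : ℕ) (g : E) : Ts v s (V.H i g) = (V.rot v s).H i (Rm V v s i g) := by
  rw [Rm_apply, H_Hi, P_of_mem _ (Ts_mem V i (H_mem V i g))]



/-! ### values -/

lemma gau_real_le_one (H : E →L[ℝ] E) (A : Set E) : (gau H).real A ≤ 1 := by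
  have := gau_isProb H
  exact measureReal_le_one

lemma zero_mem_of_adm {p : Par} {V : Flag E} {i : ℕ} {K : Set E} (h : Adm p V i K) : (0 : E) ∈ K := by
  obtain ⟨_, hc, hsym, _, hpos⟩ := h
  have hne : K.Nonempty := by
    by_contra hcon
    rw [Set.not_nonempty_iff_eq_empty] at hcon
    rw [hcon] at hpos
    simp at hpos
  obtain ⟨x, hx⟩ := hne
  have := hc hx (hsym x hx) (show (0 : ℝ) ≤ 1 / 2 by norm_num) (show (0 : ℝ) ≤ 1 / 2 by norm_num)
    (by norm_num)
  simpa using this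

lemma hs_nonneg {K : Set E} (h0 : (0 : E) ∈ K) (z : E) : 0 ≤ hs K z := by
  unfold hs
  by_cases hb : BddAbove ((fun x : E => ⟪x, z⟫) '' K)
  · exact le_csSup hb ⟨0, h0, by simp⟩
  · rw [Real.sSup_of_not_bddAbove hb]

lemma Eh_nonneg {K : Set E} (h0 : (0 : E) ∈ K) (μ : Multiset E) : 0 ≤ Eh K μ := by
  unfold Eh
  apply Multiset.sum_nonneg
  intro y hy
  obtain ⟨z, _, rfl⟩ := Multiset.mem_map.1 hy
  exact hs_nonneg h0 z

lemma val_nonneg {p : Par} (hlam : ∀ i, 0 ≤ p.lam i) {V : Flag E} {i : ℕ} {μ : Multiset E}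
    {K : Set E} (h : Adm p V i K) : 0 ≤ val p V i μ K := by
  unfold val
  have h1 := Eh_nonneg (zero_mem_of_adm h) μ
  have h2 : Real.log ((gau (V.H i)).real K) ≤ 0 :=
    Real.log_nonpos measureReal_nonneg (gau_real_le_one _ _)
  nlinarith [hlam i]

lemma D_le_val {p : Par} (hlam : ∀ i, 0 ≤ p.lam i) {V : Flag E} {i : ℕ} {μ : Multiset E}
    {K : Set E} (h : Adm p V i K) : D p V i μ ≤ val p V i μ K := by
  unfold D
  refine csInf_le ⟨0, ?_⟩ ⟨K, h, rfl⟩
  rintro _ ⟨K', h', rfl⟩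
  exact val_nonneg hlam h'

/-! ### half sums -/

lemma gau_mix_pos {H : E →L[ℝ] E} {K Q : Set E} (hK : IsCompact K) (hQ : IsCompact Q)
    (hKp : 0 < (gau H).real K) (hQp : 0 < (gau H).real Q) :
    0 < (gau H).real (mix (1 / 2) K Q) := by
  have hW : IsCompact (mix (1 / 2 : ℝ) K Q) := mix_compact hK hQ
  rw [gau_real_apply H hK.measurableSet] at hKp
  rw [gau_real_apply H hQ.measurableSet] at hQp
  rw [gau_real_apply H hW.measurableSet]
  have hm := H.continuous.measurable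
  have h := Cmp142.pl_sets (E := E) (t := (1 / 2 : ℝ)) (by norm_num) (by norm_num)
    (hm hK.measurableSet) (hm hQ.measurableSet) (hm hW.measurableSet) (fun x hx y hy =>
      mix_preimage_subset H K Q (mem_mix.2 ⟨x, hx, y, hy, rfl⟩))
  have h1 : (stdGaussian E) (H ⁻¹' K) ≠ 0 := fun h0 => by
    rw [measureReal_def, h0] at hKp; simp at hKp
  have h2 : (stdGaussian E) (H ⁻¹' Q) ≠ 0 := fun h0 => by
    rw [measureReal_def, h0] at hQp; simp at hQp
  have h3 : (stdGaussian E) (H ⁻¹' (mix (1 / 2 : ℝ) K Q)) ≠ 0 := by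
    intro h0
    rw [h0, nonpos_iff_eq_zero, mul_eq_zero] at h
    rcases h with h | h
    · exact absurd h (ENNReal.rpow_pos (pos_iff_ne_zero.2 h1) (measure_ne_top _ _)).ne'
    · exact absurd h (ENNReal.rpow_pos (pos_iff_ne_zero.2 h2) (measure_ne_top _ _)).ne'
  rw [measureReal_def]
  exact ENNReal.toReal_pos h3 (measure_ne_top _ _)

lemma Adm_mix {p : Par} {V : Flag E} {i : ℕ} (hcapC : IsCompact (V.cap p.rho i))
    (hcapV : Convex ℝ (V.cap p.rho i)) {K Q : Set E} (hK : Adm p V i K) (hQ : Adm p V i Q) :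
    Adm p V i (mix (1 / 2) K Q) := by
  have hKc : IsCompact K := hcapC.of_isClosed_subset hK.1 hK.2.2.2.1
  have hQc : IsCompact Q := hcapC.of_isClosed_subset hQ.1 hQ.2.2.2.1
  refine ⟨(mix_compact hKc hQc).isClosed, mix_convex hK.2.1 hQ.2.1, mix_neg hK.2.2.1 hQ.2.2.1,
    mix_subset (by norm_num) (by norm_num) hcapV hK.2.2.2.1 hQ.2.2.2.1, ?_⟩
  exact gau_mix_pos hKc hQc hK.2.2.2.2 hQ.2.2.2.2

/-! ### the pulled back body -/

/-- `T_s⁻¹ K2 ∩ M_i` -/
def Qb (V : Flag E) (v : E) (s : ℝ) (i : ℕ) (K2 : Set E) : Set E :=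
  Ts v s ⁻¹' K2 ∩ (V.M i : Set E)








end Crest.Agent.R239.F6b696
end

-- ▼ part R239/AdmHalf_606

/-! R239, block F6 (one level comparison), helper606: the cap is a compact convex symmetric body,
admissibility of the pulled back body and of the half sum, `Eh` and `gau` of the half sum. -/

set_option autoImplicit false
set_option linter.unusedSectionVars false
open MeasureTheory ProbabilityTheory Set Filter Topology Pointwise
open scoped RealInnerProductSpace

namespace Crest.Agent.R239.AdmHalf606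

open Crest.Agent.R239 Crest.Agent.R239.FD
open Crest.Agent.R239.F6core696 (mix mem_mix mix_compact mix_nonempty mix_convex mix_neg mix_subset)

variable {E : Type*} [NormedAddCommGroup E] [InnerProductSpace ℝ E] [FiniteDimensional ℝ E]
  [MeasurableSpace E] [BorelSpace E]

lemma th_pos : (0 : ℝ) < th := by norm_num [th]
lemma one_le_thinv : (1 : ℝ) ≤ th⁻¹ := by norm_num [th]

/-! ### the form `N` and the cap -/

section cap

variable (V : Flag E) (i : ℕ)



lemma N_neg (x : E) : V.N i (-x) = V.N i x := by simp [Flag.N]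

lemma continuous_N : Continuous (V.N i) := by
  unfold Flag.N
  fun_prop

lemma N_convex {a b : ℝ} (ha : 0 ≤ a) (hb : 0 ≤ b) (hab : a + b = 1) (x y : E) :
    V.N i (a • x + b • y) ≤ a * V.N i x + b * V.N i y := by
  unfold Flag.N
  rw [Finset.mul_sum, Finset.mul_sum, ← Finset.sum_add_distrib]
  apply Finset.sum_le_sum
  intro j _
  have hc : (0 : ℝ) ≤ (th⁻¹) ^ (j - i) := pow_nonneg (by norm_num [th]) _
  have h1 : ‖V.Q j (a • x + b • y)‖ ≤ a * ‖V.Q j x‖ + b * ‖V.Q j y‖ := by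
    rw [map_add, map_smul, map_smul]
    refine (norm_add_le _ _).trans ?_
    rw [norm_smul, norm_smul, Real.norm_of_nonneg ha, Real.norm_of_nonneg hb]
  have h2 : ‖V.Q j (a • x + b • y)‖ ^ 2 ≤ a * ‖V.Q j x‖ ^ 2 + b * ‖V.Q j y‖ ^ 2 := by
    have h3 : ‖V.Q j (a • x + b • y)‖ ^ 2 ≤ (a * ‖V.Q j x‖ + b * ‖V.Q j y‖) ^ 2 :=
      pow_le_pow_left₀ (norm_nonneg _) h1 2
    have hb' : b = 1 - a := by linarith
    subst hb'
    nlinarith [mul_nonneg (mul_nonneg ha hb) (sq_nonneg (‖V.Q j x‖ - ‖V.Q j y‖))]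
  nlinarith [mul_le_mul_of_nonneg_left h2 hc]

/-- decomposition of a vector of `M i` in blocks -/
lemma sum_Q_of_mem {x : E} (hx : x ∈ V.M i) : ∑ j ∈ Finset.Ico i V.n, V.Q j x = x := by
  by_cases h : i ≤ V.n
  · have h1 := FlagAlg557.sum_Q (M := V.M) V.anti i V.n h x
    have h2 : FlagAlg557.P V.M i x = x := FlagAlg557.P_of_mem (M := V.M) hx
    have h3 : FlagAlg557.P V.M V.n x = 0 := FlagAlg557.P_eq_zero (M := V.M) (V.bot _ le_rfl) x
    rw [h2, h3, sub_zero] at h1
    exact h1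
  · have h0 : V.M i = ⊥ := V.bot i (by omega)
    rw [h0, Submodule.mem_bot] at hx
    subst hx
    simp

lemma norm_sq_Q_le_N {j : ℕ} (hj : j ∈ Finset.Ico i V.n) (x : E) : ‖V.Q j x‖ ^ 2 ≤ V.N i x := by
  have h1 : (th⁻¹) ^ (j - i) * ‖V.Q j x‖ ^ 2 ≤ V.N i x :=
    Finset.single_le_sum (f := fun j => (th⁻¹) ^ (j - i) * ‖V.Q j x‖ ^ 2)
      (fun j _ => mul_nonneg (pow_nonneg (by norm_num [th]) _) (sq_nonneg _)) hj
  have h2 : (1 : ℝ) ≤ (th⁻¹) ^ (j - i) := one_le_pow₀ one_le_thinv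
  nlinarith [sq_nonneg ‖V.Q j x‖]

lemma norm_le_of_mem {x : E} (hx : x ∈ V.M i) : ‖x‖ ≤ (V.n : ℝ) * Real.sqrt (V.N i x) := by
  have h := sum_Q_of_mem V i hx
  calc ‖x‖ = ‖∑ j ∈ Finset.Ico i V.n, V.Q j x‖ := by rw [h]
    _ ≤ ∑ j ∈ Finset.Ico i V.n, ‖V.Q j x‖ := norm_sum_le _ _
    _ ≤ ∑ _j ∈ Finset.Ico i V.n, Real.sqrt (V.N i x) := by
        apply Finset.sum_le_sum
        intro j hj
        exact Real.le_sqrt_of_sq_le (norm_sq_Q_le_N V i hj x)
    _ = ((V.n - i : ℕ) : ℝ) * Real.sqrt (V.N i x) := by simp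
    _ ≤ (V.n : ℝ) * Real.sqrt (V.N i x) := by
        apply mul_le_mul_of_nonneg_right _ (Real.sqrt_nonneg _)
        exact_mod_cast Nat.sub_le _ _

lemma cap_closed (rho : ℝ) : IsClosed (V.cap rho i) := by
  have h1 : IsClosed (V.M i : Set E) := Submodule.closed_of_finiteDimensional _
  exact h1.inter (isClosed_le (continuous_N V i) continuous_const)

lemma cap_convex (rho : ℝ) : Convex ℝ (V.cap rho i) := by
  rintro x ⟨hx1, hx2⟩ y ⟨hy1, hy2⟩ a b ha hb hab
  refine ⟨(V.M i).add_mem ((V.M i).smul_mem _ hx1) ((V.M i).smul_mem _ hy1), ?_⟩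
  have h := N_convex V i ha hb hab x y
  have h2 : a * V.N i x + b * V.N i y ≤ a * (rho ^ 2 * V.rr i) + b * (rho ^ 2 * V.rr i) :=
    add_le_add (mul_le_mul_of_nonneg_left hx2 ha) (mul_le_mul_of_nonneg_left hy2 hb)
  have h3 : a * (rho ^ 2 * V.rr i) + b * (rho ^ 2 * V.rr i) = rho ^ 2 * V.rr i := by
    rw [← add_mul, hab, one_mul]
  linarith

lemma cap_neg (rho : ℝ) {x : E} (hx : x ∈ V.cap rho i) : -x ∈ V.cap rho i :=
  ⟨(V.M i).neg_mem hx.1, by rw [N_neg]; exact hx.2⟩

lemma cap_compact (rho : ℝ) : IsCompact (V.cap rho i) := by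
  apply Metric.isCompact_of_isClosed_isBounded (cap_closed V i rho)
  apply (Metric.isBounded_closedBall (x := (0 : E))
    (r := (V.n : ℝ) * Real.sqrt (rho ^ 2 * V.rr i))).subset
  intro x hx
  rw [mem_closedBall_zero_iff]
  refine (norm_le_of_mem V i hx.1).trans ?_
  exact mul_le_mul_of_nonneg_left (Real.sqrt_le_sqrt hx.2) (Nat.cast_nonneg _)

end cap

/-! ### admissible bodies -/

section adm

variable {p : Par} {V : Flag E} {i : ℕ} {K : Set E}

lemma adm_compact (h : Adm p V i K) : IsCompact K :=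
  (cap_compact V i p.rho).of_isClosed_subset h.1 h.2.2.2.1









end adm

/-! ### `Ts` -/

section Ts

variable {v : E} {s : ℝ}

lemma H_mem (V : Flag E) (i : ℕ) (g : E) : V.H i g ∈ V.M i := by
  have h := FlagAlg557.comb_mem (M := V.M) V.anti (i := i) (n := V.n) (fun j => th ^ (j - i)) g
  exact h

lemma H_eq (V : Flag E) (i : ℕ) : V.H i = FlagAlg557.H V.M th V.n i := rfl



end Ts

end Crest.Agent.R239.AdmHalf606
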