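import Crest.Agent.R239.Gau1

-- ▼ part R239/Gau4

/-! General Gaussian tools for R239, part 4 (helper622): line decomposition, Cameron–Martin,
shift lemma, norm tails. -/

set_option autoImplicit false
set_option linter.unusedSectionVars false
open MeasureTheory ProbabilityTheory Set Filter Topology Metric
open scoped RealInnerProductSpace ENNReal NNReal InnerProduct Pointwise

namespace Crest.Agent.R239

open Crest.Agent.Lib.Ehrhard

variable {E : Type*} [NormedAddCommGroup E] [InnerProductSpace ℝ E] [FiniteDimensional ℝ E]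
  [MeasurableSpace E] [BorelSpace E]
variable {F : Type*} [NormedAddCommGroup F] [InnerProductSpace ℝ F] [FiniteDimensional ℝ F]
  [MeasurableSpace F] [BorelSpace F]

lemma stdGaussian_real : stdGaussian ℝ = gaussianReal 0 1 := by
  apply Measure.ext_of_charFun
  ext t
  rw [charFun_stdGaussian, charFun_gaussianReal]
  congr 1
  have : ((‖t‖ : ℝ) : ℂ) ^ 2 = (t : ℂ) ^ 2 := by
    norm_cast
    rw [Real.norm_eq_abs, sq_abs]
  rw [this]
  simp
  ring

/-- projection on the orthogonal complement of the unit vector `n` (as a map `E → E`) -/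
noncomputable def proj (n : E) : E →L[ℝ] E :=
  ContinuousLinearMap.id ℝ E - (innerSL ℝ n : E →L[ℝ] ℝ).smulRight n

lemma proj_apply (n x : E) : proj n x = x - ⟪n, x⟫ • n := by
  simp [proj]

lemma inner_proj {n : E} (hn : ‖n‖ = 1) (x : E) : ⟪n, proj n x⟫ = 0 := by
  rw [proj_apply, inner_sub_right, inner_smul_right, real_inner_self_eq_norm_sq, hn]
  ring


lemma adjoint_toSpanSingleton (n t : E) :
    (ContinuousLinearMap.toSpanSingleton ℝ n).adjoint t = ⟪n, t⟫ := by
  apply ext_inner_right ℝ
  intro s
  rw [ContinuousLinearMap.adjoint_inner_left]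
  simp [inner_smul_right, real_inner_comm]

lemma adjoint_proj (n t : E) : (proj n).adjoint t = proj n t := by
  apply ext_inner_right ℝ
  intro x
  rw [ContinuousLinearMap.adjoint_inner_left, proj_apply, proj_apply, inner_sub_right,
    inner_sub_left, inner_smul_right, inner_smul_left, real_inner_comm t n]
  simp
  ring

/-- The line decomposition: `s n + P_n y` is standard Gaussian for independent standard `s, y`. -/
theorem line_decomp {n : E} (hn : ‖n‖ = 1) :
    ((gaussianReal 0 1).prod (stdGaussian E)).map (fun p => p.1 • n + proj n p.2)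
      = stdGaussian E := by
  have h := map_add_prod (A := ContinuousLinearMap.toSpanSingleton ℝ n) (B := proj n)
    (C := ContinuousLinearMap.id ℝ E) (by
      intro t
      rw [adjoint_toSpanSingleton, adjoint_proj, adjoint_id', ContinuousLinearMap.id_apply]
      have h1 : ‖proj n t‖ ^ 2 = ‖t‖ ^ 2 - ⟪n, t⟫ ^ 2 := by
        rw [proj_apply, norm_sub_sq_real, norm_smul, inner_smul_right, hn, real_inner_comm,
          Real.norm_eq_abs, mul_one, sq_abs]
        ring
      rw [h1, Real.norm_eq_abs, sq_abs]
      ring)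
  rw [stdGaussian_real, gau_id] at h
  exact h

lemma measurable_line (n : E) : Measurable (fun p : ℝ × E => p.1 • n + proj n p.2) := by
  fun_prop

theorem line_lintegral {n : E} (hn : ‖n‖ = 1) {f : E → ℝ≥0∞} (hf : Measurable f) :
    ∫⁻ x, f x ∂(stdGaussian E)
      = ∫⁻ y, ∫⁻ s, f (s • n + proj n y) ∂(gaussianReal 0 1) ∂(stdGaussian E) := by
  conv_lhs => rw [← line_decomp hn]
  rw [lintegral_map hf (measurable_line n), lintegral_prod_symm]
  exact (hf.comp (measurable_line n)).aemeasurable




/-! ### Cameron–Martin -/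










/-! ### Norm tails -/









/-- second moment of the norm -/
theorem integral_norm_sq_gau (T : F →L[ℝ] E) (n : E) :
    ∫ x, ⟪n, x⟫ ^ 2 ∂(gau T) = ‖T.adjoint n‖ ^ 2 := by
  have h1 : ∫ x, ⟪n, x⟫ ^ 2 ∂(gau T) = ∫ s, s ^ 2 ∂((gau T).map (fun x => ⟪n, x⟫)) := by
    rw [integral_map (by fun_prop) (by fun_prop)]
  rw [h1, gau_map_inner]
  have h2 := variance_fun_id_gaussianReal (μ := 0) (v := ‖T.adjoint n‖₊ ^ 2)
  rw [variance_of_integral_eq_zero (by fun_prop) (by simp)] at h2
  simpa using h2

end Crest.Agent.R239
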