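import Mathlib

-- ▼ part R239/Ins_556
section

/-! R239 / S0370, block L12 (insertion), part 1: linear algebra of `M ⊔ ℝ ∙ v` (helper556). -/

set_option autoImplicit false
set_option linter.unusedSectionVars false
open Submodule
open scoped RealInnerProductSpace

namespace Crest.Agent.R239.Ins556

variable {E : Type*} [NormedAddCommGroup E] [InnerProductSpace ℝ E] [FiniteDimensional ℝ E]

/-- normalised component of `v` orthogonal to `M` (zero if `v ∈ M`). -/
noncomputable def nn (M : Submodule ℝ E) (v : E) : E :=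
  ‖v - M.starProjection v‖⁻¹ • (v - M.starProjection v)

lemma nn_mem_orth (M : Submodule ℝ E) (v : E) : nn M v ∈ Mᗮ :=
  Submodule.smul_mem _ _ (sub_starProjection_mem_orthogonal v)

lemma nn_mem_sup (M : Submodule ℝ E) (v : E) : nn M v ∈ M ⊔ ℝ ∙ v := by
  refine Submodule.smul_mem _ _ (Submodule.sub_mem _ ?_ ?_)
  · exact (le_sup_right : ℝ ∙ v ≤ M ⊔ ℝ ∙ v) (Submodule.mem_span_singleton_self v)
  · exact (le_sup_left : M ≤ M ⊔ ℝ ∙ v) (starProjection_apply_mem M v)

lemma nn_eq_zero {M : Submodule ℝ E} {v : E} (h : v ∈ M) : nn M v = 0 := by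
  have : M.starProjection v = v := starProjection_eq_self_iff.2 h
  simp [nn, this]

lemma norm_nn {M : Submodule ℝ E} {v : E} (h : v ∉ M) : ‖nn M v‖ = 1 := by
  have h1 : v - M.starProjection v ≠ 0 := by
    intro h0
    apply h
    have : M.starProjection v = v := (sub_eq_zero.1 h0).symm
    exact starProjection_eq_self_iff.1 this
  unfold nn
  rw [norm_smul, norm_inv, norm_norm]
  exact inv_mul_cancel₀ (norm_ne_zero_iff.2 h1)

lemma norm_nn_le (M : Submodule ℝ E) (v : E) : ‖nn M v‖ ≤ 1 := by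
  by_cases h : v ∈ M
  · simp [nn_eq_zero h]
  · exact (norm_nn h).le

lemma starProjection_sup (M : Submodule ℝ E) (v x : E) :
    (M ⊔ ℝ ∙ v).starProjection x = M.starProjection x + ⟪nn M v, x⟫ • nn M v := by
  apply eq_starProjection_of_mem_orthogonal
  · exact Submodule.add_mem _ ((le_sup_left : M ≤ M ⊔ ℝ ∙ v) (starProjection_apply_mem M x))
      (Submodule.smul_mem _ _ (nn_mem_sup M v))
  · rw [Submodule.mem_orthogonal]
    intro y hy
    rw [Submodule.mem_sup] at hy
    obtain ⟨a, ha, b, hb, rfl⟩ := hy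
    obtain ⟨c, rfl⟩ := Submodule.mem_span_singleton.1 hb
    have hn := nn_mem_orth M v
    have h1 : ⟪a, nn M v⟫ = 0 := (Submodule.mem_orthogonal _ _).1 hn a ha
    have h2 : ⟪a, x - M.starProjection x⟫ = 0 :=
      (Submodule.mem_orthogonal _ _).1 (sub_starProjection_mem_orthogonal x) a ha
    -- `v = P v + r • n`
    have hv : v = M.starProjection v + ‖v - M.starProjection v‖ • nn M v := by
      unfold nn
      by_cases h0 : v - M.starProjection v = 0
      · rw [h0]; simp only [norm_zero, smul_zero, add_zero]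
        exact sub_eq_zero.1 h0
      · rw [smul_smul, mul_inv_cancel₀ (norm_ne_zero_iff.2 h0), one_smul]
        abel
    have h3 : ⟪M.starProjection v, x - M.starProjection x⟫ = 0 :=
      (Submodule.mem_orthogonal _ _).1 (sub_starProjection_mem_orthogonal x) _
        (starProjection_apply_mem M v)
    have h4 : ⟪M.starProjection v, nn M v⟫ = 0 :=
      (Submodule.mem_orthogonal _ _).1 hn _ (starProjection_apply_mem M v)
    have h5 : ⟪nn M v, M.starProjection x⟫ = 0 := by
      rw [real_inner_comm]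
      exact (Submodule.mem_orthogonal _ _).1 hn _ (starProjection_apply_mem M x)
    have key : ⟪v, x - (M.starProjection x + ⟪nn M v, x⟫ • nn M v)⟫ = 0 := by
      have e : x - (M.starProjection x + ⟪nn M v, x⟫ • nn M v)
          = (x - M.starProjection x) - ⟪nn M v, x⟫ • nn M v := by abel
      have gen : ∀ w : E, w = M.starProjection v + ‖v - M.starProjection v‖ • nn M v →
          ⟪w, x - (M.starProjection x + ⟪nn M v, x⟫ • nn M v)⟫ = 0 := by
        intro w hw
        rw [e, hw, inner_sub_right, inner_add_left, inner_add_left, inner_smul_left,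
          inner_smul_left, inner_smul_right, inner_smul_right, h3, h4, inner_sub_right, h5]
        simp only [conj_trivial]
        by_cases h : v ∈ M
        · simp [nn_eq_zero h]
        · have : ⟪nn M v, nn M v⟫ = 1 := by
            rw [real_inner_self_eq_norm_sq, norm_nn h]; norm_num
          rw [this]; ring
      exact gen v hv
    rw [inner_add_left, inner_smul_left, key]
    have e : x - (M.starProjection x + ⟪nn M v, x⟫ • nn M v)
          = (x - M.starProjection x) - ⟪nn M v, x⟫ • nn M v := by abel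
    rw [e, inner_sub_right, h2, inner_smul_right, h1]
    simp

lemma inner_proj_nn (M : Submodule ℝ E) (v x : E) : ⟪M.starProjection x, nn M v⟫ = 0 :=
  (Submodule.mem_orthogonal _ _).1 (nn_mem_orth M v) _ (starProjection_apply_mem M x)

lemma norm_sq_starProjection_sup (M : Submodule ℝ E) (v x : E) :
    ‖(M ⊔ ℝ ∙ v).starProjection x‖ ^ 2 = ‖M.starProjection x‖ ^ 2 + ⟪nn M v, x⟫ ^ 2 := by
  rw [starProjection_sup, norm_add_sq_real, inner_smul_right, inner_proj_nn, norm_smul]
  by_cases h : v ∈ M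
  · simp [nn_eq_zero h]
  · rw [norm_nn h]
    simp [Real.norm_eq_abs, sq_abs]

lemma finrank_sup (M : Submodule ℝ E) (v : E) [Decidable (v ∈ M)] :
    Module.finrank ℝ ↥(M ⊔ ℝ ∙ v) = Module.finrank ℝ ↥M + (if v ∈ M then 0 else 1) := by
  split_ifs with h
  · have : M ⊔ ℝ ∙ v = M := by
      rw [sup_eq_left, Submodule.span_singleton_le_iff_mem]; exact h
    rw [this]; simp
  · have h1 := Submodule.finrank_sup_add_finrank_inf_eq M (ℝ ∙ v)
    have hv : v ≠ 0 := by rintro rfl; exact h (Submodule.zero_mem _)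
    have h2 : M ⊓ ℝ ∙ v = ⊥ := by
      rw [← disjoint_iff, Submodule.disjoint_span_singleton' hv]
      exact h
    rw [h2, finrank_bot, finrank_span_singleton hv] at h1
    simpa using h1

/-- The inserted flag. -/
noncomputable def insM (M : ℕ → Submodule ℝ E) (v : E) (I : ℕ) (i : ℕ) : Submodule ℝ E :=
  if i ≤ I then M i ⊔ ℝ ∙ v else M i

lemma insM_le {M : ℕ → Submodule ℝ E} {v : E} {I i : ℕ} (h : i ≤ I) :
    insM M v I i = M i ⊔ ℝ ∙ v := if_pos h

lemma insM_gt {M : ℕ → Submodule ℝ E} {v : E} {I i : ℕ} (h : I < i) :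
    insM M v I i = M i := if_neg (not_le.2 h)

lemma le_insM (M : ℕ → Submodule ℝ E) (v : E) (I i : ℕ) : M i ≤ insM M v I i := by
  unfold insM; split_ifs
  · exact le_sup_left
  · exact le_rfl

lemma insM_antitone {M : ℕ → Submodule ℝ E} (hM : Antitone M) (v : E) (I : ℕ) :
    Antitone (insM M v I) := by
  intro i j hij
  by_cases hj : j ≤ I
  · rw [insM_le hj, insM_le (hij.trans hj)]
    exact sup_le_sup_right (hM hij) _
  · rw [insM_gt (not_le.1 hj)]
    exact (hM hij).trans (le_insM M v I i)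

lemma insM_bot {M : ℕ → Submodule ℝ E} {v : E} {I N : ℕ} (hI : I < N) (hN : M N = ⊥) :
    insM M v I N = ⊥ := by rw [insM_gt hI, hN]

/-- penalty of the inserted flag (real form, one dimension at level `I`). -/
lemma pen_ins {M : ℕ → Submodule ℝ E} (hM : Antitone M) (v : E) {I N : ℕ} (lam : ℕ → ℝ)
    (hl : ∀ i, 0 ≤ lam i) (hI : I < N) :
    ∑ j ∈ Finset.range N, lam j * ((Module.finrank ℝ ↥(insM M v I j) : ℝ)
        - (Module.finrank ℝ ↥(insM M v I (j + 1)) : ℝ))
      ≤ ∑ j ∈ Finset.range N, lam j * ((Module.finrank ℝ ↥(M j) : ℝ)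
        - (Module.finrank ℝ ↥(M (j + 1)) : ℝ)) + lam I := by
  classical
  have hd : ∀ j, (Module.finrank ℝ ↥(insM M v I j) : ℝ)
      = (Module.finrank ℝ ↥(M j) : ℝ) + (if j ≤ I ∧ v ∉ M j then 1 else 0) := by
    intro j
    by_cases hj : j ≤ I
    · rw [insM_le hj, finrank_sup]
      by_cases hv : v ∈ M j <;> simp [hj, hv]
    · rw [insM_gt (not_le.1 hj)]
      simp [hj]
  have h1 : ∑ j ∈ Finset.range N, lam j * ((if j = I then (1 : ℝ) else 0)) = lam I := by
    simp [Finset.sum_ite_eq', hI]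
  calc ∑ j ∈ Finset.range N, lam j * ((Module.finrank ℝ ↥(insM M v I j) : ℝ)
        - (Module.finrank ℝ ↥(insM M v I (j + 1)) : ℝ))
      ≤ ∑ j ∈ Finset.range N, (lam j * ((Module.finrank ℝ ↥(M j) : ℝ)
        - (Module.finrank ℝ ↥(M (j + 1)) : ℝ)) + lam j * ((if j = I then (1 : ℝ) else 0))) := by
        apply Finset.sum_le_sum
        intro j _
        rw [← mul_add]
        apply mul_le_mul_of_nonneg_left _ (hl j)
        rw [hd, hd]
        have hmono : v ∈ M (j + 1) → v ∈ M j := fun h => hM (Nat.le_succ j) h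
        by_cases h1 : j = I
        · subst h1
          by_cases hv : v ∈ M j
          · simp [hv]
          · simp only [le_refl, hv, not_false_eq_true, and_self, ↓reduceIte, add_le_iff_nonpos_right,
              Nat.not_succ_le_self, false_and, Nat.succ_eq_add_one, add_zero]
            linarith
        · by_cases h2 : j < I
          · have h3 : j ≤ I := h2.le
            have h4 : j + 1 ≤ I := h2
            by_cases hv : v ∈ M j
            · by_cases hv' : v ∈ M (j + 1)
              · simp [hv, hv', h1, h3, h4]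
              · simp only [h3, hv, not_true_eq_false, and_false, ↓reduceIte, add_zero, h4, hv',
                  not_false_eq_true, and_self, h1]
                linarith
            · have hv' : v ∉ M (j + 1) := fun h => hv (hmono h)
              simp [hv, hv', h1, h3, h4]
          · have h3 : ¬ j ≤ I := fun h => h2 (lt_of_le_of_ne h h1)
            have h4 : ¬ j + 1 ≤ I := fun h => h2 h
            simp [h1, h3, h4]
    _ = _ := by rw [Finset.sum_add_distrib, h1]

lemma starProjection_trans {M K : Submodule ℝ E} (h : K ≤ M) (x : E) :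
    K.starProjection x = K.starProjection (M.starProjection x) := by
  have h1 := starProjection_comp_starProjection_of_le h
  have h2 := congrArg (fun f => f x) h1
  simpa using h2.symm


end Crest.Agent.R239.Ins556
end

-- ▼ part R239/Ins_556b

/-! R239 / S0370, block F3 (insertion), part 2: the operators `H`, `H⁻¹` of a flag and the
comparison of the levels of the inserted flag (helper556).  Generic in the flag `M : ℕ → Submodule`. -/

set_option autoImplicit false
set_option linter.unusedSectionVars false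
open Submodule
open scoped RealInnerProductSpace

namespace Crest.Agent.R239.Ins556

variable {E : Type*} [NormedAddCommGroup E] [InnerProductSpace ℝ E] [FiniteDimensional ℝ E]

/-- block projection -/
noncomputable def Qp (M : ℕ → Submodule ℝ E) (j : ℕ) : E →L[ℝ] E :=
  (M j).starProjection - (M (j + 1)).starProjection

lemma Qp_apply (M : ℕ → Submodule ℝ E) (j : ℕ) (x : E) :
    Qp M j x = (M j).starProjection x - (M (j + 1)).starProjection x := rfl

lemma Qp_mem {M : ℕ → Submodule ℝ E} (hM : Antitone M) (j : ℕ) (x : E) : Qp M j x ∈ M j :=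
  Submodule.sub_mem _ (starProjection_apply_mem _ _)
    (hM (Nat.le_succ j) (starProjection_apply_mem _ _))

lemma proj_proj_le {M : ℕ → Submodule ℝ E} (hM : Antitone M) {j k : ℕ} (h : j ≤ k) (x : E) :
    (M k).starProjection ((M j).starProjection x) = (M k).starProjection x :=
  (starProjection_trans (hM h) x).symm

lemma proj_proj_ge {M : ℕ → Submodule ℝ E} (hM : Antitone M) {j k : ℕ} (h : j ≤ k) (x : E) :
    (M j).starProjection ((M k).starProjection x) = (M k).starProjection x :=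
  starProjection_eq_self_iff.2 (hM h (starProjection_apply_mem _ _))


lemma Qp_Qp_self {M : ℕ → Submodule ℝ E} (hM : Antitone M) (j : ℕ) (x : E) :
    Qp M j (Qp M j x) = Qp M j x := by
  simp only [Qp_apply, map_sub]
  rw [proj_proj_le hM le_rfl, proj_proj_ge hM (Nat.le_succ j), proj_proj_le hM (Nat.le_succ j),
    proj_proj_le hM le_rfl]
  abel

lemma Qp_Qp_lt {M : ℕ → Submodule ℝ E} (hM : Antitone M) {j k : ℕ} (h : j < k) (x : E) :
    Qp M j (Qp M k x) = 0 := by
  simp only [Qp_apply, map_sub]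
  have h1 : j ≤ k := h.le
  have h2 : j ≤ k + 1 := h.le.trans (Nat.le_succ k)
  have h3 : j + 1 ≤ k := h
  have h4 : j + 1 ≤ k + 1 := h3.trans (Nat.le_succ k)
  rw [proj_proj_ge hM h1, proj_proj_ge hM h2, proj_proj_ge hM h3, proj_proj_ge hM h4]
  abel

lemma Qp_Qp_gt {M : ℕ → Submodule ℝ E} (hM : Antitone M) {j k : ℕ} (h : k < j) (x : E) :
    Qp M j (Qp M k x) = 0 := by
  simp only [Qp_apply, map_sub]
  have h1 : k ≤ j := h.le
  have h2 : k ≤ j + 1 := h.le.trans (Nat.le_succ j)
  have h3 : k + 1 ≤ j := h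
  have h4 : k + 1 ≤ j + 1 := h3.trans (Nat.le_succ j)
  rw [proj_proj_le hM h1, proj_proj_le hM h2, proj_proj_le hM h3, proj_proj_le hM h4]
  abel

lemma Qp_Qp_ne {M : ℕ → Submodule ℝ E} (hM : Antitone M) {j k : ℕ} (h : j ≠ k) (x : E) :
    Qp M j (Qp M k x) = 0 := by
  rcases lt_or_gt_of_ne h with h | h
  · exact Qp_Qp_lt hM h x
  · exact Qp_Qp_gt hM h x

lemma inner_Qp_left (M : ℕ → Submodule ℝ E) (j : ℕ) (x y : E) :
    ⟪Qp M j x, y⟫ = ⟪x, Qp M j y⟫ := by
  simp only [Qp_apply, inner_sub_left, inner_sub_right, inner_starProjection_left_eq_right]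

lemma inner_Qp_Qp_ne {M : ℕ → Submodule ℝ E} (hM : Antitone M) {j k : ℕ} (h : j ≠ k) (x y : E) :
    ⟪Qp M j x, Qp M k y⟫ = 0 := by
  rw [inner_Qp_left, Qp_Qp_ne hM h, inner_zero_right]

lemma norm_sq_Qp {M : ℕ → Submodule ℝ E} (hM : Antitone M) (j : ℕ) (x : E) :
    ‖Qp M j x‖ ^ 2 = ‖(M j).starProjection x‖ ^ 2 - ‖(M (j + 1)).starProjection x‖ ^ 2 := by
  rw [Qp_apply, norm_sub_sq_real]
  have : ⟪(M j).starProjection x, (M (j + 1)).starProjection x⟫
      = ‖(M (j + 1)).starProjection x‖ ^ 2 := by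
    rw [inner_starProjection_left_eq_right, proj_proj_ge hM (Nat.le_succ j),
      ← real_inner_self_eq_norm_sq, inner_starProjection_left_eq_right,
      proj_proj_ge hM le_rfl]
  rw [this]; ring

/-- `H`-type operator: `∑_{i ≤ j < n} c^(j-i) Q_j`. -/
noncomputable def Hc (M : ℕ → Submodule ℝ E) (c : ℝ) (n i : ℕ) : E →L[ℝ] E :=
  ∑ j ∈ Finset.Ico i n, (c ^ (j - i)) • Qp M j

lemma Hc_apply (M : ℕ → Submodule ℝ E) (c : ℝ) (n i : ℕ) (x : E) :
    Hc M c n i x = ∑ j ∈ Finset.Ico i n, (c ^ (j - i)) • Qp M j x := by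
  simp [Hc]

lemma norm_sq_sum_orth {ι : Type*} [DecidableEq ι] (s : Finset ι) (f : ι → E)
    (h : ∀ i ∈ s, ∀ j ∈ s, i ≠ j → ⟪f i, f j⟫ = 0) :
    ‖∑ i ∈ s, f i‖ ^ 2 = ∑ i ∈ s, ‖f i‖ ^ 2 := by
  rw [← real_inner_self_eq_norm_sq, sum_inner]
  apply Finset.sum_congr rfl
  intro i hi
  rw [inner_sum, Finset.sum_eq_single i]
  · rw [real_inner_self_eq_norm_sq]
  · intro j hj hji
    exact h i hi j hj (Ne.symm hji)
  · intro h'; exact absurd hi h'

lemma norm_sq_Hc {M : ℕ → Submodule ℝ E} (hM : Antitone M) (c : ℝ) (n i : ℕ) (x : E) :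
    ‖Hc M c n i x‖ ^ 2 = ∑ j ∈ Finset.Ico i n, (c ^ 2) ^ (j - i) * ‖Qp M j x‖ ^ 2 := by
  rw [Hc_apply, norm_sq_sum_orth]
  · apply Finset.sum_congr rfl
    intro j _
    rw [norm_smul, mul_pow, Real.norm_eq_abs, sq_abs, ← pow_mul, ← pow_mul, mul_comm 2 (j - i)]
  · intro j _ k _ hjk
    rw [inner_smul_left, inner_smul_right, inner_Qp_Qp_ne hM hjk]
    simp

lemma Qp_Hc {M : ℕ → Submodule ℝ E} (hM : Antitone M) (c : ℝ) {n i j : ℕ}
    (hj : j ∈ Finset.Ico i n) (x : E) :
    Qp M j (Hc M c n i x) = (c ^ (j - i)) • Qp M j x := by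
  rw [Hc_apply, map_sum, Finset.sum_eq_single j]
  · rw [map_smul, Qp_Qp_self hM]
  · intro k _ hk
    rw [map_smul, Qp_Qp_ne hM (Ne.symm hk), smul_zero]
  · intro h; exact absurd hj h

lemma Hc_Hc {M : ℕ → Submodule ℝ E} (hM : Antitone M) {c : ℝ} (hc : c ≠ 0) (n i : ℕ) (x : E) :
    Hc M c⁻¹ n i (Hc M c n i x) = ∑ j ∈ Finset.Ico i n, Qp M j x := by
  rw [Hc_apply M c⁻¹]
  apply Finset.sum_congr rfl
  intro j hj
  rw [Qp_Hc hM c hj, smul_smul, ← mul_pow, inv_mul_cancel₀ hc, one_pow, one_smul]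

lemma sum_Qp {M : ℕ → Submodule ℝ E} {n i : ℕ} (hin : i ≤ n) (hn : M n = ⊥) (x : E) :
    ∑ j ∈ Finset.Ico i n, Qp M j x = (M i).starProjection x := by
  have h : ∀ m, i ≤ m → ∑ j ∈ Finset.Ico i m, Qp M j x
      = (M i).starProjection x - (M m).starProjection x := by
    intro m hm
    induction m, hm using Nat.le_induction with
    | base => simp
    | succ m hm ih => rw [Finset.sum_Ico_succ_top hm, ih, Qp_apply]; abel
  rw [h n hin, hn]
  simp

lemma norm_sq_HcHc_le {M : ℕ → Submodule ℝ E} (hM : Antitone M) {c : ℝ} (hc : c ≠ 0) {n i : ℕ}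
    (hin : i ≤ n) (hn : M n = ⊥) (x : E) :
    ‖Hc M c⁻¹ n i (Hc M c n i x)‖ ^ 2 ≤ ‖x‖ ^ 2 := by
  rw [Hc_Hc hM hc, sum_Qp hin hn]
  exact pow_le_pow_left₀ (norm_nonneg _) (norm_starProjection_apply_le _ _) 2

lemma Hc_mem {M : ℕ → Submodule ℝ E} (hM : Antitone M) (c : ℝ) (n i : ℕ) (x : E) :
    Hc M c n i x ∈ M i := by
  rw [Hc_apply]
  apply Submodule.sum_mem
  intro j hj
  exact Submodule.smul_mem _ _ (hM (Finset.mem_Ico.1 hj).1 (Qp_mem hM j x))

/-- on `M i` the operators are inverse to each other -/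
lemma Hc_Hc_inv {M : ℕ → Submodule ℝ E} (hM : Antitone M) {c : ℝ} (hc : c ≠ 0) {n i : ℕ}
    (hin : i ≤ n) (hn : M n = ⊥) {x : E} (hx : x ∈ M i) :
    Hc M c n i (Hc M c⁻¹ n i x) = x := by
  have h := Hc_Hc hM (inv_ne_zero hc) n i x
  rw [inv_inv] at h
  rw [h, sum_Qp hin hn]
  exact starProjection_eq_self_iff.2 hx

/-- Abel summation -/
lemma abel_sum (a : ℝ) (p : ℕ → ℝ) {i n : ℕ} (hin : i < n) :
    ∑ j ∈ Finset.Ico i n, a ^ (j - i) * (p j - p (j + 1))
      = p i + ∑ j ∈ Finset.Ioo i n, (a ^ (j - i) - a ^ (j - i - 1)) * p j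
        - a ^ (n - 1 - i) * p n := by
  induction n, hin using Nat.le_induction with
  | base =>
    have : Finset.Ioo i (i + 1) = ∅ := by ext k; simp only [Finset.mem_Ioo]; simp
    simp [this]
  | succ m hm ih =>
    have him : i ≤ m := (Nat.le_succ i).trans hm
    have him' : i < m := hm
    rw [Finset.sum_Ico_succ_top him, ih]
    have hI : Finset.Ioo i (m + 1) = insert m (Finset.Ioo i m) := by
      ext k; simp only [Finset.mem_Ioo, Finset.mem_insert]; omega
    rw [hI, Finset.sum_insert (by simp)]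
    have e1 : m - 1 - i = m - i - 1 := by omega
    have e2 : m + 1 - 1 - i = m - i := by omega
    rw [e1, e2]
    ring

lemma norm_sq_insM (M : ℕ → Submodule ℝ E) (v : E) (I j : ℕ) (x : E) :
    ‖(insM M v I j).starProjection x‖ ^ 2
      = ‖(M j).starProjection x‖ ^ 2 + (if j ≤ I then ⟪nn (M j) v, x⟫ ^ 2 else 0) := by
  by_cases hj : j ≤ I
  · rw [insM_le hj, norm_sq_starProjection_sup, if_pos hj]
  · rw [insM_gt (not_le.1 hj), if_neg hj, add_zero]

/-- **Form comparison for the inserted flag.** -/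
lemma ins_form {M : ℕ → Submodule ℝ E} (hM : Antitone M) (v : E) {n i I : ℕ} {c : ℝ}
    (hi : i ≤ I) (hI : I < n) {x : E} (hx : x ∈ M i) :
    ‖Hc (insM M v I) c n i x‖ ^ 2
      = ‖Hc M c n i x‖ ^ 2
        + ∑ j ∈ Finset.Ioc i I, ((c ^ 2) ^ (j - i) - (c ^ 2) ^ (j - i - 1)) * ⟪nn (M j) v, x⟫ ^ 2 := by
  have hA' : Antitone (insM M v I) := insM_antitone hM v I
  have hin : i < n := lt_of_le_of_lt hi hI
  set a := c ^ 2 with ha
  set p : ℕ → ℝ := fun j => ‖(M j).starProjection x‖ ^ 2 with hp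
  set p' : ℕ → ℝ := fun j => ‖(insM M v I j).starProjection x‖ ^ 2 with hp'
  have hd : ∀ j, p' j = p j + (if j ≤ I then ⟪nn (M j) v, x⟫ ^ 2 else 0) := by
    intro j
    exact norm_sq_insM M v I j x
  have h0 : ⟪nn (M i) v, x⟫ = 0 := by
    rw [real_inner_comm]
    exact (Submodule.mem_orthogonal _ _).1 (nn_mem_orth (M i) v) x hx
  rw [norm_sq_Hc hA', norm_sq_Hc hM]
  have e1 : ∑ j ∈ Finset.Ico i n, a ^ (j - i) * ‖Qp (insM M v I) j x‖ ^ 2
      = ∑ j ∈ Finset.Ico i n, a ^ (j - i) * (p' j - p' (j + 1)) :=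
    Finset.sum_congr rfl (fun j _ => by rw [norm_sq_Qp hA'])
  have e2 : ∑ j ∈ Finset.Ico i n, a ^ (j - i) * ‖Qp M j x‖ ^ 2
      = ∑ j ∈ Finset.Ico i n, a ^ (j - i) * (p j - p (j + 1)) :=
    Finset.sum_congr rfl (fun j _ => by rw [norm_sq_Qp hM])
  rw [e1, e2, abel_sum a p' hin, abel_sum a p hin]
  have hn' : p' n = p n := by rw [hd]; simp [not_le.2 hI]
  have hi' : p' i = p i := by rw [hd, if_pos hi, h0]; simp
  have hs : ∑ j ∈ Finset.Ioo i n, (a ^ (j - i) - a ^ (j - i - 1)) * p' j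
      = ∑ j ∈ Finset.Ioo i n, (a ^ (j - i) - a ^ (j - i - 1)) * p j
        + ∑ j ∈ Finset.Ioc i I, (a ^ (j - i) - a ^ (j - i - 1)) * ⟪nn (M j) v, x⟫ ^ 2 := by
    have h2 : ∑ j ∈ Finset.Ioc i I, (a ^ (j - i) - a ^ (j - i - 1)) * ⟪nn (M j) v, x⟫ ^ 2
        = ∑ j ∈ Finset.Ioo i n,
            (if j ≤ I then (a ^ (j - i) - a ^ (j - i - 1)) * ⟪nn (M j) v, x⟫ ^ 2 else 0) := by
      rw [← Finset.sum_filter]
      apply Finset.sum_congr _ (fun _ _ => rfl)
      ext j
      simp only [Finset.mem_Ioc, Finset.mem_filter, Finset.mem_Ioo]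
      omega
    rw [h2, ← Finset.sum_add_distrib]
    apply Finset.sum_congr rfl
    intro j _
    rw [hd]
    split_ifs <;> ring
  rw [hn', hi', hs]
  ring

/-- geometric sum of the weights -/
lemma sum_weights {a : ℝ} {i I : ℕ} (hi : i ≤ I) :
    ∑ j ∈ Finset.Ioc i I, (a ^ (j - i) - a ^ (j - i - 1)) = a ^ (I - i) - 1 := by
  induction I, hi using Nat.le_induction with
  | base => simp
  | succ m hm ih =>
    have hI : Finset.Ioc i (m + 1) = insert (m + 1) (Finset.Ioc i m) := by
      ext k; simp only [Finset.mem_Ioc, Finset.mem_insert]; omega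
    rw [hI, Finset.sum_insert (by simp), ih]
    have e1 : m + 1 - i - 1 = m - i := by omega
    rw [e1]
    ring

end Crest.Agent.R239.Ins556
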