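import Mathlib

/-!
R239 (S0370), block L0, helper942: a functional `U` on finite populations (`Multiset E`) with

* (U0) `0 ≤ U`,
* (U1) monotone under two-point splittings,
* (U2) `U (z ::ₘ m) ≤ U m + C √d ‖z‖`,
* (U3) `‖v‖ = 1`: `U m' - U m ≥ c (S m' v - 2 S m v) - dl` for every two-point splitting,

gives the literal conclusion of S0370 (`S0370_of_U`). `dl` is any constant which does not depend on
the population. No separation theorem is needed: the support functions are replaced by positively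
homogeneous functions `stepH` and the sign is found from two violators.
-/

set_option autoImplicit false

open scoped RealInnerProductSpace

namespace Crest.Agent.R239.L0

variable {E : Type*} [NormedAddCommGroup E] [InnerProductSpace ℝ E]

/-- the content `S_m(v) = ∑_{z ∈ m} |⟨v,z⟩|` of a population -/
noncomputable def S (m : Multiset E) (v : E) : ℝ := (m.map fun z => |⟪v, z⟫|).sum

/-- the population before the splitting -/
def mrg (s : Multiset (E × E)) : Multiset E := s.map fun p => p.1 + p.2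

/-- the population after the splitting -/
def spl (s : Multiset (E × E)) : Multiset E := s.map Prod.fst + s.map Prod.snd


theorem S_cons (z : E) (m : Multiset E) (v : E) : S (z ::ₘ m) v = |⟪v, z⟫| + S m v := by
  simp [S]

theorem S_add (m m' : Multiset E) (v : E) : S (m + m') v = S m v + S m' v := by
  simp [S]

theorem S_nonneg (m : Multiset E) (v : E) : 0 ≤ S m v := by
  refine Multiset.sum_nonneg fun x hx => ?_
  obtain ⟨z, _, rfl⟩ := Multiset.mem_map.1 hx
  exact abs_nonneg _

theorem S_smul (m : Multiset E) (c : ℝ) (v : E) : S m (c • v) = |c| * S m v := by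
  unfold S
  rw [← Multiset.sum_map_mul_left]
  refine congrArg _ (Multiset.map_congr rfl fun z _ => ?_)
  rw [real_inner_smul_left, abs_mul]

/-- normalised potentials -/
structure IsPot (U : Multiset E → ℝ) (R dl : ℝ) : Prop where
  nonneg : ∀ m, 0 ≤ U m
  lip : ∀ z m, U (z ::ₘ m) ≤ U m + R * ‖z‖
  grow : ∀ v : E, ‖v‖ ≤ 1 → ∀ s : Multiset (E × E),
    S (spl s) v - 2 * S (mrg s) v - dl ≤ U (spl s) - U (mrg s)

/-- the value of the splitting `z = p + (z - p)` -/
noncomputable def val (v : E) (H : E → ℝ) (z p : E) : ℝ :=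
  H p + H (z - p) - |⟪v, p⟫| - |⟪v, z - p⟫| + 2 * |⟪v, z⟫|

/-- one backward step (letter `v`, wall `R`) -/
noncomputable def stepH (R : ℝ) (v : E) (H : E → ℝ) (z : E) : ℝ :=
  min (R * ‖z‖) (⨅ p : E, val v H z p)

/-- the invariant -/
structure Inv (U : Multiset E → ℝ) (k : ℝ) (H : E → ℝ) : Prop where
  hom : ∀ (c : ℝ) (z : E), 0 < c → H (c • z) = c * H z
  dom : ∀ m : Multiset E, U m - k ≤ (m.map H).sum

theorem Inv.zero {U : Multiset E → ℝ} {k : ℝ} {H : E → ℝ} (h : Inv U k H) : H 0 = 0 := by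
  have := h.hom 2 0 (by norm_num)
  rw [smul_zero] at this
  linarith

/-- homogeneity turns bounded additive errors into nothing -/
theorem Inv.nonneg {U : Multiset E → ℝ} {k : ℝ} {H : E → ℝ} (hU : ∀ m, 0 ≤ U m) (h : Inv U k H)
    (z : E) : 0 ≤ H z := by
  by_contra hz
  push Not at hz
  have hc : 0 < (|k| + 1) / (-H z) := div_pos (by positivity) (by linarith)
  have h1 := h.dom {((|k| + 1) / (-H z)) • z}
  have h2 := hU {((|k| + 1) / (-H z)) • z}
  rw [Multiset.map_singleton, Multiset.sum_singleton, h.hom _ _ hc] at h1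
  have e : (|k| + 1) / (-H z) * H z = -(|k| + 1) := by
    have h3 : -H z ≠ 0 := by linarith
    rw [div_mul_eq_mul_div, div_eq_iff h3]
    ring
  rw [e] at h1
  have := le_abs_self k
  linarith

theorem val_lb {U : Multiset E → ℝ} {R dl k : ℝ} {H : E → ℝ} (hU : IsPot U R dl) (h : Inv U k H)
    {v : E} (hv : ‖v‖ ≤ 1) (z p : E) : -(k + dl) ≤ val v H z p := by
  have h1 := h.dom {p, z - p}
  have h2 := hU.grow v hv {(p, z - p)}
  have h3 := hU.nonneg (mrg {(p, z - p)})
  have e1 : spl ({(p, z - p)} : Multiset (E × E)) = {p, z - p} := by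
    simp [spl]
  have e2 : mrg ({(p, z - p)} : Multiset (E × E)) = {z} := by
    simp [mrg]
  rw [e1, e2] at h2
  rw [e2] at h3
  have e3 : S ({p, z - p} : Multiset E) v = |⟪v, p⟫| + |⟪v, z - p⟫| := by
    simp [S]
  have e4 : S ({z} : Multiset E) v = |⟪v, z⟫| := by simp [S]
  have e5 : (({p, z - p} : Multiset E).map H).sum = H p + H (z - p) := by simp
  rw [e3, e4] at h2
  rw [e5] at h1
  unfold val
  linarith

theorem val_bdd {U : Multiset E → ℝ} {R dl k : ℝ} {H : E → ℝ} (hU : IsPot U R dl) (h : Inv U k H)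
    {v : E} (hv : ‖v‖ ≤ 1) (z : E) : BddBelow (Set.range (val v H z)) := by
  refine ⟨-(k + dl), ?_⟩
  rintro _ ⟨p, rfl⟩
  exact val_lb hU h hv z p

theorem stepH_le_wall (R : ℝ) (v : E) (H : E → ℝ) (z : E) : stepH R v H z ≤ R * ‖z‖ :=
  min_le_left _ _

theorem stepH_le {U : Multiset E → ℝ} {R dl k : ℝ} {H : E → ℝ} (hU : IsPot U R dl)
    (h : Inv U k H) {v : E} (hv : ‖v‖ ≤ 1) (p q : E) :
    stepH R v H (p + q) ≤ H p + H q - |⟪v, p⟫| - |⟪v, q⟫| + 2 * |⟪v, p + q⟫| := by
  refine (min_le_right _ _).trans ((ciInf_le (val_bdd hU h hv (p + q)) p).trans (le_of_eq ?_))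
  unfold val
  rw [add_sub_cancel_left]

theorem val_smul {H : E → ℝ} (hom : ∀ (c : ℝ) (z : E), 0 < c → H (c • z) = c * H z) (v : E)
    {c : ℝ} (hc : 0 < c) (z p : E) : val v H (c • z) (c • p) = c * val v H z p := by
  unfold val
  rw [← smul_sub, hom c _ hc, hom c _ hc, inner_smul_right, inner_smul_right, inner_smul_right,
    abs_mul, abs_mul, abs_mul, abs_of_pos hc]
  ring

theorem stepH_smul {H : E → ℝ} (hom : ∀ (c : ℝ) (z : E), 0 < c → H (c • z) = c * H z) (R : ℝ)
    (v : E) {c : ℝ} (hc : 0 < c) (z : E) : stepH R v H (c • z) = c * stepH R v H z := by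
  unfold stepH
  rw [mul_min_of_nonneg _ _ hc.le, Real.mul_iInf_of_nonneg hc.le]
  congr 1
  · rw [norm_smul, Real.norm_of_nonneg hc.le]
    ring
  · have h1 : ∀ p : E, val v H (c • z) (c • p) = c * val v H z p := val_smul hom v hc z
    have h2 : Function.Surjective (fun p : E => c • p) := fun q =>
      ⟨c⁻¹ • q, by simp [smul_smul, mul_inv_cancel₀ hc.ne']⟩
    rw [← h2.iInf_comp]
    exact iInf_congr h1

/-- near optimal choices for a whole population -/
theorem choices (R : ℝ) (H : E → ℝ) (v : E) {e : ℝ} (he : 0 < e) (m : Multiset E) :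
    ∃ (κ : Multiset E) (s : Multiset (E × E)), m = κ + mrg s ∧
      (κ.map fun z => R * ‖z‖).sum + (((spl s).map H).sum - S (spl s) v + 2 * S (mrg s) v)
        ≤ (m.map (stepH R v H)).sum + e * Multiset.card m := by
  induction m using Multiset.induction_on with
  | empty => exact ⟨0, 0, by simp [mrg], by simp [mrg, spl, S]⟩
  | cons z m ih =>
    obtain ⟨κ, s, hm, hs⟩ := ih
    rcases le_total (R * ‖z‖) (⨅ p : E, val v H z p) with h1 | h1
    · refine ⟨z ::ₘ κ, s, by rw [Multiset.cons_add, hm], ?_⟩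
      have h2 : stepH R v H z = R * ‖z‖ := min_eq_left h1
      rw [Multiset.map_cons, Multiset.sum_cons, Multiset.map_cons, Multiset.sum_cons,
        Multiset.card_cons, h2]
      push_cast
      linarith
    · have h2 : stepH R v H z = ⨅ p : E, val v H z p := min_eq_right h1
      obtain ⟨p, hp⟩ := exists_lt_of_ciInf_lt (show (⨅ p : E, val v H z p) < stepH R v H z + e by
        rw [h2]; linarith)
      refine ⟨κ, (p, z - p) ::ₘ s, ?_, ?_⟩
      · have : mrg ((p, z - p) ::ₘ s) = z ::ₘ mrg s := by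
          simp [mrg]
        rw [this, Multiset.add_cons, hm]
      · have e1 : mrg ((p, z - p) ::ₘ s) = z ::ₘ mrg s := by simp [mrg]
        have e2 : spl ((p, z - p) ::ₘ s) = p ::ₘ (z - p) ::ₘ spl s := by
          simp only [spl, Multiset.map_cons, Multiset.cons_add, Multiset.add_cons]
          rw [Multiset.cons_swap]
        rw [e1, e2, S_cons, S_cons, S_cons, Multiset.map_cons, Multiset.sum_cons,
          Multiset.map_cons, Multiset.sum_cons, Multiset.map_cons, Multiset.sum_cons,
          Multiset.card_cons]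
        push_cast
        unfold val at hp
        linarith

theorem lip_add {U : Multiset E → ℝ} {R dl : ℝ} (hU : IsPot U R dl) (κ m : Multiset E) :
    U (κ + m) ≤ U m + (κ.map fun z => R * ‖z‖).sum := by
  induction κ using Multiset.induction_on with
  | empty => simp
  | cons z κ ih =>
    rw [Multiset.cons_add, Multiset.map_cons, Multiset.sum_cons]
    have := hU.lip z (κ + m)
    linarith

theorem Inv.step {U : Multiset E → ℝ} {R dl k : ℝ} {H : E → ℝ} (hU : IsPot U R dl)
    (h : Inv U k H) {v : E} (hv : ‖v‖ ≤ 1) : Inv U (k + dl) (stepH R v H) where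
  hom c z hc := stepH_smul h.hom R v hc z
  dom m := by
    refine le_of_forall_pos_le_add fun e he => ?_
    have key : ∀ e : ℝ, 0 < e → U m - (k + dl) ≤ (m.map (stepH R v H)).sum
        + e * Multiset.card m := by
      intro e he
      obtain ⟨κ, s, hm, hs⟩ := choices R H v he m
      have h1 := h.dom (spl s)
      have h2 := hU.grow v hv s
      have h3 := lip_add hU κ (mrg s)
      rw [← hm] at h3
      linarith
    have h1 := key (e / (Multiset.card m + 1)) (by positivity)
    have h2 : e / (Multiset.card m + 1) * (Multiset.card m : ℝ) ≤ e := by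
      rw [div_mul_eq_mul_div, div_le_iff₀ (by positivity)]
      nlinarith [Nat.cast_nonneg (α := ℝ) (Multiset.card m)]
    linarith

/-- the sign step -/
theorem sign_step {U : Multiset E → ℝ} {R dl k : ℝ} {H : E → ℝ} (hU : IsPot U R dl)
    (h : Inv U k H) {v : E} (hv : ‖v‖ ≤ 1) {x : E} (hx : ∀ z, ⟪z, x⟫ ≤ stepH R v H z) :
    ∃ ε : ℤ, (ε = 1 ∨ ε = -1) ∧ ∀ z, ⟪z, x + (ε : ℝ) • v⟫ ≤ H z := by
  by_contra hcon
  push Not at hcon
  obtain ⟨p, hp⟩ := hcon 1 (Or.inl rfl)
  obtain ⟨q, hq⟩ := hcon (-1) (Or.inr rfl)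
  push_cast at hp hq
  rw [one_smul, inner_add_right, real_inner_comm] at hp
  rw [neg_smul, one_smul, inner_add_right, inner_neg_right] at hq
  have cp : ⟪p, v⟫ = ⟪v, p⟫ := real_inner_comm v p
  have cq : ⟪q, v⟫ = ⟪v, q⟫ := real_inner_comm v q
  have cp' : ⟪x, p⟫ = ⟪p, x⟫ := real_inner_comm p x
  rw [cp', cp] at hp
  rw [cq] at hq
  have h0 := h.zero
  rcases le_or_gt ⟪v, p⟫ 0 with ha | ha
  · have h1 := (hx (p + 0)).trans (stepH_le hU h hv p 0)
    rw [add_zero, inner_zero_right, abs_zero, h0, abs_of_nonpos ha] at h1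
    linarith
  · rcases le_or_gt 0 ⟪v, q⟫ with hb | hb
    · have h1 := (hx (q + 0)).trans (stepH_le hU h hv q 0)
      rw [add_zero, inner_zero_right, abs_zero, h0, abs_of_nonneg hb] at h1
      linarith
    · -- weights `l = -⟪v,q⟫`, `m = ⟪v,p⟫`
      have hl : 0 < -⟪v, q⟫ := by linarith
      have h1 := (hx ((-⟪v, q⟫) • p + ⟪v, p⟫ • q)).trans
        (stepH_le hU h hv ((-⟪v, q⟫) • p) (⟪v, p⟫ • q))
      have e1 : ⟪v, (-⟪v, q⟫) • p + ⟪v, p⟫ • q⟫ = 0 := by
        rw [inner_add_right, inner_smul_right, inner_smul_right]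
        ring
      rw [e1, abs_zero, h.hom _ _ hl, h.hom _ _ ha, inner_smul_right, inner_smul_right,
        inner_add_left, real_inner_smul_left, real_inner_smul_left, abs_mul, abs_mul,
        abs_of_pos hl, abs_of_pos ha, abs_of_neg hb] at h1
      have h2 := mul_lt_mul_of_pos_left hp hl
      have h3 := mul_lt_mul_of_pos_left hq ha
      nlinarith

/-- the backward chain -/
noncomputable def chainH (R : ℝ) : (N : ℕ) → (Fin N → E) → E → ℝ
  | 0, _ => fun z => R * ‖z‖
  | N + 1, v => stepH R (v 0) (chainH R N (Fin.tail v))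

theorem chainH_le (R : ℝ) : ∀ (N : ℕ) (v : Fin N → E) (z : E), chainH R N v z ≤ R * ‖z‖
  | 0, _, _ => le_rfl
  | _ + 1, _, _ => stepH_le_wall _ _ _ _

theorem chainH_inv {U : Multiset E → ℝ} {R dl : ℝ} (hU : IsPot U R dl) :
    ∀ (N : ℕ) (v : Fin N → E), (∀ i, ‖v i‖ ≤ 1) → Inv U (U 0 + N * dl) (chainH R N v)
  | 0, _, _ => by
    refine ⟨fun c z hc => ?_, fun m => ?_⟩
    · change R * ‖c • z‖ = c * (R * ‖z‖)
      rw [norm_smul, Real.norm_of_nonneg hc.le]
      ring
    · have := lip_add hU m 0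
      rw [add_zero] at this
      have e : (m.map (chainH R 0 fun i => i.elim0)).sum = (m.map fun z => R * ‖z‖).sum := rfl
      change U m - (U 0 + (0 : ℕ) * dl) ≤ (m.map fun z => R * ‖z‖).sum
      push_cast
      linarith
  | N + 1, v, hv => by
    have h := (chainH_inv hU N (Fin.tail v) fun i => hv i.succ).step hU (hv 0)
    have e : U 0 + (N : ℝ) * dl + dl = U 0 + ((N + 1 : ℕ) : ℝ) * dl := by
      push_cast
      ring
    rw [e] at h
    exact h

theorem chainH_signs {U : Multiset E → ℝ} {R dl : ℝ} (hR : 0 ≤ R) (hU : IsPot U R dl) :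
    ∀ (N : ℕ) (v : Fin N → E), (∀ i, ‖v i‖ ≤ 1) → ∀ x : E, (∀ z, ⟪z, x⟫ ≤ chainH R N v z) →
      ∃ ε : Fin N → ℤ, (∀ i, ε i = 1 ∨ ε i = -1) ∧
        ∀ k : ℕ, k ≤ N → ‖x + ∑ i ∈ Finset.univ.filter (fun i : Fin N => (i : ℕ) < k),
          (ε i : ℝ) • v i‖ ≤ R := by
  have wall : ∀ (N : ℕ) (v : Fin N → E) (x : E), (∀ z, ⟪z, x⟫ ≤ chainH R N v z) → ‖x‖ ≤ R := by
    intro N v x hx
    have h1 := (hx x).trans (chainH_le R N v x)
    rw [real_inner_self_eq_norm_sq] at h1
    rcases eq_or_lt_of_le (norm_nonneg x) with h | h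
    · rw [← h]; exact hR
    · nlinarith
  intro N
  induction N with
  | zero =>
    intro v _ x hx
    refine ⟨fun _ => 1, fun _ => Or.inl rfl, fun k _ => ?_⟩
    simpa using wall 0 v x hx
  | succ N ih =>
    intro v hv x hx
    obtain ⟨e, he, hm⟩ := sign_step hU (chainH_inv hU N (Fin.tail v) fun i => hv i.succ) (hv 0) hx
    obtain ⟨ε, hε, hs⟩ := ih (Fin.tail v) (fun i => hv i.succ) _ hm
    refine ⟨Fin.cons e ε, ?_, ?_⟩
    · intro i
      refine Fin.cases ?_ (fun j => ?_) i
      · simpa using he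
      · simpa using hε j
    · intro k hk
      cases k with
      | zero => simpa using wall (N + 1) v x hx
      | succ k =>
        have h3 := hs k (by omega)
        rw [Finset.sum_filter] at h3 ⊢
        rw [Fin.sum_univ_succ]
        simp only [Fin.val_zero, Nat.zero_lt_succ, if_true, Fin.cons_zero, Fin.val_succ,
          Nat.succ_lt_succ_iff, Fin.cons_succ]
        rw [← add_assoc]
        exact h3

/-- **L0**: the literal conclusion of S0370 from a potential on populations. -/
theorem S0370_of_U (C c dl : ℝ) (hc : 0 < c)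
    (U : ∀ d : ℕ, Multiset (EuclideanSpace ℝ (Fin d)) → ℝ)
    (U0 : ∀ (d : ℕ) (m : Multiset (EuclideanSpace ℝ (Fin d))), 0 ≤ U d m)
    (U1 : ∀ (d : ℕ) (s : Multiset (EuclideanSpace ℝ (Fin d) × EuclideanSpace ℝ (Fin d))),
      U d (mrg s) ≤ U d (spl s))
    (U2 : ∀ (d : ℕ) (z : EuclideanSpace ℝ (Fin d)) (m : Multiset (EuclideanSpace ℝ (Fin d))),
      U d (z ::ₘ m) ≤ U d m + C * Real.sqrt d * ‖z‖)
    (U3 : ∀ (d : ℕ) (v : EuclideanSpace ℝ (Fin d))
      (s : Multiset (EuclideanSpace ℝ (Fin d) × EuclideanSpace ℝ (Fin d))), ‖v‖ = 1 →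
      c * (S (spl s) v - 2 * S (mrg s) v) - dl ≤ U d (spl s) - U d (mrg s)) :
    ∃ C : ℝ, ∀ (d N : ℕ) (v : Fin N → EuclideanSpace ℝ (Fin d)),
      (∀ i, ‖v i‖ ≤ 1) →
      ∃ ε : Fin N → ℤ, (∀ i, ε i = 1 ∨ ε i = -1) ∧
        ∀ k : ℕ, k ≤ N →
          ‖∑ i ∈ Finset.univ.filter (fun i : Fin N => (i : ℕ) < k), (ε i : ℝ) • v i‖
            ≤ C * Real.sqrt d := by
  refine ⟨|C| / c, fun d N v hv => ?_⟩
  have hpot : IsPot (fun m => U d m / c) (|C| / c * Real.sqrt d) (|dl| / c) := by
    refine ⟨fun m => div_nonneg (U0 d m) hc.le, fun z m => ?_, fun w hw s => ?_⟩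
    · have h1 := U2 d z m
      have h2 : C * Real.sqrt d * ‖z‖ ≤ |C| * Real.sqrt d * ‖z‖ := by
        gcongr
        exact le_abs_self C
      have e : U d m / c + |C| / c * Real.sqrt d * ‖z‖
          = (U d m + |C| * Real.sqrt d * ‖z‖) / c := by
        field_simp
      rw [e]
      exact div_le_div_of_nonneg_right (h1.trans (by linarith)) hc.le
    · have h1 := U1 d s
      have hdl := le_abs_self dl
      have hdl0 := abs_nonneg dl
      -- the growth inequality for letters of norm at most one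
      have h2 : c * (S (spl s) w - 2 * S (mrg s) w) - |dl| ≤ U d (spl s) - U d (mrg s) := by
        rcases eq_or_lt_of_le (norm_nonneg w) with h0 | h0
        · have hw0 : w = 0 := norm_eq_zero.1 h0.symm
          have e : ∀ m : Multiset (EuclideanSpace ℝ (Fin d)), S m w = 0 := by
            intro m
            rw [hw0]
            have := S_smul m 0 (0 : EuclideanSpace ℝ (Fin d))
            simpa using this
          rw [e, e]
          simp only [mul_zero, sub_zero]
          linarith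
        · have hu : ‖(‖w‖⁻¹ : ℝ) • w‖ = 1 := by
            rw [norm_smul, norm_inv, norm_norm, inv_mul_cancel₀ h0.ne']
          have h3 := U3 d ((‖w‖⁻¹ : ℝ) • w) s hu
          have e : ∀ m : Multiset (EuclideanSpace ℝ (Fin d)),
              S m w = ‖w‖ * S m ((‖w‖⁻¹ : ℝ) • w) := by
            intro m
            rw [S_smul, abs_of_pos (inv_pos.2 h0), ← mul_assoc, mul_inv_cancel₀ h0.ne', one_mul]
          rw [e, e]
          set X := S (spl s) ((‖w‖⁻¹ : ℝ) • w) - 2 * S (mrg s) ((‖w‖⁻¹ : ℝ) • w) with hX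
          have e2 : ‖w‖ * S (spl s) ((‖w‖⁻¹ : ℝ) • w) - 2 * (‖w‖ * S (mrg s) ((‖w‖⁻¹ : ℝ) • w))
              = ‖w‖ * X := by
            rw [hX]; ring
          rw [e2]
          rcases le_or_gt X 0 with hX0 | hX0
          · have : c * (‖w‖ * X) ≤ 0 := by
              have := mul_nonpos_of_nonneg_of_nonpos h0.le hX0
              exact mul_nonpos_of_nonneg_of_nonpos hc.le this
            linarith
          · have : c * (‖w‖ * X) ≤ c * X := by
              have h4 : ‖w‖ * X ≤ 1 * X := mul_le_mul_of_nonneg_right hw hX0.le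
              rw [one_mul] at h4
              exact mul_le_mul_of_nonneg_left h4 hc.le
            linarith
      have e : S (spl s) w - 2 * S (mrg s) w - |dl| / c
          = (c * (S (spl s) w - 2 * S (mrg s) w) - |dl|) / c := by
        field_simp
      change S (spl s) w - 2 * S (mrg s) w - |dl| / c ≤ U d (spl s) / c - U d (mrg s) / c
      rw [e, ← sub_div]
      exact div_le_div_of_nonneg_right h2 hc.le
  have hR : 0 ≤ |C| / c * Real.sqrt d := by positivity
  have h0 : ∀ z, ⟪z, (0 : EuclideanSpace ℝ (Fin d))⟫ ≤ chainH (|C| / c * Real.sqrt d) N v z := by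
    intro z
    rw [inner_zero_right]
    exact (chainH_inv hpot N v hv).nonneg hpot.nonneg z
  obtain ⟨ε, hε, hs⟩ := chainH_signs hR hpot N v hv 0 h0
  refine ⟨ε, hε, fun k hk => ?_⟩
  have := hs k hk
  rwa [zero_add] at this

end Crest.Agent.R239.L0
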