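import Crest.Agent.R239.Ben_331
import Crest.Agent.R239.FDef
import Mathlib
import Crest.Agent.R239.Gr1_655
import Crest.Agent.R239.L0_942
import Crest.Agent.R239.Gau1
import Crest.Agent.R239.Gr2_655
import Crest.Agent.R239.FlagAlg_557
import Crest.Agent.R239.Dom_640
import Crest.Agent.R239.Ins_556b
import Crest.Agent.R239.InsCut_488
import Crest.Agent.R239.Cmp_142
import Crest.Agent.R239.Gau4

-- ▼ part R239/BenT_331
section

/-! R239, block G5 (helper331): `target_BEN`. -/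

set_option autoImplicit false

open MeasureTheory ProbabilityTheory Set
open scoped RealInnerProductSpace

namespace Crest.Agent.R239.Ben331

open Crest.Agent.R239.FD

/-- target of G5 -/
theorem target_BEN : Target_BEN := by
  intro dl hdl
  obtain ⟨c, hc, H⟩ := benefit.{0} dl hdl
  refine ⟨min c (1/2), lt_min hc (by norm_num), lt_of_le_of_lt (min_le_right _ _) (by norm_num),
    fun d => ?_⟩
  intro w hw K K' C hK cK sK hK' _ _ hC hcyl hKC
  by_cases hthin : (∫ g in K, ⟪w, g⟫ ^ 2 ∂(stdGaussian (EuclideanSpace ℝ (Fin d))))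
      ≤ (1 - min c (1/2)) * (stdGaussian (EuclideanSpace ℝ (Fin d))).real K
  · exact Or.inl hthin
  · right
    push Not at hthin
    have hK0 : 0 ≤ (stdGaussian (EuclideanSpace ℝ (Fin d))).real K := measureReal_nonneg
    have hK0' : 0 ≤ (stdGaussian (EuclideanSpace ℝ (Fin d))).real K' := measureReal_nonneg
    have h1 := H (EuclideanSpace ℝ (Fin d)) w hw K K' C hK.measurableSet hK'.measurableSet
      hC.measurableSet cK sK hKC (by
        refine le_trans ?_ hthin.le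
        apply mul_le_mul_of_nonneg_right _ hK0
        linarith [min_le_left c (1/2)])
    have h2 : {x | x - ⟪w, x⟫ • w ∈ K'} = K' := by
      ext x; exact (hcyl x).symm
    rw [h2] at h1
    have h3 : √((stdGaussian (EuclideanSpace ℝ (Fin d))).real K *
        (stdGaussian (EuclideanSpace ℝ (Fin d))).real K')
        ≤ Real.exp dl * (stdGaussian (EuclideanSpace ℝ (Fin d))).real C := by
      apply Real.sqrt_le_iff.2
      refine ⟨by positivity, h1.trans (le_of_eq ?_)⟩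
      rw [mul_pow, ← Real.exp_nat_mul]
      norm_num
    calc _ ≤ Real.exp (-dl) * (Real.exp dl * (stdGaussian (EuclideanSpace ℝ (Fin d))).real C) :=
          mul_le_mul_of_nonneg_left h3 (Real.exp_pos _).le
      _ = _ := by rw [← mul_assoc, ← Real.exp_add]; simp

end Crest.Agent.R239.Ben331
end

-- ▼ part R239/Gr3_435
section

/-!
# R239 (S0370), block G6 = B1 (growth), part 3: algebra of support functions

`O = Wd K v η 0` is the opening of `K` by `η[-v,v]`, `Wd K v 0 h` is `K + h[-v,v]`.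
-/

set_option autoImplicit false

open Set
open scoped RealInnerProductSpace

namespace Crest.Agent.R239.Gr3435

open Crest.Agent.R239.Gr655 Crest.Agent.R239.L0

section core

variable {E : Type*} [NormedAddCommGroup E] [InnerProductSpace ℝ E]

/-- support function as a supremum over the set -/
noncomputable def sf (K : Set E) (z : E) : ℝ := sSup ((fun x => ⟪x, z⟫) '' K)

theorem sf_le {K : Set E} (hne : K.Nonempty) {z : E} {c : ℝ} (h : ∀ x ∈ K, ⟪x, z⟫ ≤ c) :
    sf K z ≤ c :=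
  csSup_le (hne.image _) (by rintro _ ⟨x, hx, rfl⟩; exact h x hx)

theorem le_sf {K : Set E} (hb : Bornology.IsBounded K) {x : E} (hx : x ∈ K) (z : E) :
    ⟪x, z⟫ ≤ sf K z := by
  refine le_csSup ?_ ⟨x, hx, rfl⟩
  obtain ⟨R, hR⟩ := hb.exists_norm_le
  refine ⟨R * ‖z‖, ?_⟩
  rintro _ ⟨y, hy, rfl⟩
  exact (real_inner_le_norm y z).trans (mul_le_mul_of_nonneg_right (hR y hy) (norm_nonneg _))

/-- pointwise: eroded points -/
theorem er_le {K : Set E} {v : E} {η : ℝ} {y z : E} {c : ℝ} (hy : y ∈ Er K v η)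
    (hc : ∀ x ∈ K, ⟪x, z⟫ ≤ c) : ⟪y, z⟫ + η * |⟪v, z⟫| ≤ c := by
  rcases le_total 0 ⟪v, z⟫ with h | h
  · have := hc _ hy.1
    rw [inner_add_left, real_inner_smul_left] at this
    rw [abs_of_nonneg h]; exact this
  · have := hc _ hy.2
    rw [inner_sub_left, real_inner_smul_left] at this
    rw [abs_of_nonpos h]; linarith

/-- pointwise: points of the opening -/
theorem op_le {K : Set E} {v : E} {η : ℝ} {x z z₁ z₂ : E} {c₁ c₂ : ℝ}
    (hx : x ∈ Wd K v η 0) (hz : z = z₁ + z₂)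
    (h₁ : ∀ x ∈ K, ⟪x, z₁⟫ ≤ c₁) (h₂ : ∀ x ∈ K, ⟪x, z₂⟫ ≤ c₂) :
    ⟪x, z⟫ ≤ (c₁ - η * |⟪v, z₁⟫|) + (c₂ - η * |⟪v, z₂⟫|) + η * |⟪v, z⟫| := by
  obtain ⟨s, hs, hy⟩ := hx
  rw [add_zero] at hs
  have e1 := er_le hy h₁
  have e2 := er_le hy h₂
  have e3 : ⟪x, z⟫ = ⟪x + s • v, z₁⟫ + ⟪x + s • v, z₂⟫ - s * ⟪v, z⟫ := by
    rw [hz]
    simp only [inner_add_left, inner_add_right, real_inner_smul_left]
    ring
  have e4 : -(s * ⟪v, z⟫) ≤ η * |⟪v, z⟫| := by
    calc -(s * ⟪v, z⟫) ≤ |s * ⟪v, z⟫| := neg_le_abs _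
      _ = |s| * |⟪v, z⟫| := abs_mul _ _
      _ ≤ η * |⟪v, z⟫| := mul_le_mul_of_nonneg_right hs (abs_nonneg _)
  linarith

/-- pointwise: points of the extension -/
theorem ext_le {K : Set E} {v : E} {h : ℝ} {x z : E} {c : ℝ}
    (hx : x ∈ Wd K v 0 h) (hc : ∀ x ∈ K, ⟪x, z⟫ ≤ c) :
    ⟪x, z⟫ ≤ c + h * |⟪v, z⟫| := by
  obtain ⟨s, hs, hy, -⟩ := hx
  rw [zero_add] at hs
  rw [zero_smul, add_zero] at hy
  have e1 := hc _ hy
  rw [inner_add_left, real_inner_smul_left] at e1
  have e4 : -(s * ⟪v, z⟫) ≤ h * |⟪v, z⟫| := by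
    calc -(s * ⟪v, z⟫) ≤ |s * ⟪v, z⟫| := neg_le_abs _
      _ = |s| * |⟪v, z⟫| := abs_mul _ _
      _ ≤ h * |⟪v, z⟫| := mul_le_mul_of_nonneg_right hs (abs_nonneg _)
  linarith

/-- the sum of the support function over a population -/
noncomputable def Es (K : Set E) (m : Multiset E) : ℝ := (m.map (sf K)).sum

theorem Es_add (K : Set E) (m m' : Multiset E) : Es K (m + m') = Es K m + Es K m' := by
  simp [Es]

/-- opening, for populations -/
theorem Es_op {K : Set E} (hb : Bornology.IsBounded K) {v : E} {η : ℝ}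
    (hne : (Wd K v η 0).Nonempty) (s : Multiset (E × E)) :
    Es (Wd K v η 0) (mrg s) ≤ Es K (spl s) - η * (S (spl s) v - S (mrg s) v) := by
  induction s using Multiset.induction_on with
  | empty => simp [Es, mrg, spl, S]
  | cons p s ih =>
    have e1 : mrg (p ::ₘ s) = (p.1 + p.2) ::ₘ mrg s := by simp [mrg]
    have e2 : spl (p ::ₘ s) = {p.1} + {p.2} + spl s := by
      simp only [spl, Multiset.map_cons]
      rw [← Multiset.singleton_add, ← Multiset.singleton_add]
      abel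
    have e3 : sf (Wd K v η 0) (p.1 + p.2) ≤ (sf K p.1 - η * |⟪v, p.1⟫|)
        + (sf K p.2 - η * |⟪v, p.2⟫|) + η * |⟪v, p.1 + p.2⟫| :=
      sf_le hne fun x hx => op_le hx rfl (fun y hy => le_sf hb hy _) (fun y hy => le_sf hb hy _)
    have e4 : Es (Wd K v η 0) (mrg (p ::ₘ s))
        = sf (Wd K v η 0) (p.1 + p.2) + Es (Wd K v η 0) (mrg s) := by
      rw [e1]; simp [Es]
    have e5 : Es K (spl (p ::ₘ s)) = sf K p.1 + sf K p.2 + Es K (spl s) := by
      rw [e2, Es_add, Es_add]; simp [Es]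
    have e6 : S (mrg (p ::ₘ s)) v = |⟪v, p.1 + p.2⟫| + S (mrg s) v := by
      rw [e1, S_cons]
    have e7 : S (spl (p ::ₘ s)) v = |⟪v, p.1⟫| + |⟪v, p.2⟫| + S (spl s) v := by
      rw [e2, S_add, S_add]; simp [S]
    rw [e4, e5, e6, e7]
    linarith

/-- extension, for populations -/
theorem Es_ext {K K' : Set E} (hb : Bornology.IsBounded K) {v : E} {h : ℝ}
    (hne : K'.Nonempty) (hK' : K' ⊆ Wd K v 0 h) (m : Multiset E) :
    Es K' m ≤ Es K m + h * S m v := by
  induction m using Multiset.induction_on with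
  | empty => simp [Es, S]
  | cons z m ih =>
    have e3 : sf K' z ≤ sf K z + h * |⟪v, z⟫| :=
      sf_le hne fun x hx => ext_le (hK' hx) (fun y hy => le_sf hb hy _)
    have e4 : Es K' (z ::ₘ m) = sf K' z + Es K' m := by simp [Es]
    have e5 : Es K (z ::ₘ m) = sf K z + Es K m := by simp [Es]
    rw [e4, e5, S_cons]
    linarith

theorem wd_zero_sub {K : Set E} (hK : Convex ℝ K) (v : E) {η : ℝ} (hη : 0 ≤ η) :
    Wd K v η 0 ⊆ K := by
  refine (Wd_sub hK v hη le_rfl).trans ?_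
  rintro x ⟨s, hs, h, -⟩
  rw [zero_add] at hs
  have : s = 0 := abs_nonpos_iff.1 hs
  simpa [this] using h

theorem sub_wd (K : Set E) (v : E) {h : ℝ} (hh : 0 ≤ h) : K ⊆ Wd K v 0 h := by
  intro x hx
  exact ⟨0, by simpa using hh, by simpa [Er] using hx⟩

theorem convex_Wd {K : Set E} (hK : Convex ℝ K) (v : E) (t h : ℝ) : Convex ℝ (Wd K v t h) := by
  intro x hx y hy a b ha hb hab
  have := Wd_concave hK v ha hb hab hx hy
  rwa [← add_mul, hab, one_mul] at this

theorem symm_Wd {K : Set E} (hs : ∀ x ∈ K, -x ∈ K) (v : E) (t h : ℝ) :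
    ∀ x ∈ Wd K v t h, -x ∈ Wd K v t h := by
  rintro x ⟨s, hs1, h1, h2⟩
  refine ⟨-s, by rwa [abs_neg], ?_, ?_⟩
  · have := hs _ h2
    have e : -x + -s • v + t • v = -(x + s • v - t • v) := by module
    rw [e]; exact this
  · have := hs _ h1
    have e : -x + -s • v - t • v = -(x + s • v + t • v) := by module
    rw [e]; exact this

end core

/-! ### the value inequality, for an arbitrary monotone measure functional -/

section value

variable {E : Type*} [NormedAddCommGroup E] [InnerProductSpace ℝ E]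

/-- `1 - ℓ` of the mass is kept: cost in the logarithm -/
theorem log_keep {a b l : ℝ} (ha : 0 < a) (hl0 : 0 ≤ l) (hl : l ≤ 1 / 2) (h : (1 - l) * a ≤ b) :
    Real.log a - 2 * l ≤ Real.log b := by
  have hb : 0 < (1 - l) * a := mul_pos (by linarith) ha
  have h1 : Real.log ((1 - l) * a) ≤ Real.log b := Real.log_le_log hb h
  rw [Real.log_mul (by linarith) ha.ne'] at h1
  have h2 : 1 - (1 - l)⁻¹ ≤ Real.log (1 - l) := Real.one_sub_inv_le_log_of_pos (by linarith)
  have h3 : (1 - l)⁻¹ ≤ 1 + 2 * l := by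
    rw [inv_le_comm₀ (by linarith) (by positivity), ← one_div, div_le_iff₀ (by positivity)]
    nlinarith
  linarith

/-- hazard from near-optimality -/
theorem hazard {g : Set E → ℝ} {K K' : Set E} (hb : Bornology.IsBounded K)
    {v : E} {h lam e : ℝ} (hlam : 0 < lam)
    (hne : K'.Nonempty) (hK' : K' ⊆ Wd K v 0 h) (m : Multiset E)
    (hgK : 0 < g K) (hgK' : 0 < g K')
    (hnear : Es K m - lam * Real.log (g K) ≤ Es K' m - lam * Real.log (g K') + e) :
    g K' ≤ Real.exp ((h * S m v + e) / lam) * g K := by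
  have h1 := Es_ext hb hne hK' m
  have h2 : lam * (Real.log (g K') - Real.log (g K)) ≤ h * S m v + e := by linarith
  have h3 : Real.log (g K') ≤ (h * S m v + e) / lam + Real.log (g K) := by
    have : Real.log (g K') - Real.log (g K) ≤ (h * S m v + e) / lam := by
      rw [le_div_iff₀ hlam]; linarith
    linarith
  calc g K' = Real.exp (Real.log (g K')) := (Real.exp_log hgK').symm
    _ ≤ Real.exp ((h * S m v + e) / lam + Real.log (g K)) := Real.exp_le_exp.2 h3
    _ = _ := by rw [Real.exp_add, Real.exp_log hgK]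

/-- growth of the value, given the loss of the opening -/
theorem value_growth {g : Set E → ℝ} {K : Set E} (hb : Bornology.IsBounded K)
    {v : E} {η lam l : ℝ} (hlam : 0 ≤ lam) (hl0 : 0 ≤ l) (hl : l ≤ 1 / 2)
    (hne : (Wd K v η 0).Nonempty) (s : Multiset (E × E))
    (hgK : 0 < g K) (hO : (1 - l) * g K ≤ g (Wd K v η 0)) :
    Es (Wd K v η 0) (mrg s) - lam * Real.log (g (Wd K v η 0)) ≤
      Es K (spl s) - lam * Real.log (g K) - η * (S (spl s) v - S (mrg s) v) + 2 * l * lam := by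
  have h1 := Es_op hb hne s
  have h2 := log_keep hgK hl0 hl hO
  have h3 := mul_le_mul_of_nonneg_left h2 hlam
  nlinarith

/-- **B1, abstract form.**  `Dm`, `Dm'` are the infima of the value over the admissible bodies
(closed convex symmetric `K ⊆ L` with `0 < g K`), for the population before / after the splitting.
`hloss` is the only analytic input: hazard of the extension by `h` implies that the opening by `η`
keeps `1 - l` of the mass. -/
theorem growth_abs {g : Set E → ℝ} (gmono : ∀ A B : Set E, A ⊆ B → g A ≤ g B)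
    {L : Set E} (hLb : Bornology.IsBounded L) (hLc : IsClosed L) (hLv : Convex ℝ L)
    (hLs : ∀ x ∈ L, -x ∈ L)
    {Adm : Set E → Prop}
    (hAdm : ∀ K, Adm K ↔ IsClosed K ∧ Convex ℝ K ∧ (∀ x ∈ K, -x ∈ K) ∧ K ⊆ L ∧ 0 < g K)
    (g0 : g ∅ = 0)
    {v : E} {η h lam l β : ℝ} (hη : 0 ≤ η) (hh : 0 ≤ h) (hlam : 0 < lam)
    (hl0 : 0 ≤ l) (hl : l ≤ 1 / 2)
    (hloss : ∀ K, Adm K → g (Wd K v 0 h ∩ L) ≤ Real.exp β * g K →
      (1 - l) * g K ≤ g (Wd K v η 0))
    (s : Multiset (E × E)) {Dm Dm' : ℝ}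
    (hD : IsGLB {r | ∃ K, Adm K ∧ r = Es K (mrg s) - lam * Real.log (g K)} Dm)
    (hD' : IsGLB {r | ∃ K, Adm K ∧ r = Es K (spl s) - lam * Real.log (g K)} Dm')
    (hβ : h * S (spl s) v / lam < β) :
    Dm ≤ Dm' - η * (S (spl s) v - S (mrg s) v) + 2 * l * lam := by
  refine le_of_forall_pos_le_add fun ε hε => ?_
  -- a near optimal body
  set δ : ℝ := min ε ((β - h * S (spl s) v / lam) * lam) with hδ
  have hδ0 : 0 < δ := lt_min hε (mul_pos (by linarith) hlam)
  obtain ⟨_, ⟨K, hK, rfl⟩, hKlt⟩ : ∃ r ∈ {r | ∃ K, Adm K ∧ r = Es K (spl s)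
      - lam * Real.log (g K)}, r < Dm' + δ := by
    by_contra hcon
    push Not at hcon
    have := hD'.2 hcon
    linarith
  obtain ⟨Kc, Kv, Ks, KL, Kg⟩ := (hAdm K).1 hK
  have hb : Bornology.IsBounded K := hLb.subset KL
  -- the extension is admissible
  have hsub : K ⊆ Wd K v 0 h ∩ L := fun x hx => ⟨sub_wd K v hh hx, KL hx⟩
  have hext : Adm (Wd K v 0 h ∩ L) := by
    refine (hAdm _).2 ⟨(isClosed_Wd Kc v 0 h).inter hLc, (convex_Wd Kv v 0 h).inter hLv, ?_,
      inter_subset_right, lt_of_lt_of_le Kg (gmono _ _ hsub)⟩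
    rintro x ⟨h1, h2⟩
    exact ⟨symm_Wd Ks v 0 h x h1, hLs x h2⟩
  have hKne : K.Nonempty := by
    rcases K.eq_empty_or_nonempty with h0 | h0
    · rw [h0, g0] at Kg; exact absurd Kg (lt_irrefl _)
    · exact h0
  have hz := hazard (g := g) (K' := Wd K v 0 h ∩ L) hb (v := v) (h := h) (lam := lam) (e := δ) hlam
    (hKne.mono hsub) inter_subset_left (spl s) Kg (lt_of_lt_of_le Kg (gmono _ _ hsub))
    (by
      have := hD'.1 ⟨_, hext, rfl⟩
      linarith)
  have hexp : Real.exp ((h * S (spl s) v + δ) / lam) ≤ Real.exp β := by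
    apply Real.exp_le_exp.2
    rw [div_le_iff₀ hlam]
    have h1 : δ ≤ (β - h * S (spl s) v / lam) * lam := min_le_right _ _
    have h2 : (β - h * S (spl s) v / lam) * lam = β * lam - h * S (spl s) v := by
      field_simp
    linarith
  have hO := hloss K hK (hz.trans (mul_le_mul_of_nonneg_right hexp Kg.le))
  have hOpos : 0 < g (Wd K v η 0) := lt_of_lt_of_le (mul_pos (by linarith) Kg) hO
  have hOne : (Wd K v η 0).Nonempty := by
    rcases (Wd K v η 0).eq_empty_or_nonempty with h0 | h0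
    · rw [h0, g0] at hOpos; exact absurd hOpos (lt_irrefl _)
    · exact h0
  have hOadm : Adm (Wd K v η 0) :=
    (hAdm _).2 ⟨isClosed_Wd Kc v η 0, convex_Wd Kv v η 0, symm_Wd Ks v η 0,
      (wd_zero_sub Kv v hη).trans KL, hOpos⟩
  have hv := value_growth (g := g) hb hlam.le hl0 hl hOne s Kg hO
  have hd := hD.1 ⟨_, hOadm, rfl⟩
  have hδε : δ ≤ ε := min_le_left _ _
  linarith

/-- **B1, numerical form** (`lam ∈ [C₁ η s', 2 C₁ η s']`, `s' > 2 s`, loss `1/(40 C₁)`):
growth at least `0.4 η s'`. -/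
theorem growth_num {g : Set E → ℝ} (gmono : ∀ A B : Set E, A ⊆ B → g A ≤ g B)
    {L : Set E} (hLb : Bornology.IsBounded L) (hLc : IsClosed L) (hLv : Convex ℝ L)
    (hLs : ∀ x ∈ L, -x ∈ L)
    {Adm : Set E → Prop}
    (hAdm : ∀ K, Adm K ↔ IsClosed K ∧ Convex ℝ K ∧ (∀ x ∈ K, -x ∈ K) ∧ K ⊆ L ∧ 0 < g K)
    (g0 : g ∅ = 0)
    {v : E} {η T C₁ lam β : ℝ} (hη : 0 ≤ η) (hT : 0 ≤ T) (hlam : 0 < lam)
    (hC₁ : 1 ≤ C₁)
    (hloss : ∀ K, Adm K → g (Wd K v 0 (T * η) ∩ L) ≤ Real.exp β * g K →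
      (1 - 1 / (40 * C₁)) * g K ≤ g (Wd K v η 0))
    (s : Multiset (E × E)) {Dm Dm' : ℝ}
    (hD : IsGLB {r | ∃ K, Adm K ∧ r = Es K (mrg s) - lam * Real.log (g K)} Dm)
    (hD' : IsGLB {r | ∃ K, Adm K ∧ r = Es K (spl s) - lam * Real.log (g K)} Dm')
    (hβ : T / C₁ < β)
    (h1 : C₁ * η * S (spl s) v ≤ lam) (h2 : lam ≤ 2 * C₁ * η * S (spl s) v)
    (hs : 2 * S (mrg s) v ≤ S (spl s) v) :
    Dm + 2 / 5 * (η * S (spl s) v) ≤ Dm' := by
  have hC0 : 0 < C₁ := by linarith
  have hS : 0 ≤ S (spl s) v := S_nonneg _ _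
  have hβ' : T * η * S (spl s) v / lam < β := by
    refine lt_of_le_of_lt ?_ hβ
    rw [div_le_div_iff₀ hlam hC0]
    calc T * η * S (spl s) v * C₁ = T * (C₁ * η * S (spl s) v) := by ring
      _ ≤ T * lam := mul_le_mul_of_nonneg_left h1 hT
  have key := growth_abs gmono hLb hLc hLv hLs hAdm g0 (v := v) (η := η) (h := T * η) (lam := lam)
    (l := 1 / (40 * C₁)) (β := β) hη (mul_nonneg hT hη) hlam (by positivity)
    (by rw [div_le_div_iff₀ (by positivity) (by norm_num)]; linarith) hloss s hD hD' hβ'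
  have h3 : 2 * (1 / (40 * C₁)) * lam ≤ η * S (spl s) v / 10 := by
    calc 2 * (1 / (40 * C₁)) * lam ≤ 2 * (1 / (40 * C₁)) * (2 * C₁ * η * S (spl s) v) := by gcongr
      _ = η * S (spl s) v / 10 := by field_simp; ring
  have h4 : η * (S (spl s) v - S (mrg s) v) ≥ η * S (spl s) v / 2 := by
    nlinarith
  linarith

end value

end Crest.Agent.R239.Gr3435
end

-- ▼ part R239/Gr4_435
section

/-!
# R239 (S0370), block G6 = B1 (growth), part 4: one level, over an abstract level map `H`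

`growth_level`: level map `H : E →L[ℝ] E` with range in `M`, caps `‖B j x‖ ≤ R j` (`j ∈ s`),
`v = H w`, `T = 3200`, `C₁ = 64000`.
-/

set_option autoImplicit false

open MeasureTheory ProbabilityTheory Set
open scoped RealInnerProductSpace

namespace Crest.Agent.R239.Gr4435

open Crest.Agent.R239 Crest.Agent.R239.Gr655 Crest.Agent.R239.L0 Crest.Agent.R239.Gr3435

variable {E : Type*} [NormedAddCommGroup E] [InnerProductSpace ℝ E] [FiniteDimensional ℝ E]
  [MeasurableSpace E] [BorelSpace E]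
variable {G : Type*} [NormedAddCommGroup G] [InnerProductSpace ℝ G]

/-- the loss input of `growth_num`, from `loss_level` -/
theorem hloss_level {ι : Type*} (s : Finset ι) (H : E →L[ℝ] E) (M : Set E) (hM : ∀ x, H x ∈ M)
    (B : ι → E →L[ℝ] G) (R e : ι → ℝ) (hR : ∀ j ∈ s, 0 < R j)
    {L : Set E} (hL : L = {x | x ∈ M ∧ ∀ j ∈ s, ‖B j x‖ ≤ R j}) (hLc : IsClosed L)
    {v w : E} (hw : H w = v) (hw0 : w ≠ 0) {η : ℝ} (hη : 0 < η)
    (h1 : 3200 * η * ‖w‖ ≤ 1 / 10)
    (he0 : ∀ j ∈ s, 0 ≤ e j) (he1 : ∀ j ∈ s, e j ≤ 1 / 2)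
    (hcut : ∀ j ∈ s, ∀ W : Set E, IsClosed W → Convex ℝ W → (∀ x ∈ W, -x ∈ W) →
      (stdGaussian E).real (W ∩ {x | R j / 2 < ‖B j (H x)‖}) ≤ e j * (stdGaussian E).real W)
    (hsum : ∑ j ∈ s, 4 * (3200 * η * ‖B j v‖) * e j / R j ≤ 1 / 25)
    {K : Set E} (Kc : IsClosed K) (Kv : Convex ℝ K) (Ks : ∀ x ∈ K, -x ∈ K) (KL : K ⊆ L)
    (hz : (gau H).real (Wd K v 0 (3200 * η) ∩ L) ≤ Real.exp (1 / 19) * (gau H).real K) :
    (1 - 1 / (40 * 64000)) * (gau H).real K ≤ (gau H).real (Wd K v η 0) := by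
  have hWc : IsClosed (Wd K v 0 (3200 * η)) := isClosed_Wd Kc v 0 _
  have hOc : IsClosed (Wd K v η 0) := isClosed_Wd Kc v η 0
  rw [gau_real_apply H (hWc.inter hLc).measurableSet, gau_real_apply H Kc.measurableSet] at hz
  rw [gau_real_apply H Kc.measurableSet, gau_real_apply H hOc.measurableSet]
  have eset : H ⁻¹' (Wd K v 0 (3200 * η) ∩ L)
      = H ⁻¹' (Wd K v 0 (3200 * η)) ∩ {x | ∀ j ∈ s, ‖(B j ∘L H) x‖ ≤ R j} := by
    rw [preimage_inter]
    congr 1
    ext x
    rw [hL]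
    simp [hM x]
  rw [eset] at hz
  have hexp : Real.exp (1 / 19) ≤ (1 + 1 / 10) * (1 - 1 / 25) := by
    have h := Real.add_one_le_exp (-(1 / 19) : ℝ)
    have h2 : Real.exp (1 / 19) * Real.exp (-(1 / 19)) = 1 := by
      rw [← Real.exp_add]; simp
    have h3 : 0 < Real.exp (1 / 19) := Real.exp_pos _
    nlinarith
  have key := loss_level s H Kv Kc hw hw0 (η := η) (T := 3200) (a := Real.exp (1 / 19))
    (ε := 1 / 25) (k := 1 / 10) hη (by norm_num) h1 (fun j => B j ∘L H) R e hR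
    (fun j hj x hx => by
      have := KL hx
      rw [hL] at this
      exact this.2 j hj) he0 he1
    (fun j hj => hcut j hj _ (hWc.preimage H.continuous)
      ((convex_Wd Kv v 0 _).linear_preimage H.toLinearMap) (fun x hx => by
        have := symm_Wd Ks v 0 (3200 * η) _ hx
        simpa using this))
    (by simpa [hw] using hsum) (by norm_num) hz (by norm_num) (by norm_num) hexp
  have hsub : H ⁻¹' (Wd K v η 0) ⊆ H ⁻¹' K := preimage_mono (wd_zero_sub Kv v hη.le)
  have hd : (stdGaussian E).real (H ⁻¹' (K \ Wd K v η 0))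
      = (stdGaussian E).real (H ⁻¹' K) - (stdGaussian E).real (H ⁻¹' (Wd K v η 0)) := by
    rw [preimage_sdiff]
    exact measureReal_sdiff hsub (hOc.preimage H.continuous).measurableSet
  rw [hd] at key
  have e1 : (40 : ℝ) * (1 / 10) / 3200 ^ 2 = 1 / (40 * 64000) := by norm_num
  rw [e1] at key
  linarith

/-- **B1 (growth) at one level**, `T = 3200`, `C₁ = 64000`. -/
theorem growth_level {ι : Type*} (s : Finset ι) (H : E →L[ℝ] E) (M : Set E) (hM : ∀ x, H x ∈ M)
    (B : ι → E →L[ℝ] G) (R e : ι → ℝ) (hR : ∀ j ∈ s, 0 < R j)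
    {L : Set E} (hL : L = {x | x ∈ M ∧ ∀ j ∈ s, ‖B j x‖ ≤ R j})
    (hLb : Bornology.IsBounded L) (hLc : IsClosed L) (hLv : Convex ℝ L) (hLs : ∀ x ∈ L, -x ∈ L)
    {Adm : Set E → Prop}
    (hAdm : ∀ K, Adm K ↔ IsClosed K ∧ Convex ℝ K ∧ (∀ x ∈ K, -x ∈ K) ∧ K ⊆ L ∧
      0 < (gau H).real K)
    {v w : E} (hw : H w = v) (hw0 : w ≠ 0) {η : ℝ} (hη : 0 < η)
    (h1 : 3200 * η * ‖w‖ ≤ 1 / 10)
    (he0 : ∀ j ∈ s, 0 ≤ e j) (he1 : ∀ j ∈ s, e j ≤ 1 / 2)
    (hcut : ∀ j ∈ s, ∀ W : Set E, IsClosed W → Convex ℝ W → (∀ x ∈ W, -x ∈ W) →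
      (stdGaussian E).real (W ∩ {x | R j / 2 < ‖B j (H x)‖}) ≤ e j * (stdGaussian E).real W)
    (hsum : ∑ j ∈ s, 4 * (3200 * η * ‖B j v‖) * e j / R j ≤ 1 / 25)
    (p : Multiset (E × E)) {lam Dm Dm' : ℝ} (hlam : 0 < lam)
    (hD : IsGLB {r | ∃ K, Adm K ∧ r = Es K (mrg p) - lam * Real.log ((gau H).real K)} Dm)
    (hD' : IsGLB {r | ∃ K, Adm K ∧ r = Es K (spl p) - lam * Real.log ((gau H).real K)} Dm')
    (h2 : 64000 * η * S (spl p) v ≤ lam) (h3 : lam ≤ 2 * 64000 * η * S (spl p) v)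
    (hs : 2 * S (mrg p) v ≤ S (spl p) v) :
    Dm + 2 / 5 * (η * S (spl p) v) ≤ Dm' := by
  refine growth_num (g := fun K => (gau H).real K) (fun A B h => measureReal_mono h) hLb hLc hLv hLs
    hAdm (by simp) (v := v) (η := η) (T := 3200) (C₁ := 64000) (lam := lam) (β := 1 / 19) hη.le
    (by norm_num) hlam (by norm_num) ?_ p hD hD' (by norm_num) h2 h3 hs
  intro K hK hz
  obtain ⟨Kc, Kv, Ks, KL, -⟩ := (hAdm K).1 hK
  exact hloss_level s H M hM B R e hR hL hLc hw hw0 hη h1 he0 he1 hcut hsum Kc Kv Ks KL hz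

end Crest.Agent.R239.Gr4435
end

-- ▼ part R239/Gr5_435
section

/-!
# R239 (S0370), block G6 = B1 (growth), part 5: wiring over `FDef`

Flag facts (`flag_H_Hi`, `integral_P_H`, `cap_eq`, `cap_pos`, `isGLB_D`) and `target_growth`.
-/

set_option autoImplicit false
set_option linter.unusedSectionVars false

open MeasureTheory ProbabilityTheory Set
open scoped RealInnerProductSpace

namespace Crest.Agent.R239.Gr5435

open Crest.Agent.R239 Crest.Agent.R239.FD

/-! ### full support of the standard Gaussian -/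

section pos

variable {E : Type*} [NormedAddCommGroup E] [InnerProductSpace ℝ E] [FiniteDimensional ℝ E]
  [MeasurableSpace E] [BorelSpace E]



end pos

/-! ### traces -/

section trace

variable {E : Type*} [NormedAddCommGroup E] [InnerProductSpace ℝ E] [FiniteDimensional ℝ E]

theorem sum_star_sq (M : Submodule ℝ E) :
    ∑ i, ‖M.starProjection (stdOrthonormalBasis ℝ E i)‖ ^ 2 = (Module.finrank ℝ M : ℝ) := by
  have h1 : LinearMap.IsProj M (M.starProjection : E →L[ℝ] E).toLinearMap :=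
    ⟨fun x => M.starProjection_apply_mem x,
      fun x hx => Submodule.starProjection_eq_self_iff.2 hx⟩
  have h2 := h1.trace
  rw [← h2, LinearMap.trace_eq_sum_inner _ (stdOrthonormalBasis ℝ E)]
  refine Finset.sum_congr rfl fun i _ => ?_
  have := ProjRot557.norm_P_sq M (stdOrthonormalBasis ℝ E i)
  rw [this, real_inner_comm]
  rfl

variable [MeasurableSpace E] [BorelSpace E]

theorem integral_star_sq (M : Submodule ℝ E) :
    ∫ x, ‖M.starProjection x‖ ^ 2 ∂(stdGaussian E) = (Module.finrank ℝ M : ℝ) := by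
  rw [Dom640.integral_norm_sq, ← sum_star_sq M]
  refine Finset.sum_congr rfl fun i _ => ?_
  congr 2
  refine ext_inner_left ℝ fun y => ?_
  rw [ContinuousLinearMap.adjoint_inner_right, Submodule.inner_starProjection_left_eq_right]

end trace

/-! ### flags -/

section flag

variable {E : Type*} [NormedAddCommGroup E] [InnerProductSpace ℝ E] [FiniteDimensional ℝ E]
  [MeasurableSpace E] [BorelSpace E]

theorem th_pos : 0 < th := by unfold th; norm_num

theorem th_le : th ≤ 1 := by unfold th; norm_num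

variable (V : Flag E)


theorem Q_eq (j : ℕ) : V.Q j = FlagAlg557.Q V.M j := rfl

theorem H_eq (i : ℕ) : V.H i = FlagAlg557.H V.M th V.n i := rfl

theorem Hi_eq (i : ℕ) : V.Hi i = FlagAlg557.Hi V.M th V.n i := by
  simp only [Flag.Hi, FlagAlg557.Hi, FlagAlg557.comb, inv_pow]
  rfl

theorem bot_n : V.M V.n = ⊥ := V.bot _ le_rfl

theorem H_mem (i : ℕ) (x : E) : V.H i x ∈ V.M i :=
  FlagAlg557.comb_mem V.anti i V.n _ x

theorem flag_H_Hi {i : ℕ} (h : i ≤ V.n) {x : E} (hx : x ∈ V.M i) : V.H i (V.Hi i x) = x := by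
  rw [H_eq, Hi_eq, FlagAlg557.H_Hi V.anti th_pos h (bot_n V), FlagAlg557.P_of_mem hx]



theorem k_cast (j : ℕ) : (V.k j : ℝ) = Module.finrank ℝ (V.M j) - Module.finrank ℝ (V.M (j + 1)) := by
  unfold Flag.k
  rw [Nat.cast_sub (Submodule.finrank_mono (V.anti (Nat.le_succ j)))]

theorem integral_Q_sq (j : ℕ) : ∫ x, ‖V.Q j x‖ ^ 2 ∂(stdGaussian E) = V.k j := by
  have h : ∀ x, ‖V.Q j x‖ ^ 2 = ‖V.P j x‖ ^ 2 - ‖V.P (j + 1) x‖ ^ 2 := fun x =>
    FlagAlg557.norm_Q_sq' V.anti j x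
  simp only [h]
  rw [integral_sub (Dom640.integrable_norm_sq _) (Dom640.integrable_norm_sq _), k_cast]
  congr 1
  · exact integral_star_sq _
  · exact integral_star_sq _

theorem M_succ_of_k {j : ℕ} (hk : V.k j = 0) : V.M (j + 1) = V.M j := by
  refine Submodule.eq_of_le_of_finrank_le (V.anti (Nat.le_succ j)) ?_
  unfold Flag.k at hk
  omega

theorem Q_zero_of_k {j : ℕ} (hk : V.k j = 0) (x : E) : V.Q j x = 0 := by
  have h1 : V.P (j + 1) = V.P j := by
    unfold Flag.P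
    simp only [M_succ_of_k V hk]
  unfold Flag.Q
  rw [h1, sub_self]
  rfl

/-- square root of the cap gauge -/
noncomputable def Bc (i : ℕ) : E →L[ℝ] E :=
  FlagAlg557.comb V.M i V.n fun j => Real.sqrt ((th⁻¹) ^ (j - i))

theorem norm_Bc_sq (i : ℕ) (x : E) : ‖Bc V i x‖ ^ 2 = V.N i x := by
  rw [Bc, FlagAlg557.norm_comb_sq V.anti, Flag.N]
  refine Finset.sum_congr rfl fun j _ => ?_
  rw [Real.sq_sqrt (pow_nonneg (inv_nonneg.2 th_pos.le) _), Q_eq]

theorem norm_Bc_H_sq (i : ℕ) (x : E) :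
    ‖Bc V i (V.H i x)‖ ^ 2 = ∑ j ∈ Finset.Ico i V.n, th ^ (j - i) * ‖V.Q j x‖ ^ 2 := by
  rw [Bc, H_eq, FlagAlg557.H, FlagAlg557.comb_comb V.anti, FlagAlg557.norm_comb_sq V.anti]
  refine Finset.sum_congr rfl fun j _ => ?_
  rw [mul_pow, Real.sq_sqrt (pow_nonneg (inv_nonneg.2 th_pos.le) _), Q_eq, inv_pow]
  have h : th ^ (j - i) ≠ 0 := pow_ne_zero _ th_pos.ne'
  field_simp

/-- `E_{g_i} N_i = rr i` -/
theorem integral_Bc_H (i : ℕ) : ∫ x, ‖Bc V i (V.H i x)‖ ^ 2 ∂(stdGaussian E) = V.rr i := by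
  simp only [norm_Bc_H_sq]
  rw [integral_finsetSum _ fun l _ => (Dom640.integrable_norm_sq (V.Q l)).const_mul _, Flag.rr]
  refine Finset.sum_congr rfl fun l _ => ?_
  rw [integral_const_mul, integral_Q_sq]

theorem rr_nonneg (i : ℕ) : 0 ≤ V.rr i :=
  Finset.sum_nonneg fun _ _ => mul_nonneg (pow_nonneg th_pos.le _) (Nat.cast_nonneg _)

theorem k_zero_of_rr {i : ℕ} (h : V.rr i = 0) {j : ℕ} (hj : j ∈ Finset.Ico i V.n) : V.k j = 0 := by
  have h1 := (Finset.sum_eq_zero_iff_of_nonneg (fun l _ =>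
    mul_nonneg (pow_nonneg th_pos.le (l - i)) (Nat.cast_nonneg (V.k l)))).1 h j hj
  rcases mul_eq_zero.1 h1 with h2 | h2
  · exact absurd h2 (pow_ne_zero _ th_pos.ne')
  · exact_mod_cast h2

theorem N_nonneg (i : ℕ) (x : E) : 0 ≤ V.N i x := by
  rw [← norm_Bc_sq]; positivity

/-- on `M i` the gauge dominates the norm -/
theorem norm_sq_le_N {i : ℕ} {x : E} (hx : x ∈ V.M i) : ‖x‖ ^ 2 ≤ V.N i x := by
  rcases le_or_gt i V.n with h | h
  · have h1 : ‖x‖ ^ 2 = ∑ j ∈ Finset.Ico i V.n, ‖V.Q j x‖ ^ 2 := by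
      have := FlagAlg557.norm_P_sq_sum V.anti h (bot_n V) x
      rw [FlagAlg557.P_of_mem hx] at this
      exact this
    rw [h1]
    refine Finset.sum_le_sum fun j _ => ?_
    have h2 : 1 ≤ (th⁻¹) ^ (j - i) := one_le_pow₀ (by
      rw [one_le_inv₀ th_pos]; exact th_le)
    nlinarith [sq_nonneg ‖V.Q j x‖]
  · have h1 : x = 0 := by
      have := V.bot i h.le
      rw [this] at hx
      exact (Submodule.mem_bot ℝ).1 hx
    rw [h1, norm_zero]
    have := N_nonneg V i (0 : E)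
    simpa using this

theorem cap_iff {rho : ℝ} (hr : 0 ≤ rho) (i : ℕ) (x : E) :
    x ∈ V.cap rho i ↔ x ∈ V.M i ∧ ‖Bc V i x‖ ≤ rho * Real.sqrt (V.rr i) := by
  have h0 : 0 ≤ rho * Real.sqrt (V.rr i) := mul_nonneg hr (Real.sqrt_nonneg _)
  have h1 : (rho * Real.sqrt (V.rr i)) ^ 2 = rho ^ 2 * V.rr i := by
    rw [mul_pow, Real.sq_sqrt (rr_nonneg V i)]
  have h2 : ‖Bc V i x‖ ≤ rho * Real.sqrt (V.rr i) ↔ V.N i x ≤ rho ^ 2 * V.rr i := by
    rw [← h1, ← norm_Bc_sq, sq_le_sq₀ (norm_nonneg _) h0]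
  rw [h2]
  rfl

theorem cap_eq {rho : ℝ} (hr : 0 ≤ rho) (i : ℕ) : V.cap rho i = {x | x ∈ (V.M i : Set E) ∧
    ∀ _j ∈ ({()} : Finset Unit), ‖Bc V i x‖ ≤ rho * Real.sqrt (V.rr i)} := by
  ext x
  rw [cap_iff V hr]
  simp

theorem cap_closed (rho : ℝ) (i : ℕ) : IsClosed (V.cap rho i) := by
  have : V.cap rho i = (V.M i : Set E) ∩ {x | ‖Bc V i x‖ ^ 2 ≤ rho ^ 2 * V.rr i} := by
    ext x
    simp [Flag.cap, norm_Bc_sq]
  rw [this]
  exact (Submodule.closed_of_finiteDimensional _).inter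
    (isClosed_le ((Bc V i).continuous.norm.pow 2) continuous_const)

theorem cap_neg (rho : ℝ) (i : ℕ) : V.cap (-rho) i = V.cap rho i := by
  simp [Flag.cap]

theorem cap_convex (rho : ℝ) (i : ℕ) : Convex ℝ (V.cap rho i) := by
  wlog hr : 0 ≤ rho generalizing rho
  · rw [← cap_neg]
    exact this (-rho) (by linarith)
  intro x hx y hy a b ha hb hab
  rw [cap_iff V hr] at *
  refine ⟨(V.M i).add_mem ((V.M i).smul_mem _ hx.1) ((V.M i).smul_mem _ hy.1), ?_⟩
  rw [map_add, map_smul, map_smul]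
  have h1 := hx.2
  have h2 := hy.2
  calc ‖a • Bc V i x + b • Bc V i y‖ ≤ ‖a • Bc V i x‖ + ‖b • Bc V i y‖ := norm_add_le _ _
    _ = a * ‖Bc V i x‖ + b * ‖Bc V i y‖ := by
        rw [norm_smul, norm_smul, Real.norm_of_nonneg ha, Real.norm_of_nonneg hb]
    _ ≤ a * (rho * Real.sqrt (V.rr i)) + b * (rho * Real.sqrt (V.rr i)) := by gcongr
    _ = (a + b) * (rho * Real.sqrt (V.rr i)) := by ring
    _ = _ := by rw [hab, one_mul]

theorem cap_symm (rho : ℝ) (i : ℕ) : ∀ x ∈ V.cap rho i, -x ∈ V.cap rho i := by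
  rintro x ⟨hx1, hx2⟩
  refine ⟨(V.M i).neg_mem hx1, ?_⟩
  rw [← norm_Bc_sq, map_neg, norm_neg, norm_Bc_sq]
  exact hx2

theorem cap_bounded (rho : ℝ) (i : ℕ) : Bornology.IsBounded (V.cap rho i) := by
  refine (isBounded_iff_forall_norm_le).2 ⟨Real.sqrt (rho ^ 2 * V.rr i), ?_⟩
  rintro x ⟨hx1, hx2⟩
  exact Real.le_sqrt_of_sq_le ((norm_sq_le_N V hx1).trans hx2)

/-- the mass of the cap body -/
theorem cap_mass {rho : ℝ} (hr : 0 < rho) (i : ℕ) :
    1 - 1 / rho ^ 2 ≤ (gau (V.H i)).real (V.cap rho i) := by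
  rw [gau_real_apply _ (cap_closed V rho i).measurableSet]
  have e : V.H i ⁻¹' (V.cap rho i) = {x | ‖(Bc V i ∘L V.H i) x‖ ≤ rho * Real.sqrt (V.rr i)} := by
    ext x
    rw [mem_preimage, cap_iff V hr.le]
    simp [H_mem V i x]
  rw [e]
  rcases (rr_nonneg V i).eq_or_lt with h0 | h0
  · have h1 : {x : E | ‖(Bc V i ∘L V.H i) x‖ ≤ rho * Real.sqrt (V.rr i)} = univ := by
      refine eq_univ_of_forall fun x => ?_
      have h2 : ‖Bc V i (V.H i x)‖ ^ 2 = 0 := by
        rw [norm_Bc_H_sq]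
        refine Finset.sum_eq_zero fun j hj => ?_
        rw [Q_zero_of_k V (k_zero_of_rr V h0.symm hj)]
        simp
      have h3 : ‖Bc V i (V.H i x)‖ = 0 := by simpa using h2
      show ‖(Bc V i) (V.H i x)‖ ≤ _
      rw [h3]
      positivity
    rw [h1]
    simp
    positivity
  · have hR : 0 < rho * Real.sqrt (V.rr i) := mul_pos hr (Real.sqrt_pos.2 h0)
    have := Dom640.cut (E := E) (K := univ) MeasurableSet.univ convex_univ (fun x _ => mem_univ _)
      (Bc V i ∘L V.H i) hR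
    have e2 : ∫ x, ‖(Bc V i ∘L V.H i) x‖ ^ 2 ∂(stdGaussian E) = V.rr i := integral_Bc_H V i
    rw [e2, univ_inter, mul_pow, Real.sq_sqrt h0.le] at this
    have e3 : V.rr i / (rho ^ 2 * V.rr i) = 1 / rho ^ 2 := by
      field_simp
    rw [e3] at this
    simpa using this

/-- the cap body has positive mass -/
theorem cap_pos {rho : ℝ} (hr : 1 < rho) (i : ℕ) : 0 < (gau (V.H i)).real (V.cap rho i) := by
  refine lt_of_lt_of_le ?_ (cap_mass V (by linarith) i)
  have : 1 / rho ^ 2 < 1 := by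
    rw [div_lt_one (by positivity)]
    nlinarith
  linarith

theorem adm_cap {p : Par} (hr : 1 < p.rho) (i : ℕ) : Adm p V i (V.cap p.rho i) :=
  ⟨cap_closed V _ i, cap_convex V _ i, cap_symm V _ i, Subset.rfl, cap_pos V hr i⟩

theorem adm_nonempty {p : Par} {i : ℕ} {K : Set E} (h : Adm p V i K) : K.Nonempty := by
  rcases K.eq_empty_or_nonempty with h0 | h0
  · have := h.2.2.2.2
    rw [h0] at this
    simp at this
  · exact h0

theorem adm_zero {p : Par} {i : ℕ} {K : Set E} (h : Adm p V i K) : (0 : E) ∈ K := by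
  obtain ⟨x, hx⟩ := adm_nonempty V h
  have h1 : Convex ℝ K := h.2.1
  have := h1 hx (h.2.2.1 x hx) (a := 1 / 2) (b := 1 / 2) (by norm_num) (by norm_num)
    (by norm_num)
  simpa using this

theorem adm_bounded {p : Par} {i : ℕ} {K : Set E} (h : Adm p V i K) : Bornology.IsBounded K :=
  (cap_bounded V p.rho i).subset h.2.2.2.1

theorem hs_nonneg {K : Set E} (hb : Bornology.IsBounded K) (h0 : (0 : E) ∈ K) (z : E) :
    0 ≤ hs K z := by
  have := Gr3435.le_sf hb h0 z
  rwa [inner_zero_left] at this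

theorem Eh_nonneg {K : Set E} (hb : Bornology.IsBounded K) (h0 : (0 : E) ∈ K) (μ : Multiset E) :
    0 ≤ Eh K μ := by
  refine Multiset.sum_nonneg fun x hx => ?_
  obtain ⟨z, _, rfl⟩ := Multiset.mem_map.1 hx
  exact hs_nonneg hb h0 z

theorem lam_pos {p : Par} (hp : p.Ok) (i : ℕ) : 0 < p.lam i :=
  mul_pos hp.tau_pos (pow_pos (by linarith [hp.A_ge]) _)

theorem val_nonneg {p : Par} (hp : p.Ok) {i : ℕ} {K : Set E} (h : Adm p V i K) (μ : Multiset E) :
    0 ≤ val p V i μ K := by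
  have h1 := Eh_nonneg (adm_bounded V h) (adm_zero V h) μ
  have h2 : Real.log ((gau (V.H i)).real K) ≤ 0 :=
    Real.log_nonpos measureReal_nonneg measureReal_le_one
  have h3 := lam_pos hp i
  unfold val
  nlinarith

theorem isGLB_D {p : Par} (hp : p.Ok) (i : ℕ) (μ : Multiset E) :
    IsGLB (val p V i μ '' {K | Adm p V i K}) (D p V i μ) := by
  refine isGLB_csInf ⟨_, _, adm_cap V (by linarith [hp.rho_ge]) i, rfl⟩ ⟨0, ?_⟩
  rintro _ ⟨K, hK, rfl⟩
  exact val_nonneg V hp hK μ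

theorem isGLB_D' {p : Par} (hp : p.Ok) (i : ℕ) (μ : Multiset E) :
    IsGLB {r | ∃ K, Adm p V i K ∧ r = Gr3435.Es K μ - p.lam i * Real.log ((gau (V.H i)).real K)}
      (D p V i μ) := by
  have h := isGLB_D V hp i μ
  have e : {r | ∃ K, Adm p V i K ∧ r = Gr3435.Es K μ - p.lam i * Real.log ((gau (V.H i)).real K)}
      = val p V i μ '' {K | Adm p V i K} := by
    ext r
    constructor
    · rintro ⟨K, hK, rfl⟩
      exact ⟨K, hK, rfl⟩
    · rintro ⟨K, hK, rfl⟩
      exact ⟨K, hK, rfl⟩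
  rw [e]
  exact h

/-- Chebyshev cut for the cap gauge -/
theorem hcut {rho : ℝ} (hr : 0 < rho) {i : ℕ} (h0 : 0 < V.rr i) {W : Set E} (hW : IsClosed W)
    (cW : Convex ℝ W) (sW : ∀ x ∈ W, -x ∈ W) :
    (stdGaussian E).real (W ∩ {x | rho * Real.sqrt (V.rr i) / 2 < ‖Bc V i (V.H i x)‖})
      ≤ 4 / rho ^ 2 * (stdGaussian E).real W := by
  have hR : 0 < rho * Real.sqrt (V.rr i) / 2 := by
    have := Real.sqrt_pos.2 h0
    positivity
  have h1 := Dom640.cut hW.measurableSet cW sW (Bc V i ∘L V.H i) hR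
  have e2 : ∫ x, ‖(Bc V i ∘L V.H i) x‖ ^ 2 ∂(stdGaussian E) = V.rr i := integral_Bc_H V i
  have e3 : V.rr i / (rho * Real.sqrt (V.rr i) / 2) ^ 2 = 4 / rho ^ 2 := by
    rw [div_pow, mul_pow, Real.sq_sqrt h0.le]
    field_simp
    norm_num
  rw [e2, e3] at h1
  have mB : MeasurableSet {x : E | ‖(Bc V i ∘L V.H i) x‖ ≤ rho * Real.sqrt (V.rr i) / 2} :=
    measurableSet_le (Bc V i ∘L V.H i).continuous.norm.measurable measurable_const
  have h2 := measureReal_inter_add_sdiff (μ := stdGaussian E) (s := W) mB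
  have e4 : W ∩ {x | rho * Real.sqrt (V.rr i) / 2 < ‖Bc V i (V.H i x)‖}
      = W \ {x : E | ‖(Bc V i ∘L V.H i) x‖ ≤ rho * Real.sqrt (V.rr i) / 2} := by
    ext x
    simp
  rw [e4]
  linarith

/-- **growth, over `FDef`** -/
theorem growth_flag {p : Par} (hp : p.Ok) {C3 C4 eta : ℝ}
    (he3 : 32000 * eta * (1 + |C3|) ≤ 1) (he4 : 1000 * eta * (1 + |C4|) ≤ 1) :
    P_GROWTH E p 64000 C3 C4 eta := by
  intro V I v s eta' hv hvM hC3 hC4 hrr hS heta hle hlam
  have hv0 : v ≠ 0 := by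
    rintro rfl
    simp at hv
  have hI : I ≤ V.n := by
    by_contra hcon
    push Not at hcon
    rw [V.bot I hcon.le] at hvM
    exact hv0 ((Submodule.mem_bot ℝ).1 hvM)
  have hrho : 16 ≤ p.rho := hp.rho_ge
  have hr0 : 0 < p.rho := by linarith
  have hrr0 : 0 < V.rr I := lt_of_lt_of_le (pow_pos th_pos 2) hrr
  have hw : V.H I (V.Hi I v) = v := flag_H_Hi V hI hvM
  have hw0 : V.Hi I v ≠ 0 := by
    intro h
    rw [h, map_zero] at hw
    exact hv0 hw.symm
  have hwn : ‖V.Hi I v‖ ≤ 1 + |C3| := by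
    have h1 : ‖V.Hi I v‖ ^ 2 ≤ |C3| := hC3.trans (le_abs_self _)
    nlinarith [norm_nonneg (V.Hi I v), abs_nonneg C3]
  have hBn : ‖Bc V I v‖ ≤ 1 + |C4| := by
    have h1 : ‖Bc V I v‖ ^ 2 ≤ |C4| := by
      rw [norm_Bc_sq]
      exact hC4.trans (le_abs_self _)
    nlinarith [norm_nonneg (Bc V I v), abs_nonneg C4]
  have hsq : th ≤ Real.sqrt (V.rr I) := Real.le_sqrt_of_sq_le hrr
  set R : ℝ := p.rho * Real.sqrt (V.rr I) with hR
  have hR0 : 0 < R := mul_pos hr0 (Real.sqrt_pos.2 hrr0)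
  have hR1 : p.rho * (4 / 5) ≤ R := by
    have : th = 4 / 5 := rfl
    rw [this] at hsq
    exact mul_le_mul_of_nonneg_left hsq hr0.le
  have h1 : 3200 * eta' * ‖V.Hi I v‖ ≤ 1 / 10 := by
    have h2 : 3200 * eta' * ‖V.Hi I v‖ ≤ 3200 * eta * (1 + |C3|) := by
      have : 0 ≤ 3200 * eta := by linarith
      gcongr
    linarith
  have hsum : ∑ _j ∈ ({()} : Finset Unit), 4 * (3200 * eta' * ‖Bc V I v‖) * (4 / p.rho ^ 2) / R
      ≤ 1 / 25 := by
    rw [Finset.sum_singleton, div_le_iff₀ hR0]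
    have h2 : eta' * ‖Bc V I v‖ ≤ 1 / 1000 := by
      have h3 : eta' * ‖Bc V I v‖ ≤ eta * (1 + |C4|) := by
        have : 0 ≤ eta := by linarith
        gcongr
      linarith
    have h4 : (4 : ℝ) / p.rho ^ 2 ≤ 4 / 16 ^ 2 := by
      apply div_le_div_of_nonneg_left (by norm_num) (by norm_num)
      exact pow_le_pow_left₀ (by norm_num) hrho 2
    have h5 : 0 ≤ (4 : ℝ) / p.rho ^ 2 := by positivity
    have h6 : 0 ≤ eta' * ‖Bc V I v‖ := by positivity
    calc 4 * (3200 * eta' * ‖Bc V I v‖) * (4 / p.rho ^ 2)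
        = 12800 * ((eta' * ‖Bc V I v‖) * (4 / p.rho ^ 2)) := by ring
      _ ≤ 12800 * ((1 / 1000) * (4 / 16 ^ 2)) := by gcongr
      _ ≤ 1 / 25 * (16 * (4 / 5)) := by norm_num
      _ ≤ 1 / 25 * (p.rho * (4 / 5)) := by gcongr
      _ ≤ 1 / 25 * R := by gcongr
  have key := Gr4435.growth_level (ι := Unit) (G := E) {()} (V.H I) (V.M I : Set E)
    (fun x => H_mem V I x) (fun _ => Bc V I) (fun _ => R) (fun _ => 4 / p.rho ^ 2)
    (fun _ _ => hR0) (cap_eq V hr0.le I) (cap_bounded V p.rho I) (cap_closed V p.rho I)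
    (cap_convex V p.rho I) (cap_symm V p.rho I) (Adm := Adm p V I) (fun K => Iff.rfl)
    hw hw0 heta h1 (fun _ _ => by positivity)
    (fun _ _ => by
      rw [div_le_div_iff₀ (by positivity) (by norm_num)]
      nlinarith)
    (fun _ _ W hW cW sW => hcut V hr0 hrr0 hW cW sW) hsum s (lam_pos hp I)
    (isGLB_D' V hp I _) (isGLB_D' V hp I _) hlam.le
    (by
      have hlp := lam_pos hp I
      have : 64000 * eta' * L0.S (L0.spl s) v = p.lam I := hlam
      linarith)
    hS.le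
  have e : 2 / 5 * (p.lam I / 64000) = 2 / 5 * (eta' * L0.S (L0.spl s) v) := by
    have : 64000 * eta' * L0.S (L0.spl s) v = p.lam I := hlam
    rw [← this]
    ring
  rw [e]
  exact key

end flag

/-- **G6**: `Target_GROWTH` -/
theorem target_growth : Target_GROWTH := by
  refine ⟨64000, by norm_num, fun C3 C4 => ?_⟩
  have h3 : 1 ≤ 1 + |C3| := by linarith [abs_nonneg C3]
  have h4 : 1 ≤ 1 + |C4| := by linarith [abs_nonneg C4]
  have h34 : 1 ≤ (1 + |C3|) * (1 + |C4|) := one_le_mul_of_one_le_of_one_le h3 h4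
  refine ⟨1 / (32000 * ((1 + |C3|) * (1 + |C4|))), by positivity, ?_, fun d p hp => ?_⟩
  · rw [div_le_one (by positivity)]
    linarith
  · refine growth_flag hp ?_ ?_
    · have e : 32000 * (1 / (32000 * ((1 + |C3|) * (1 + |C4|)))) * (1 + |C3|) = 1 / (1 + |C4|) := by
        field_simp
      rw [e, div_le_one (by positivity)]
      exact h4
    · have e : 1000 * (1 / (32000 * ((1 + |C3|) * (1 + |C4|)))) * (1 + |C4|)
          = 1 / (32 * (1 + |C3|)) := by
        field_simp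
        norm_num
      rw [e, div_le_one (by positivity)]
      linarith

end Crest.Agent.R239.Gr5435
end

-- ▼ part R239/Ins_556c
section

/-! R239 / S0370, block F3 (insertion), part 3: the geometric sums over levels (helper556). -/

set_option autoImplicit false
set_option linter.unusedSectionVars false
set_option linter.unusedVariables false
open Submodule
open scoped RealInnerProductSpace

namespace Crest.Agent.R239.Ins556

lemma geo_T {lam : ℕ → ℝ} {A a : ℝ} (hA : 2 * a ≤ A) (hA0 : 0 < A) (ha : 0 ≤ a)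
    (hl : ∀ i, lam (i + 1) = A * lam i) (h0 : ∀ i, 0 ≤ lam i) (I : ℕ) :
    ∑ i ∈ Finset.range (I + 1), lam i * a ^ (I - i) ≤ 2 * lam I := by
  induction I with
  | zero => simp; linarith [h0 0]
  | succ I ih =>
    rw [Finset.sum_range_succ]
    have h1 : ∑ i ∈ Finset.range (I + 1), lam i * a ^ (I + 1 - i)
        = a * ∑ i ∈ Finset.range (I + 1), lam i * a ^ (I - i) := by
      rw [Finset.mul_sum]
      apply Finset.sum_congr rfl
      intro i hi
      have : I + 1 - i = (I - i) + 1 := by have := Finset.mem_range.1 hi; omega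
      rw [this, pow_succ]; ring
    rw [h1, Nat.sub_self, pow_zero, mul_one]
    have h2 : a * ∑ i ∈ Finset.range (I + 1), lam i * a ^ (I - i) ≤ a * (2 * lam I) :=
      mul_le_mul_of_nonneg_left ih ha
    have h3 : a * (2 * lam I) ≤ lam (I + 1) := by
      rw [hl]; nlinarith [h0 I]
    linarith

/-- exponent costs -/
lemma geo_exp {lam : ℕ → ℝ} {A a : ℝ} (hA : 2 * a ≤ A) (hA0 : 0 < A) (ha : 0 ≤ a)
    (hl : ∀ i, lam (i + 1) = A * lam i) (h0 : ∀ i, 0 ≤ lam i) (I : ℕ) :
    ∑ i ∈ Finset.range (I + 1), lam i * ((a ^ (I - i) - 1) / 2) ≤ (a / A) * lam I := by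
  rw [Finset.sum_range_succ, Nat.sub_self, pow_zero, sub_self, zero_div, mul_zero, add_zero]
  cases I with
  | zero => simp; exact mul_nonneg (div_nonneg ha hA0.le) (h0 0)
  | succ I =>
    have h1 : ∑ i ∈ Finset.range (I + 1), lam i * ((a ^ (I + 1 - i) - 1) / 2)
        ≤ ∑ i ∈ Finset.range (I + 1), (a / 2) * (lam i * a ^ (I - i)) := by
      apply Finset.sum_le_sum
      intro i hi
      have : I + 1 - i = (I - i) + 1 := by have := Finset.mem_range.1 hi; omega
      rw [this, pow_succ]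
      nlinarith [h0 i]
    rw [← Finset.mul_sum] at h1
    have h2 := geo_T hA hA0 ha hl h0 I
    have h3 : (a / 2) * ∑ i ∈ Finset.range (I + 1), lam i * a ^ (I - i) ≤ (a / 2) * (2 * lam I) :=
      mul_le_mul_of_nonneg_left h2 (by linarith)
    have h4 : (a / 2) * (2 * lam I) = (a / A) * lam (I + 1) := by
      rw [hl]; field_simp
    linarith


section ext

variable {E : Type*} [NormedAddCommGroup E] [InnerProductSpace ℝ E] [FiniteDimensional ℝ E]








end ext

end Crest.Agent.R239.Ins556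
end

-- ▼ part R239/Ins_556e
section

/-! R239 / S0370, block F3 (insertion), part 5: dependence of `D`, `J` on the flag (helper556). -/

set_option autoImplicit false
set_option linter.unusedSectionVars false
set_option linter.unusedVariables false
open MeasureTheory ProbabilityTheory Submodule
open scoped RealInnerProductSpace

namespace Crest.Agent.R239.Ins556

open Crest.Agent.R239 (gau)
open Crest.Agent.R239.FD

variable {E : Type*} [NormedAddCommGroup E] [InnerProductSpace ℝ E] [FiniteDimensional ℝ E]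
  [MeasurableSpace E] [BorelSpace E]

section ext

lemma sP_congr {A B : Submodule ℝ E} (h : A = B) : A.starProjection = B.starProjection := by
  subst h; rfl

lemma fr_congr {A B : Submodule ℝ E} (h : A = B) : Module.finrank ℝ A = Module.finrank ℝ B := by
  subst h; rfl

lemma Q_zero (V : Flag E) {j : ℕ} (h : V.n ≤ j) : V.Q j = 0 := by
  have h1 : V.P j = 0 := by
    unfold Flag.P; rw [sP_congr (V.bot j h)]; exact starProjection_bot
  have h2 : V.P (j + 1) = 0 := by
    unfold Flag.P; rw [sP_congr (V.bot (j + 1) (h.trans (Nat.le_succ j)))]; exact starProjection_bot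
  unfold Flag.Q; rw [h1, h2, sub_zero]

lemma k_zero (V : Flag E) {j : ℕ} (h : V.n ≤ j) : V.k j = 0 := by
  unfold Flag.k
  rw [fr_congr (V.bot j h), finrank_bot]
  exact Nat.zero_sub _

/-- a sum over `Ico i V.n` of terms vanishing from `V.n` on -/
lemma sum_Ico_ext {α : Type*} [AddCommMonoid α] (f : ℕ → α) {n N i : ℕ} (h : n ≤ N)
    (h0 : ∀ j, n ≤ j → f j = 0) : ∑ j ∈ Finset.Ico i n, f j = ∑ j ∈ Finset.Ico i N, f j := by
  apply Finset.sum_subset
  · intro j hj
    rw [Finset.mem_Ico] at hj ⊢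
    exact ⟨hj.1, hj.2.trans_le h⟩
  · intro j hj hj'
    have : n ≤ j := by
      rw [Finset.mem_Ico] at hj hj'
      by_contra h'
      exact hj' ⟨hj.1, not_le.1 h'⟩
    exact h0 j this

lemma H_long (V : Flag E) (i : ℕ) {N : ℕ} (h : V.n ≤ N) :
    V.H i = ∑ j ∈ Finset.Ico i N, th ^ (j - i) • V.Q j :=
  sum_Ico_ext _ h fun j hj => by rw [Q_zero V hj, smul_zero]


lemma rr_long (V : Flag E) (i : ℕ) {N : ℕ} (h : V.n ≤ N) :
    V.rr i = ∑ j ∈ Finset.Ico i N, th ^ (j - i) * (V.k j : ℝ) :=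
  sum_Ico_ext _ h fun j hj => by rw [k_zero V hj]; simp

lemma N_long (V : Flag E) (i : ℕ) {N : ℕ} (h : V.n ≤ N) (x : E) :
    V.N i x = ∑ j ∈ Finset.Ico i N, (th⁻¹) ^ (j - i) * ‖V.Q j x‖ ^ 2 :=
  sum_Ico_ext _ h fun j hj => by rw [Q_zero V hj]; simp

variable {V V' : Flag E} {i : ℕ}

lemma Q_congr (h : ∀ j, i ≤ j → V'.M j = V.M j) {j : ℕ} (hj : i ≤ j) : V'.Q j = V.Q j := by
  unfold Flag.Q Flag.P
  rw [sP_congr (h j hj), sP_congr (h (j + 1) (hj.trans (Nat.le_succ j)))]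

lemma k_congr (h : ∀ j, i ≤ j → V'.M j = V.M j) {j : ℕ} (hj : i ≤ j) : V'.k j = V.k j := by
  unfold Flag.k
  rw [fr_congr (h j hj), fr_congr (h (j + 1) (hj.trans (Nat.le_succ j)))]

/-- `H i` depends on the spaces `M j`, `j ≥ i` only -/
lemma H_congr (h : ∀ j, i ≤ j → V'.M j = V.M j) : V'.H i = V.H i := by
  rw [H_long V' i (le_max_left V'.n V.n), H_long V i (le_max_right V'.n V.n)]
  apply Finset.sum_congr rfl
  intro j hj
  rw [Q_congr h (Finset.mem_Ico.1 hj).1]


lemma rr_congr (h : ∀ j, i ≤ j → V'.M j = V.M j) : V'.rr i = V.rr i := by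
  rw [rr_long V' i (le_max_left V'.n V.n), rr_long V i (le_max_right V'.n V.n)]
  apply Finset.sum_congr rfl
  intro j hj
  rw [k_congr h (Finset.mem_Ico.1 hj).1]

lemma N_congr (h : ∀ j, i ≤ j → V'.M j = V.M j) (x : E) : V'.N i x = V.N i x := by
  rw [N_long V' i (le_max_left V'.n V.n), N_long V i (le_max_right V'.n V.n)]
  apply Finset.sum_congr rfl
  intro j hj
  rw [Q_congr h (Finset.mem_Ico.1 hj).1]

lemma cap_congr (h : ∀ j, i ≤ j → V'.M j = V.M j) (rho : ℝ) : V'.cap rho i = V.cap rho i := by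
  unfold Flag.cap
  rw [h i le_rfl, rr_congr h]
  simp_rw [N_congr h]

lemma Adm_congr (h : ∀ j, i ≤ j → V'.M j = V.M j) (p : Par) (K : Set E) :
    Adm p V' i K ↔ Adm p V i K := by
  unfold Adm
  rw [cap_congr h, H_congr h]

lemma val_congr (h : ∀ j, i ≤ j → V'.M j = V.M j) (p : Par) (μ : Multiset E) (K : Set E) :
    val p V' i μ K = val p V i μ K := by
  unfold val
  rw [H_congr h]

/-- **`D_i` depends on the spaces `M j`, `j ≥ i` only** -/
lemma D_congr (h : ∀ j, i ≤ j → V'.M j = V.M j) (p : Par) (μ : Multiset E) :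
    D p V' i μ = D p V i μ := by
  unfold D
  have h1 : {K | Adm p V' i K} = {K | Adm p V i K} := by
    ext K; exact Adm_congr h p K
  rw [h1]
  congr 1
  apply Set.image_congr
  intro K _
  exact val_congr h p μ K

end ext

section top

/-- support function of `{0}` -/
lemma hs_zero (z : E) : hs ({0} : Set E) z = 0 := by
  unfold hs
  rw [Set.image_singleton, inner_zero_left]
  exact csSup_singleton 0

lemma Eh_zero (μ : Multiset E) : Eh ({0} : Set E) μ = 0 := by
  unfold Eh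
  have : hs ({0} : Set E) = fun _ => 0 := funext hs_zero
  rw [this]
  simp

lemma H_top (V : Flag E) {i : ℕ} (h : V.n ≤ i) : V.H i = 0 := by
  unfold Flag.H
  rw [Finset.Ico_eq_empty (by omega), Finset.sum_empty]

lemma cap_top (V : Flag E) {i : ℕ} (h : V.n ≤ i) (rho : ℝ) : V.cap rho i = {0} := by
  unfold Flag.cap Flag.N Flag.rr
  rw [Finset.Ico_eq_empty (by omega)]
  ext x
  rw [V.bot i h]
  simp

lemma gau_zero_real {K : Set E} (mK : MeasurableSet K) (h0 : (0 : E) ∈ K) :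
    (gau (0 : E →L[ℝ] E)).real K = 1 := by
  rw [gau_real_apply _ mK]
  have : (⇑(0 : E →L[ℝ] E)) ⁻¹' K = Set.univ := by
    ext x; simp [h0]
  rw [this]
  exact probReal_univ

/-- **levels `≥ n` have `D = 0`** -/
lemma D_top (p : Par) (V : Flag E) {i : ℕ} (h : V.n ≤ i) (μ : Multiset E) : D p V i μ = 0 := by
  have h1 : {K : Set E | Adm p V i K} = {{0}} := by
    ext K
    constructor
    · rintro ⟨h1, h2, h3, h4, h5⟩
      rw [cap_top V h] at h4
      rcases Set.subset_singleton_iff_eq.1 h4 with h6 | h6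
      · rw [h6] at h5; simp at h5
      · exact h6
    · rintro rfl
      refine ⟨isClosed_singleton, convex_singleton 0, ?_, ?_, ?_⟩
      · intro x hx
        rw [Set.mem_singleton_iff] at hx ⊢
        rw [hx, neg_zero]
      · rw [cap_top V h]
      · rw [H_top V h, gau_zero_real (measurableSet_singleton 0) rfl]; exact one_pos
  unfold D
  rw [h1, Set.image_singleton, csInf_singleton]
  unfold val
  rw [Eh_zero, H_top V h, gau_zero_real (measurableSet_singleton 0) rfl, Real.log_one]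
  ring

/-- **`J` as a sum over any longer range** -/
lemma J_long (p : Par) (V : Flag E) (μ : Multiset E) {N : ℕ} (h : V.n ≤ N) :
    J p V μ = ∑ i ∈ Finset.range N, (D p V i μ - p.kap * p.lam i * V.k i) := by
  unfold J
  rw [Finset.range_eq_Ico, Finset.range_eq_Ico]
  apply sum_Ico_ext _ h
  intro j hj
  rw [D_top p V hj, k_zero V hj]
  simp


end top

end Crest.Agent.R239.Ins556
end

-- ▼ part R239/Ins_556f
section

/-! R239 / S0370, block F3 (insertion), part 6: the inserted flag, sums (helper556). -/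

set_option autoImplicit false
set_option linter.unusedSectionVars false
set_option linter.unusedVariables false
open MeasureTheory ProbabilityTheory Submodule
open scoped RealInnerProductSpace

namespace Crest.Agent.R239.Ins556

open Crest.Agent.R239 (gau)
open Crest.Agent.R239.FD

variable {E : Type*} [NormedAddCommGroup E] [InnerProductSpace ℝ E] [FiniteDimensional ℝ E]
  [MeasurableSpace E] [BorelSpace E]

/-- the inserted flag -/
noncomputable def insFlag (V : Flag E) (v : E) (I : ℕ) : Flag E where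
  n := max V.n (I + 1)
  M := insM V.M v I
  anti := insM_antitone V.anti v I
  bot := fun i hi => by
    rw [insM_gt (by omega)]
    exact V.bot i (by omega)

lemma k_cast (V : Flag E) (j : ℕ) :
    (V.k j : ℝ) = (Module.finrank ℝ (V.M j) : ℝ) - (Module.finrank ℝ (V.M (j + 1)) : ℝ) := by
  unfold Flag.k
  rw [Nat.cast_sub (Submodule.finrank_mono (V.anti (Nat.le_succ j)))]

/-- the level inequality needed for insertion -/
def LevIns (E : Type*) [NormedAddCommGroup E] [InnerProductSpace ℝ E] [FiniteDimensional ℝ E]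
    [MeasurableSpace E] [BorelSpace E] (p : Par) : Prop :=
  ∀ (V V' : Flag E) (v : E) (I : ℕ), V'.M = insM V.M v I → ∀ (μ : Multiset E) (i : ℕ), i ≤ I →
    D p V i μ - p.lam i * ((((th⁻¹ ^ 2) ^ (I - i) - 1) / 2) + 2 / p.rho ^ 2) ≤ D p V' i μ

lemma p_ins {p : Par} (hp : p.Ok) (hL : LevIns E p) : P_INS E p := by
  intro V μ v I hv
  refine ⟨insFlag V v I, fun i hi => insM_gt hi, fun i hi => insM_le hi, ?_⟩
  set V' := insFlag V v I with hV'
  set N := max V.n (I + 1) with hN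
  have hVN : V.n ≤ N := le_max_left _ _
  have hIN : I < N := by omega
  have hA : 16 ≤ p.A := hp.A_ge
  have hlam : ∀ i, 0 ≤ p.lam i := fun i =>
    mul_nonneg hp.tau_pos.le (pow_nonneg (by linarith) i)
  have hlam1 : ∀ i, p.lam (i + 1) = p.A * p.lam i := fun i => by
    unfold Par.lam; rw [pow_succ]; ring
  rw [J_long p V μ hVN, J_long p V' μ (le_refl V'.n)]
  have e1 : V'.n = N := rfl
  rw [e1]
  simp only [Finset.sum_sub_distrib]
  -- penalties
  have hpen : ∑ i ∈ Finset.range N, p.kap * p.lam i * (V'.k i : ℝ)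
      ≤ ∑ i ∈ Finset.range N, p.kap * p.lam i * (V.k i : ℝ) + p.kap * p.lam I := by
    have h1 := pen_ins V.anti v (I := I) (N := N) p.lam hlam hIN
    have h2 : ∀ W : Flag E, ∑ i ∈ Finset.range N, p.kap * p.lam i * (W.k i : ℝ)
        = p.kap * ∑ j ∈ Finset.range N, p.lam j * ((Module.finrank ℝ (W.M j) : ℝ)
          - (Module.finrank ℝ (W.M (j + 1)) : ℝ)) := by
      intro W
      rw [Finset.mul_sum]
      apply Finset.sum_congr rfl
      intro j _
      rw [k_cast]; ring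
    rw [h2 V', h2 V, ← mul_add]
    exact mul_le_mul_of_nonneg_left h1 hp.kap_pos.le
  -- levels
  have hlev : ∀ i ∈ Finset.range N, D p V i μ ≤ D p V' i μ
      + (if i ≤ I then p.lam i * ((((th⁻¹ ^ 2) ^ (I - i) - 1) / 2) + 2 / p.rho ^ 2) else 0) := by
    intro i _
    by_cases hi : i ≤ I
    · rw [if_pos hi]
      have := hL V V' v I rfl μ i hi
      linarith
    · rw [if_neg hi, add_zero]
      have h3 : D p V' i μ = D p V i μ :=
        D_congr (fun j hj => insM_gt (by omega)) p μ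
      rw [h3]
  have hs := Finset.sum_le_sum hlev
  rw [Finset.sum_add_distrib] at hs
  have h4 : ∑ i ∈ Finset.range N,
      (if i ≤ I then p.lam i * ((((th⁻¹ ^ 2) ^ (I - i) - 1) / 2) + 2 / p.rho ^ 2) else 0)
      = ∑ i ∈ Finset.range (I + 1), p.lam i * (((th⁻¹ ^ 2) ^ (I - i) - 1) / 2)
        + ∑ i ∈ Finset.range (I + 1), p.lam i * (2 / p.rho ^ 2) := by
    rw [← Finset.sum_add_distrib, ← Finset.sum_filter]
    have h5 : (Finset.range N).filter (fun i => i ≤ I) = Finset.range (I + 1) := by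
      ext i; simp only [Finset.mem_filter, Finset.mem_range]; omega
    rw [h5]
    apply Finset.sum_congr rfl
    intro i _
    ring
  rw [h4] at hs
  have hth : (th⁻¹ ^ 2 : ℝ) = 25 / 16 := by unfold th; norm_num
  have h6 := geo_exp (lam := p.lam) (A := p.A) (a := th⁻¹ ^ 2) (by rw [hth]; linarith)
    (by linarith) (by rw [hth]; norm_num) hlam1 hlam I
  have h7 := geo_T (lam := p.lam) (A := p.A) (a := 1) (by linarith) (by linarith) zero_le_one
    hlam1 hlam I
  simp only [one_pow, mul_one] at h7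
  have h8 : ∑ i ∈ Finset.range (I + 1), p.lam i * (2 / p.rho ^ 2) ≤ 4 / p.rho ^ 2 * p.lam I := by
    rw [← Finset.sum_mul]
    have : (0:ℝ) ≤ 2 / p.rho ^ 2 := by positivity
    calc (∑ i ∈ Finset.range (I + 1), p.lam i) * (2 / p.rho ^ 2)
        ≤ (2 * p.lam I) * (2 / p.rho ^ 2) := mul_le_mul_of_nonneg_right h7 this
      _ = 4 / p.rho ^ 2 * p.lam I := by ring
  have h9 : th⁻¹ ^ 2 / p.A * p.lam I ≤ 2 / (p.A * th ^ 2) * p.lam I := by
    apply mul_le_mul_of_nonneg_right _ (hlam I)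
    have hA0 : 0 < p.A := by linarith
    have ht : 0 < th ^ 2 := by unfold th; norm_num
    have e : th⁻¹ ^ 2 / p.A = 1 / (p.A * th ^ 2) := by
      rw [inv_pow]; field_simp
    rw [e]
    apply div_le_div_of_nonneg_right _ (by positivity)
    norm_num
  have h10 : 4 / p.rho ^ 2 * p.lam I ≤ 8 / p.rho ^ 2 * p.lam I := by
    apply mul_le_mul_of_nonneg_right _ (hlam I)
    have : (0:ℝ) ≤ 1 / p.rho ^ 2 := by positivity
    have h11 : 8 / p.rho ^ 2 = 4 / p.rho ^ 2 + 4 * (1 / p.rho ^ 2) := by ring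
    rw [h11]
    linarith
  linarith

end Crest.Agent.R239.Ins556
end

-- ▼ part R239/InsCmp_488
section

/-! R239 block F3 (helper488): the level measure of the inserted flag against the old one, from (CMP). -/

set_option autoImplicit false
set_option linter.unusedSectionVars false
open Submodule MeasureTheory ProbabilityTheory Set
open scoped RealInnerProductSpace

namespace Crest.Agent.R239.Ins488

open Crest.Agent.R239.Ins556

variable {E : Type*} [NormedAddCommGroup E] [InnerProductSpace ℝ E] [FiniteDimensional ℝ E]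
  [MeasurableSpace E] [BorelSpace E]

lemma inner_Hc (M : ℕ → Submodule ℝ E) (c : ℝ) (n i : ℕ) (x y : E) :
    ⟪Hc M c n i x, y⟫ = ⟪x, Hc M c n i y⟫ := by
  rw [Hc_apply, Hc_apply, sum_inner, inner_sum]
  refine Finset.sum_congr rfl fun j _ => ?_
  rw [inner_smul_left, inner_smul_right, inner_Qp_left]
  simp

lemma norm_Hc_le {M : ℕ → Submodule ℝ E} (hM : Antitone M) {c : ℝ} (h0 : 0 ≤ c) (h1 : c ≤ 1)
    {n i : ℕ} (hin : i ≤ n) (x : E) : ‖Hc M c n i x‖ ≤ ‖x‖ := by
  have e1 : ‖Hc M c n i x‖ ^ 2 ≤ ∑ j ∈ Finset.Ico i n, ‖Qp M j x‖ ^ 2 := by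
    rw [norm_sq_Hc hM]
    refine Finset.sum_le_sum fun j _ => ?_
    have h2 : (c ^ 2) ^ (j - i) ≤ 1 := pow_le_one₀ (by positivity) (pow_le_one₀ h0 h1)
    have h3 := sq_nonneg ‖Qp M j x‖
    nlinarith
  have e2 : ∀ m, i ≤ m → ∑ j ∈ Finset.Ico i m, ‖Qp M j x‖ ^ 2 =
      ‖(M i).starProjection x‖ ^ 2 - ‖(M m).starProjection x‖ ^ 2 := by
    intro m hm
    induction m, hm using Nat.le_induction with
    | base => simp
    | succ m hm ih => rw [Finset.sum_Ico_succ_top hm, ih, norm_sq_Qp hM]; ring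
  rw [e2 n hin] at e1
  have e3 : ‖(M i).starProjection x‖ ^ 2 ≤ ‖x‖ ^ 2 :=
    pow_le_pow_left₀ (norm_nonneg _) (norm_starProjection_apply_le _ _) 2
  have e4 : ‖Hc M c n i x‖ ^ 2 ≤ ‖x‖ ^ 2 := by
    nlinarith [sq_nonneg ‖(M n).starProjection x‖]
  exact (sq_le_sq₀ (norm_nonneg _) (norm_nonneg _)).mp e4

/-- **(B2)** -/
theorem ins_measure {M : ℕ → Submodule ℝ E} (hM : Antitone M) (v : E)
    {n i I : ℕ} (hi : i ≤ I) (hI : I < n) (hn : M n = ⊥) {th : ℝ} (h0 : 0 < th) (h1 : th ≤ 1)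
    {K : Set E} (hc : Convex ℝ K) (hK : IsClosed K) (hs : ∀ x ∈ K, -x ∈ K) :
    Real.exp (-(((th ^ 2)⁻¹) ^ (I - i) - 1) / 2) *
      (stdGaussian E).real {g | Hc (insM M v I) th n i g ∈ K} ≤
      (stdGaussian E).real {g | Hc M th n i g ∈ K} := by
  have hin : i ≤ n := hi.trans hI.le
  have hM' : Antitone (insM M v I) := insM_antitone hM v I
  have hn' : insM M v I n = ⊥ := insM_bot hI hn
  have hth0 : th ≠ 0 := h0.ne'
  set c := th⁻¹ with hcdef
  have hc0 : 0 < c := inv_pos.mpr h0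
  have hc1 : 1 ≤ c := (one_le_inv₀ h0).mpr h1
  have hc2 : 1 ≤ c ^ 2 := one_le_pow₀ hc1
  have hwt : ∀ j ∈ Finset.Ioc i I, 0 ≤ (c ^ 2) ^ (j - i) - (c ^ 2) ^ (j - i - 1) := by
    intro j hj
    have : (c ^ 2) ^ (j - i - 1) ≤ (c ^ 2) ^ (j - i) := pow_le_pow_right₀ hc2 (by omega)
    linarith
  set H := Hc M th n i with hH
  set H' := Hc (insM M v I) th n i with hH'
  set R : E →L[ℝ] E := (Hc (insM M v I) c n i).comp H with hR
  set a : ℕ → E := fun j => Real.sqrt ((c ^ 2) ^ (j - i) - (c ^ 2) ^ (j - i - 1)) •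
    H (nn (M j) v) with ha
  have hnorm : ∀ g, ‖R g‖ ^ 2 ≤ ‖g‖ ^ 2 + ∑ j ∈ Finset.Ioc i I, ⟪a j, g⟫ ^ 2 := by
    intro g
    have hx : H g ∈ M i := Hc_mem hM th n i g
    have e1 : ‖R g‖ ^ 2 = ‖Hc M c n i (H g)‖ ^ 2 + ∑ j ∈ Finset.Ioc i I,
        ((c ^ 2) ^ (j - i) - (c ^ 2) ^ (j - i - 1)) * ⟪nn (M j) v, H g⟫ ^ 2 :=
      ins_form hM v (c := c) hi hI hx
    rw [e1]
    have e2 : ‖Hc M c n i (H g)‖ ^ 2 ≤ ‖g‖ ^ 2 := norm_sq_HcHc_le hM hth0 hin hn g
    have e3 : ∑ j ∈ Finset.Ioc i I, ((c ^ 2) ^ (j - i) - (c ^ 2) ^ (j - i - 1)) *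
        ⟪nn (M j) v, H g⟫ ^ 2 = ∑ j ∈ Finset.Ioc i I, ⟪a j, g⟫ ^ 2 := by
      refine Finset.sum_congr rfl fun j hj => ?_
      rw [ha]
      simp only
      rw [inner_smul_left, mul_pow, hH, inner_Hc]
      simp only [conj_trivial]
      rw [Real.sq_sqrt (hwt j hj)]
    linarith
  have htot : ∑ j ∈ Finset.Ioc i I, ‖a j‖ ^ 2 ≤ ((th ^ 2)⁻¹) ^ (I - i) - 1 := by
    have e1 : ∀ j ∈ Finset.Ioc i I, ‖a j‖ ^ 2 ≤ (c ^ 2) ^ (j - i) - (c ^ 2) ^ (j - i - 1) := by
      intro j hj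
      rw [ha]
      simp only
      rw [norm_smul, mul_pow, Real.norm_eq_abs, sq_abs, Real.sq_sqrt (hwt j hj)]
      have h2 : ‖H (nn (M j) v)‖ ≤ 1 :=
        (norm_Hc_le hM h0.le h1 hin _).trans (norm_nn_le (M j) v)
      have h3 : ‖H (nn (M j) v)‖ ^ 2 ≤ 1 := pow_le_one₀ (norm_nonneg _) h2
      nlinarith [hwt j hj]
    refine (Finset.sum_le_sum e1).trans ?_
    rw [sum_weights hi, hcdef, inv_pow]
  have hK0c : IsClosed {g | H' g ∈ K} := hK.preimage H'.continuous
  have hK0v : Convex ℝ {g | H' g ∈ K} := hc.is_linear_preimage H'.toLinearMap.isLinear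
  have hK0s : ∀ x ∈ {g | H' g ∈ K}, -x ∈ {g | H' g ∈ K} := by
    intro x hx
    show H' (-x) ∈ K
    rw [map_neg]
    exact hs _ hx
  have hmain := Cmp142.cmp_sum_real hK0c.measurableSet hK0v hK0s (Finset.Ioc i I) R a hnorm
  have hset : R ⁻¹' {g | H' g ∈ K} = {g | H g ∈ K} := by
    ext g
    have hx : H g ∈ insM M v I i := le_insM M v I i (Hc_mem hM th n i g)
    have : H' (R g) = H g := Hc_Hc_inv hM' hth0 hin hn' hx
    show H' (R g) ∈ K ↔ H g ∈ K
    rw [this]
  rw [hset] at hmain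
  refine le_trans ?_ hmain
  refine mul_le_mul_of_nonneg_right ?_ measureReal_nonneg
  apply Real.exp_le_exp.mpr
  linarith

end Crest.Agent.R239.Ins488
end

-- ▼ part R239/InsF_488
section

/-! R239 block F3 (helper488): FDef forms of the cap cut and of the level comparison. -/

set_option autoImplicit false
set_option linter.unusedSectionVars false
open Submodule MeasureTheory ProbabilityTheory Set
open scoped RealInnerProductSpace

namespace Crest.Agent.R239.Ins488

open Crest.Agent.R239.Ins556 Crest.Agent.R239.FD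

variable {E : Type*} [NormedAddCommGroup E] [InnerProductSpace ℝ E] [FiniteDimensional ℝ E]
  [MeasurableSpace E] [BorelSpace E]

lemma th_pos : 0 < th := by norm_num [th]
lemma th_le_one : th ≤ 1 := by norm_num [th]

omit [MeasurableSpace E] [BorelSpace E] in
lemma proj_congr {S T : Submodule ℝ E} (h : S = T) : S.starProjection = T.starProjection := by
  subst h; rfl

omit [MeasurableSpace E] [BorelSpace E] in
lemma Q_eq (V : Flag E) (j : ℕ) : V.Q j = Qp V.M j := rfl

omit [MeasurableSpace E] [BorelSpace E] in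
lemma H_eq (V : Flag E) (i : ℕ) : V.H i = Hc V.M th V.n i := rfl

omit [MeasurableSpace E] [BorelSpace E] in
lemma k_cast (V : Flag E) (j : ℕ) :
    (V.k j : ℝ) = (Module.finrank ℝ ↥(V.M j) : ℝ) - (Module.finrank ℝ ↥(V.M (j + 1)) : ℝ) := by
  unfold Flag.k
  exact Nat.cast_sub (Submodule.finrank_mono (V.anti (Nat.le_succ j)))

omit [MeasurableSpace E] [BorelSpace E] in
lemma H_mem (V : Flag E) (i : ℕ) (x : E) : V.H i x ∈ V.M i := Hc_mem V.anti th V.n i x

omit [MeasurableSpace E] [BorelSpace E] in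
lemma Q_eq_zero_of_le (V : Flag E) {j : ℕ} (h : V.n ≤ j) : V.Q j = 0 := by
  unfold Flag.Q Flag.P
  rw [proj_congr (V.bot j h), proj_congr (V.bot (j + 1) (h.trans (Nat.le_succ j))), sub_self]

/-- sums over `Ico i m`, `m ≥ n`, of block terms do not depend on `m`. -/
lemma sum_ext_n {α : Type*} [AddCommMonoid α] (f : ℕ → α) {i n m : ℕ} (hnm : n ≤ m)
    (h0 : ∀ j, n ≤ j → f j = 0) : ∑ j ∈ Finset.Ico i m, f j = ∑ j ∈ Finset.Ico i n, f j := by
  symm
  apply Finset.sum_subset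
  · intro j hj
    rw [Finset.mem_Ico] at hj ⊢
    omega
  · intro j hj hj'
    rw [Finset.mem_Ico] at hj hj'
    exact h0 j (by omega)

omit [MeasurableSpace E] [BorelSpace E] in
lemma H_eq_of_le (V : Flag E) (i : ℕ) {m : ℕ} (hm : V.n ≤ m) : V.H i = Hc V.M th m i := by
  rw [H_eq]
  unfold Hc
  symm
  apply sum_ext_n _ hm
  intro j hj
  rw [← Q_eq, Q_eq_zero_of_le V hj, smul_zero]







/-! ### structure of the caps -/

omit [MeasurableSpace E] [BorelSpace E] in
lemma N_eq_sq (V : Flag E) (i : ℕ) (x : E) :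
    V.N i x = ‖Hc V.M (Real.sqrt th⁻¹) V.n i x‖ ^ 2 := by
  rw [norm_sq_Hc V.anti, Real.sq_sqrt (inv_pos.mpr th_pos).le]
  rfl

omit [MeasurableSpace E] [BorelSpace E] in
lemma rr_nonneg (V : Flag E) (i : ℕ) : 0 ≤ V.rr i :=
  Finset.sum_nonneg fun _ _ => mul_nonneg (pow_nonneg th_pos.le _) (Nat.cast_nonneg _)

omit [MeasurableSpace E] [BorelSpace E] in
lemma isClosed_cap (V : Flag E) (rho : ℝ) (i : ℕ) : IsClosed (V.cap rho i) := by
  have h1 : IsClosed (V.M i : Set E) := Submodule.closed_of_finiteDimensional _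
  have h2 : IsClosed {x : E | V.N i x ≤ rho ^ 2 * V.rr i} := by
    simp_rw [N_eq_sq]
    exact isClosed_le (by fun_prop) continuous_const
  exact h1.inter h2

omit [MeasurableSpace E] [BorelSpace E] in
lemma convex_cap (V : Flag E) (rho : ℝ) (i : ℕ) : Convex ℝ (V.cap rho i) := by
  have h1 : Convex ℝ (V.M i : Set E) := (V.M i).convex
  have h2 : Convex ℝ {x : E | V.N i x ≤ rho ^ 2 * V.rr i} := by
    have hr : 0 ≤ rho ^ 2 * V.rr i := mul_nonneg (sq_nonneg _) (rr_nonneg V i)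
    have : {x : E | V.N i x ≤ rho ^ 2 * V.rr i} =
        (Hc V.M (Real.sqrt th⁻¹) V.n i : E → E) ⁻¹'
          Metric.closedBall 0 (Real.sqrt (rho ^ 2 * V.rr i)) := by
      ext x
      show V.N i x ≤ _ ↔ _ ∈ Metric.closedBall (0 : E) _
      rw [N_eq_sq, mem_closedBall_zero_iff]
      exact (Real.le_sqrt (norm_nonneg _) hr).symm
    rw [this]
    exact (convex_closedBall (0 : E) _).is_linear_preimage
      (Hc V.M (Real.sqrt th⁻¹) V.n i).toLinearMap.isLinear
  exact h1.inter h2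

omit [MeasurableSpace E] [BorelSpace E] in
lemma neg_mem_cap (V : Flag E) (rho : ℝ) (i : ℕ) : ∀ x ∈ V.cap rho i, -x ∈ V.cap rho i := by
  intro x hx
  refine ⟨Submodule.neg_mem _ hx.1, ?_⟩
  have h := hx.2
  rw [N_eq_sq] at h ⊢
  rwa [map_neg, norm_neg]

/-- **cap cut** over FDef: one Markov cut per level. -/
theorem cut_cap (V : Flag E) (i : ℕ) {rho : ℝ} (hrho : 0 < rho) {K : Set E} (hc : Convex ℝ K)
    (hK : MeasurableSet K) (hs : ∀ x ∈ K, -x ∈ K) :
    (1 - 1 / rho ^ 2) * (gau (V.H i)).real K ≤ (gau (V.H i)).real (K ∩ V.cap rho i) := by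
  have h := cut_ell V.anti th_pos hrho V.n i hc hK hs
  rw [gau_real_apply _ hK, gau_real_apply _ (hK.inter (isClosed_cap V rho i).measurableSet)]
  refine h.trans (le_of_eq ?_)
  congr 1
  ext g
  show (_ ∧ _) ↔ (_ ∧ (_ ∧ _))
  refine and_congr Iff.rfl ?_
  constructor
  · intro h1
    refine ⟨H_mem V i g, ?_⟩
    have e : V.rr i = ∑ j ∈ Finset.Ico i V.n, th ^ (j - i) *
        ((Module.finrank ℝ ↥(V.M j) : ℝ) - (Module.finrank ℝ ↥(V.M (j + 1)) : ℝ)) := by
      unfold Flag.rr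
      exact Finset.sum_congr rfl fun j _ => by rw [k_cast]
    rw [e]
    exact h1
  · intro h1
    have h2 := h1.2
    have e : V.rr i = ∑ j ∈ Finset.Ico i V.n, th ^ (j - i) *
        ((Module.finrank ℝ ↥(V.M j) : ℝ) - (Module.finrank ℝ ↥(V.M (j + 1)) : ℝ)) := by
      unfold Flag.rr
      exact Finset.sum_congr rfl fun j _ => by rw [k_cast]
    rw [e] at h2
    exact h2

/-- **level comparison** of the inserted flag over FDef. -/
theorem ins_gau {V V' : Flag E} {v : E} {I i : ℕ} (hgt : ∀ j, I < j → V'.M j = V.M j)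
    (hle : ∀ j, j ≤ I → V'.M j = V.M j ⊔ Submodule.span ℝ {v}) (hi : i ≤ I)
    {K : Set E} (hc : Convex ℝ K) (hK : IsClosed K) (hs : ∀ x ∈ K, -x ∈ K) :
    Real.exp (-(((th ^ 2)⁻¹) ^ (I - i) - 1) / 2) * (gau (V'.H i)).real K ≤
      (gau (V.H i)).real K := by
  set m := max (max V.n V'.n) (I + 1) with hm
  have hm1 : V.n ≤ m := (le_max_left _ _).trans (le_max_left _ _)
  have hm2 : V'.n ≤ m := (le_max_right _ _).trans (le_max_left _ _)
  have hm3 : I < m := Nat.lt_of_lt_of_le (Nat.lt_succ_self I) (le_max_right _ _)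
  have hM' : V'.M = insM V.M v I := by
    funext j
    by_cases hj : j ≤ I
    · rw [hle j hj, insM_le hj]
    · rw [hgt j (not_le.mp hj), insM_gt (not_le.mp hj)]
  have h := ins_measure V.anti v hi hm3 (V.bot m hm1) th_pos th_le_one hc hK hs
  rw [gau_real_apply _ hK.measurableSet, gau_real_apply _ hK.measurableSet,
    H_eq_of_le V i hm1, H_eq_of_le V' i hm2, hM']
  exact h

/-! ### elementary facts on `hs`, `val`, `D` -/

omit [MeasurableSpace E] [BorelSpace E] in
lemma norm_sq_le_N (V : Flag E) {i : ℕ} {x : E} (hx : x ∈ V.M i) : ‖x‖ ^ 2 ≤ V.N i x := by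
  rcases le_or_gt i V.n with hi | hi
  · have h1 : ‖(V.M i).starProjection x‖ ^ 2 = ∑ j ∈ Finset.Ico i V.n, ‖Qp V.M j x‖ ^ 2 := by
      rw [← sum_Qp hi (V.bot V.n le_rfl) x, norm_sq_sum_orth]
      intro j _ k _ hjk
      exact inner_Qp_Qp_ne V.anti hjk x x
    rw [Submodule.starProjection_eq_self_iff.mpr hx] at h1
    rw [h1]
    unfold Flag.N
    refine Finset.sum_le_sum fun j _ => ?_
    have h2 : 1 ≤ (th⁻¹) ^ (j - i) := one_le_pow₀ ((one_le_inv₀ th_pos).mpr th_le_one)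
    have h3 : 0 ≤ ‖V.Q j x‖ ^ 2 := sq_nonneg _
    show ‖V.Q j x‖ ^ 2 ≤ (th⁻¹) ^ (j - i) * ‖V.Q j x‖ ^ 2
    nlinarith
  · rw [V.bot i hi.le, Submodule.mem_bot] at hx
    subst hx
    unfold Flag.N
    rw [Finset.Ico_eq_empty_of_le hi.le]
    simp

omit [MeasurableSpace E] [BorelSpace E] in
lemma norm_le_of_mem_cap (V : Flag E) {rho : ℝ} {i : ℕ} {x : E} (hx : x ∈ V.cap rho i) :
    ‖x‖ ≤ Real.sqrt (rho ^ 2 * V.rr i) := by
  have h := (norm_sq_le_N V hx.1).trans hx.2
  exact (Real.le_sqrt (norm_nonneg _) (mul_nonneg (sq_nonneg _) (rr_nonneg V i))).mpr h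

omit [MeasurableSpace E] [BorelSpace E] in
lemma bdd_inner (V : Flag E) {rho : ℝ} {i : ℕ} {K : Set E} (hK : K ⊆ V.cap rho i) (z : E) :
    BddAbove ((fun x : E => ⟪x, z⟫) '' K) := by
  refine ⟨Real.sqrt (rho ^ 2 * V.rr i) * ‖z‖, ?_⟩
  rintro _ ⟨x, hx, rfl⟩
  calc ⟪x, z⟫ ≤ ‖x‖ * ‖z‖ := real_inner_le_norm x z
    _ ≤ _ := mul_le_mul_of_nonneg_right (norm_le_of_mem_cap V (hK hx)) (norm_nonneg z)

omit [FiniteDimensional ℝ E] [MeasurableSpace E] [BorelSpace E] in
lemma hs_mono' {K K' : Set E} (hne : K.Nonempty) (h : K ⊆ K') (z : E)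
    (hb : BddAbove ((fun x : E => ⟪x, z⟫) '' K')) : hs K z ≤ hs K' z :=
  csSup_le_csSup hb (hne.image _) (image_mono h)

omit [FiniteDimensional ℝ E] [MeasurableSpace E] [BorelSpace E] in
lemma Eh_mono' {K K' : Set E} (hne : K.Nonempty) (h : K ⊆ K') (μ : Multiset E)
    (hb : ∀ z, BddAbove ((fun x : E => ⟪x, z⟫) '' K')) : Eh K μ ≤ Eh K' μ := by
  unfold Eh
  exact Multiset.sum_map_le_sum_map _ _ fun z _ => hs_mono' hne h z (hb z)

omit [FiniteDimensional ℝ E] [MeasurableSpace E] [BorelSpace E] in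
lemma zero_mem_of {K : Set E} (hne : K.Nonempty) (hc : Convex ℝ K) (hs : ∀ x ∈ K, -x ∈ K) :
    (0 : E) ∈ K := by
  obtain ⟨x, hx⟩ := hne
  have h := hc hx (hs x hx) (by norm_num : (0 : ℝ) ≤ 1 / 2) (by norm_num : (0 : ℝ) ≤ 1 / 2)
    (by norm_num)
  simpa using h

omit [FiniteDimensional ℝ E] [MeasurableSpace E] [BorelSpace E] in
lemma hs_nonneg' {K : Set E} (h0 : (0 : E) ∈ K) (z : E)
    (hb : BddAbove ((fun x : E => ⟪x, z⟫) '' K)) : 0 ≤ hs K z :=
  le_csSup hb ⟨0, h0, by simp⟩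

omit [FiniteDimensional ℝ E] [MeasurableSpace E] [BorelSpace E] in
lemma Eh_nonneg' {K : Set E} (h0 : (0 : E) ∈ K) (μ : Multiset E)
    (hb : ∀ z, BddAbove ((fun x : E => ⟪x, z⟫) '' K)) : 0 ≤ Eh K μ := by
  unfold Eh
  refine Multiset.sum_nonneg fun a ha => ?_
  obtain ⟨z, _, rfl⟩ := Multiset.mem_map.mp ha
  exact hs_nonneg' h0 z (hb z)

lemma Adm.nonempty' {p : Par} {V : Flag E} {i : ℕ} {K : Set E} (h : Adm p V i K) : K.Nonempty := by
  rw [nonempty_iff_ne_empty]
  rintro rfl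
  have := h.2.2.2.2
  simp at this

lemma gau_real_le_one (A : E →L[ℝ] E) (K : Set E) : (gau A).real K ≤ 1 := by
  have : IsProbabilityMeasure (gau A) := inferInstance
  exact measureReal_le_one

lemma lam_pos {p : Par} (hp : p.Ok) (i : ℕ) : 0 < p.lam i :=
  mul_pos hp.tau_pos (pow_pos (by linarith [hp.A_ge]) _)

lemma val_nonneg {p : Par} (hp : p.Ok) {V : Flag E} {i : ℕ} {K : Set E} (h : Adm p V i K)
    (μ : Multiset E) : 0 ≤ val p V i μ K := by
  unfold val
  have h1 : 0 ≤ Eh K μ := Eh_nonneg' (zero_mem_of (Adm.nonempty' h) h.2.1 h.2.2.1) μ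
    fun z => bdd_inner V h.2.2.2.1 z
  have h2 : Real.log ((gau (V.H i)).real K) ≤ 0 :=
    Real.log_nonpos measureReal_nonneg (gau_real_le_one _ _)
  have h3 := (lam_pos hp i)
  nlinarith

lemma bddBelow_val {p : Par} (hp : p.Ok) (V : Flag E) (i : ℕ) (μ : Multiset E) :
    BddBelow (val p V i μ '' {K | Adm p V i K}) := by
  refine ⟨0, ?_⟩
  rintro _ ⟨K, hK, rfl⟩
  exact val_nonneg hp hK μ

lemma D_le_val {p : Par} (hp : p.Ok) {V : Flag E} {i : ℕ} {K : Set E} (h : Adm p V i K)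
    (μ : Multiset E) : D p V i μ ≤ val p V i μ K :=
  csInf_le (bddBelow_val hp V i μ) ⟨K, h, rfl⟩

lemma one_sub_pos {p : Par} (hp : p.Ok) : 0 < 1 - 1 / p.rho ^ 2 := by
  have h1 : (256 : ℝ) ≤ p.rho ^ 2 := by nlinarith [hp.rho_ge]
  have h2 : 1 / p.rho ^ 2 ≤ 1 / 256 := one_div_le_one_div_of_le (by norm_num) h1
  linarith

lemma adm_cap {p : Par} (hp : p.Ok) (V : Flag E) (i : ℕ) : Adm p V i (V.cap p.rho i) := by
  refine ⟨isClosed_cap V _ i, convex_cap V _ i, neg_mem_cap V _ i, Subset.rfl, ?_⟩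
  have hrho : 0 < p.rho := by linarith [hp.rho_ge]
  have h := cut_cap V i hrho convex_univ MeasurableSet.univ (fun x _ => mem_univ (-x))
  rw [univ_inter] at h
  have h1 : (gau (V.H i)).real univ = 1 := by
    have : IsProbabilityMeasure (gau (V.H i)) := inferInstance
    exact probReal_univ
  rw [h1, mul_one] at h
  exact lt_of_lt_of_le (one_sub_pos hp) h

lemma log_one_sub_ge {p : Par} (hp : p.Ok) : -(2 / p.rho ^ 2) ≤ Real.log (1 - 1 / p.rho ^ 2) := by
  have h1 : (256 : ℝ) ≤ p.rho ^ 2 := by nlinarith [hp.rho_ge]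
  have h2 : 1 / p.rho ^ 2 ≤ 1 / 256 := one_div_le_one_div_of_le (by norm_num) h1
  have h0 : 0 < 1 / p.rho ^ 2 := by positivity
  set x := 1 / p.rho ^ 2 with hx
  have hpos : 0 < 1 - x := by linarith
  have h3 : 1 - (1 - x)⁻¹ ≤ Real.log (1 - x) := Real.one_sub_inv_le_log_of_pos hpos
  have h4 : (1 - x)⁻¹ ≤ 1 + 2 * x := by
    rw [inv_le_iff_one_le_mul₀ hpos]
    nlinarith
  have h5 : 2 / p.rho ^ 2 = 2 * x := by rw [hx]; ring
  rw [h5]
  linarith

/-- **(B4)** level inequality of the insertion step. -/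
theorem lev_ins {p : Par} (hp : p.Ok) (V V' : Flag E) (v : E) (I : ℕ)
    (hM : V'.M = insM V.M v I) (μ : Multiset E) {i : ℕ} (hi : i ≤ I) :
    D p V i μ - p.lam i * ((((th⁻¹ ^ 2) ^ (I - i) - 1) / 2) + 2 / p.rho ^ 2) ≤ D p V' i μ := by
  have hgt : ∀ j, I < j → V'.M j = V.M j := fun j hj => by rw [hM, insM_gt hj]
  have hle : ∀ j, j ≤ I → V'.M j = V.M j ⊔ Submodule.span ℝ {v} := fun j hj => by
    rw [hM, insM_le hj]
  have hrho : 0 < p.rho := by linarith [hp.rho_ge]
  refine le_csInf ⟨_, ⟨_, adm_cap hp V' i, rfl⟩⟩ ?_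
  rintro _ ⟨K', hK', rfl⟩
  have hK : K' ∩ V.cap p.rho i ⊆ K' := inter_subset_left
  set K := K' ∩ V.cap p.rho i with hKdef
  have h1 := ins_gau hgt hle hi hK'.2.1 hK'.1 hK'.2.2.1
  have h2 := cut_cap V i hrho hK'.2.1 hK'.1.measurableSet hK'.2.2.1
  rw [← hKdef] at h2
  set e := Real.exp (-(((th ^ 2)⁻¹) ^ (I - i) - 1) / 2) with he
  have he0 : 0 < e := Real.exp_pos _
  have hg' : 0 < (gau (V'.H i)).real K' := hK'.2.2.2.2
  have hg : 0 < (gau (V.H i)).real K' := lt_of_lt_of_le (mul_pos he0 hg') h1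
  have hgK : 0 < (gau (V.H i)).real K := lt_of_lt_of_le (mul_pos (one_sub_pos hp) hg) h2
  have hadm : Adm p V i K := by
    refine ⟨hK'.1.inter (isClosed_cap V _ i), hK'.2.1.inter (convex_cap V _ i), ?_,
      inter_subset_right, hgK⟩
    intro x hx
    exact ⟨hK'.2.2.1 x hx.1, neg_mem_cap V _ i x hx.2⟩
  have h3 := D_le_val hp hadm μ
  have h4 : Eh K μ ≤ Eh K' μ := Eh_mono' (Adm.nonempty' hadm) hK μ
    fun z => bdd_inner V' hK'.2.2.2.1 z
  have h5 : Real.log ((gau (V'.H i)).real K') - (((th⁻¹ ^ 2) ^ (I - i) - 1) / 2)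
      - 2 / p.rho ^ 2 ≤ Real.log ((gau (V.H i)).real K) := by
    have h6 : Real.log ((1 - 1 / p.rho ^ 2) * (e * (gau (V'.H i)).real K')) ≤
        Real.log ((gau (V.H i)).real K) := by
      apply Real.log_le_log (mul_pos (one_sub_pos hp) (mul_pos he0 hg'))
      exact le_trans (mul_le_mul_of_nonneg_left h1 (one_sub_pos hp).le) h2
    rw [Real.log_mul (one_sub_pos hp).ne' (mul_pos he0 hg').ne', Real.log_mul he0.ne' hg'.ne', he,
      Real.log_exp] at h6
    have h7 := log_one_sub_ge hp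
    have h8 : (th ^ 2)⁻¹ = th⁻¹ ^ 2 := (inv_pow th 2).symm
    rw [h8] at h6
    linarith
  have h9 := (lam_pos hp i)
  have h10 := mul_le_mul_of_nonneg_left h5 h9.le
  unfold val at h3 ⊢
  linarith

end Crest.Agent.R239.Ins488
end

-- ▼ part R239/TIns_556
section

/-! R239 / S0370, block F3: END FILE, `target_ins : Target_INS` (helper556, helper488). -/

set_option autoImplicit false
open MeasureTheory ProbabilityTheory

namespace Crest.Agent.R239.Ins556

open Crest.Agent.R239.FD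

/-- **insertion, any Euclidean space** -/
theorem p_ins_all (E : Type*) [NormedAddCommGroup E] [InnerProductSpace ℝ E]
    [FiniteDimensional ℝ E] [MeasurableSpace E] [BorelSpace E] {p : Par} (hp : p.Ok) : P_INS E p :=
  p_ins hp fun V V' v I hM μ i hi => Ins488.lev_ins hp V V' v I hM μ hi

/-- **block F3** -/
theorem target_ins : Target_INS := fun d p hp => p_ins_all (EuclideanSpace ℝ (Fin d)) hp

end Crest.Agent.R239.Ins556
end

-- ▼ part R239/LUa_227
section

/-! R239 (S0370), block F2/LU (helper227): support functions of bounded symmetric sets, sums over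
multisets, arithmetic of (U2). -/

set_option autoImplicit false

open Module
open scoped RealInnerProductSpace

namespace Crest.Agent.R239.LU227

variable {E : Type*} [NormedAddCommGroup E] [InnerProductSpace ℝ E]

/-- The support function of `K` at `z`. -/
noncomputable def hs (K : Set E) (z : E) : ℝ := sSup ((fun x => ⟪x, z⟫) '' K)

theorem hs_bdd {K : Set E} (hK : Bornology.IsBounded K) (z : E) :
    BddAbove ((fun x => ⟪x, z⟫) '' K) := by
  obtain ⟨C, hC⟩ := hK.exists_norm_le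
  refine ⟨C * ‖z‖, ?_⟩
  rintro _ ⟨x, hx, rfl⟩
  exact (real_inner_le_norm x z).trans (mul_le_mul_of_nonneg_right (hC x hx) (norm_nonneg z))

theorem le_hs {K : Set E} (hK : Bornology.IsBounded K) {x : E} (hx : x ∈ K) (z : E) :
    ⟪x, z⟫ ≤ hs K z := le_csSup (hs_bdd hK z) ⟨x, hx, rfl⟩

theorem hs_le {K : Set E} (hne : K.Nonempty) {z : E} {c : ℝ} (h : ∀ x ∈ K, ⟪x, z⟫ ≤ c) :
    hs K z ≤ c := by
  apply csSup_le (hne.image _)
  rintro _ ⟨x, hx, rfl⟩
  exact h x hx

theorem hs_nonneg {K : Set E} (hK : Bornology.IsBounded K) (h0 : (0 : E) ∈ K) (z : E) :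
    0 ≤ hs K z := by
  have := le_hs hK h0 z
  rwa [inner_zero_left] at this

theorem hs_add_le {K : Set E} (hK : Bornology.IsBounded K) (hne : K.Nonempty) (z w : E) :
    hs K (z + w) ≤ hs K z + hs K w := by
  apply hs_le hne
  intro x hx
  rw [inner_add_right]
  exact add_le_add (le_hs hK hx z) (le_hs hK hx w)

theorem hs_mono {K L : Set E} (hL : Bornology.IsBounded L) (hne : K.Nonempty) (h : K ⊆ L) (z : E) :
    hs K z ≤ hs L z := hs_le hne fun _ hx => le_hs hL (h hx) z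

theorem hs_zero {K : Set E} (hne : K.Nonempty) : hs K (0 : E) = 0 := by
  unfold hs
  have : (fun x : E => ⟪x, (0 : E)⟫) '' K = {0} := by
    ext y
    simp only [inner_zero_right, Set.mem_image, Set.mem_singleton_iff]
    constructor
    · rintro ⟨_, _, rfl⟩; rfl
    · rintro rfl
      obtain ⟨x, hx⟩ := hne
      exact ⟨x, hx, rfl⟩
  rw [this, csSup_singleton]



/-- `E_μ h_K`. -/
noncomputable def Eh (K : Set E) (m : Multiset E) : ℝ := (m.map (hs K)).sum


theorem Eh_cons (K : Set E) (z : E) (m : Multiset E) : Eh K (z ::ₘ m) = hs K z + Eh K m := by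
  simp [Eh]

theorem Eh_add (K : Set E) (m m' : Multiset E) : Eh K (m + m') = Eh K m + Eh K m' := by
  simp [Eh]

theorem Eh_nonneg {K : Set E} (hK : Bornology.IsBounded K) (h0 : (0 : E) ∈ K) (m : Multiset E) :
    0 ≤ Eh K m := by
  apply Multiset.sum_nonneg
  intro x hx
  obtain ⟨z, -, rfl⟩ := Multiset.mem_map.1 hx
  exact hs_nonneg hK h0 z


/-- (U1) for one body: splitting the letters increases `E_μ h_K`. -/
theorem Eh_split {K : Set E} (hK : Bornology.IsBounded K) (hne : K.Nonempty)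
    (s : Multiset (E × E)) :
    Eh K (s.map fun p => p.1 + p.2) ≤ Eh K (s.map Prod.fst + s.map Prod.snd) := by
  rw [Eh_add]
  unfold Eh
  rw [Multiset.map_map, Multiset.map_map, Multiset.map_map, ← Multiset.sum_map_add]
  apply Multiset.sum_map_le_sum_map
  intro p _
  exact hs_add_le hK hne p.1 p.2

end Crest.Agent.R239.LU227
end

-- ▼ part R239/LUb_227
section

/-! R239 (S0370), block F2/LU (helper227): projections of a flag, the sum over the levels of the
support functions of the caps, arithmetic of (U2). Flag-free form: an antitone sequence of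
subspaces. -/

set_option autoImplicit false

open Module Finset
open scoped RealInnerProductSpace

namespace Crest.Agent.R239.LU227

variable {E : Type*} [NormedAddCommGroup E] [InnerProductSpace ℝ E] [FiniteDimensional ℝ E]

/-- block projection of a sequence of subspaces -/
noncomputable def Qb (M : ℕ → Submodule ℝ E) (j : ℕ) : E →L[ℝ] E :=
  (M j).starProjection - (M (j + 1)).starProjection

theorem Qb_apply (M : ℕ → Submodule ℝ E) (j : ℕ) (x : E) :
    Qb M j x = (M j).starProjection x - (M (j + 1)).starProjection x := rfl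

variable {M : ℕ → Submodule ℝ E}

theorem PP {a b : Submodule ℝ E} (h : b ≤ a) (x : E) :
    a.starProjection (b.starProjection x) = b.starProjection x :=
  Submodule.starProjection_eq_self_iff.2 (h (Submodule.starProjection_apply_mem b x))

theorem PP' {a b : Submodule ℝ E} (h : b ≤ a) (x : E) :
    b.starProjection (a.starProjection x) = b.starProjection x := by
  refine ext_inner_left ℝ fun y => ?_
  rw [← Submodule.inner_starProjection_left_eq_right, ← Submodule.inner_starProjection_left_eq_right,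
    PP h, Submodule.inner_starProjection_left_eq_right]

theorem inner_PP {a b : Submodule ℝ E} (h : b ≤ a) (x y : E) :
    ⟪a.starProjection x, b.starProjection y⟫ = ⟪b.starProjection x, y⟫ := by
  rw [Submodule.inner_starProjection_left_eq_right, PP h,
    Submodule.inner_starProjection_left_eq_right]

theorem inner_Qb (hM : Antitone M) (j : ℕ) (x y : E) : ⟪Qb M j x, Qb M j y⟫ = ⟪Qb M j x, y⟫ := by
  have h : M (j + 1) ≤ M j := hM (Nat.le_succ j)
  have e1 : ⟪(M (j + 1)).starProjection x, (M j).starProjection y⟫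
      = ⟪(M (j + 1)).starProjection x, y⟫ := by
    rw [real_inner_comm, inner_PP h, real_inner_comm,
      ← Submodule.inner_starProjection_left_eq_right]
  rw [Qb_apply, Qb_apply, inner_sub_left, inner_sub_left, inner_sub_right, inner_sub_right,
    inner_PP h, inner_PP le_rfl, inner_PP le_rfl, e1]
  ring

theorem norm_Qb_sq (hM : Antitone M) (j : ℕ) (x : E) :
    ‖Qb M j x‖ ^ 2 = ‖(M j).starProjection x‖ ^ 2 - ‖(M (j + 1)).starProjection x‖ ^ 2 := by
  rw [← real_inner_self_eq_norm_sq, inner_Qb hM, Qb_apply, inner_sub_left,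
    ← real_inner_self_eq_norm_sq, ← real_inner_self_eq_norm_sq, inner_PP le_rfl, inner_PP le_rfl]

theorem tele {G : Type*} [AddCommGroup G] (f : ℕ → G) {i n : ℕ} (h : i ≤ n) :
    ∑ j ∈ Ico i n, (f j - f (j + 1)) = f i - f n := by
  induction n, h using Nat.le_induction with
  | base => simp
  | succ n h ih => rw [Finset.sum_Ico_succ_top h, ih]; abel

theorem sum_Qb (i n : ℕ) (h : i ≤ n) (x : E) :
    ∑ j ∈ Ico i n, Qb M j x = (M i).starProjection x - (M n).starProjection x := by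
  simpa [Qb_apply] using tele (fun j => (M j).starProjection x) h

theorem sum_Qb_of_mem {i n : ℕ} (hM : Antitone M) (hn : M n = ⊥) {x : E} (hx : x ∈ M i) :
    ∑ j ∈ Ico i n, Qb M j x = x := by
  rcases le_total i n with h | h
  · rw [sum_Qb i n h, hn, Submodule.starProjection_bot, Submodule.starProjection_eq_self_iff.2 hx]
    simp
  · have : x = 0 := by
      have := hM h hx
      rw [hn] at this
      simpa using this
    subst this
    simp

theorem sum_norm_Qb_sq (hM : Antitone M) (i n : ℕ) (h : i ≤ n) (x : E) :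
    ∑ j ∈ Ico i n, ‖Qb M j x‖ ^ 2
      = ‖(M i).starProjection x‖ ^ 2 - ‖(M n).starProjection x‖ ^ 2 := by
  rw [← tele (fun j => ‖(M j).starProjection x‖ ^ 2) h]
  exact Finset.sum_congr rfl fun j _ => norm_Qb_sq hM j x

theorem sum_norm_Qb_sq_le (hM : Antitone M) (n : ℕ) (x : E) :
    ∑ j ∈ range n, ‖Qb M j x‖ ^ 2 ≤ ‖x‖ ^ 2 := by
  rw [Finset.range_eq_Ico, sum_norm_Qb_sq hM 0 n (Nat.zero_le n)]
  have h1 := Submodule.norm_starProjection_apply_le (M 0) x
  have h2 : ‖(M 0).starProjection x‖ ^ 2 ≤ ‖x‖ ^ 2 := by gcongr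
  nlinarith [sq_nonneg ‖(M n).starProjection x‖]

/-- block dimension -/
noncomputable def kb (M : ℕ → Submodule ℝ E) (j : ℕ) : ℕ := finrank ℝ (M j) - finrank ℝ (M (j + 1))

theorem kb_cast (hM : Antitone M) (j : ℕ) :
    (kb M j : ℝ) = finrank ℝ (M j) - finrank ℝ (M (j + 1)) := by
  unfold kb
  rw [Nat.cast_sub (Submodule.finrank_mono (hM (Nat.le_succ j)))]

theorem sum_kb (hM : Antitone M) (n : ℕ) :
    (∑ j ∈ range n, (kb M j : ℝ)) = finrank ℝ (M 0) - finrank ℝ (M n) := by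
  rw [← Finset.sum_range_sub' (fun j => (finrank ℝ (M j) : ℝ))]
  exact Finset.sum_congr rfl fun j _ => kb_cast hM j

theorem sum_kb_le (hM : Antitone M) (n : ℕ) : (∑ j ∈ range n, (kb M j : ℝ)) ≤ finrank ℝ E := by
  rw [sum_kb hM]
  have : (finrank ℝ (M 0) : ℝ) ≤ finrank ℝ E := by exact_mod_cast Submodule.finrank_le _
  have h2 : (0 : ℝ) ≤ finrank ℝ (M n) := by positivity
  linarith

/-- if the block has dimension zero its projection vanishes -/
theorem Qb_eq_zero (hM : Antitone M) {j : ℕ} (h : kb M j = 0) : Qb M j = 0 := by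
  have h1 : M (j + 1) ≤ M j := hM (Nat.le_succ j)
  have h2 : finrank ℝ (M j) ≤ finrank ℝ (M (j + 1)) := by
    unfold kb at h; omega
  have h3 : M (j + 1) = M j := Submodule.eq_of_le_of_finrank_le h1 h2
  ext x
  rw [Qb_apply]
  have : (M (j + 1)).starProjection x = (M j).starProjection x := by simp only [h3]
  rw [this, sub_self]
  rfl


/-- Interchange of the two sums with geometric weights. -/
theorem sum_geom_le {th : ℝ} (h0 : 0 ≤ th) (h1 : th < 1) (n : ℕ) (f : ℕ → ℝ) (hf : ∀ j, 0 ≤ f j) :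
    ∑ i ∈ range n, ∑ j ∈ Ico i n, th ^ (j - i) * f j ≤ (1 / (1 - th)) * ∑ j ∈ range n, f j := by
  have e : ∑ i ∈ range n, ∑ j ∈ Ico i n, th ^ (j - i) * f j
      = ∑ j ∈ range n, ∑ i ∈ range (j + 1), th ^ (j - i) * f j := by
    refine Finset.sum_comm' ?_
    intro i j
    simp only [Finset.mem_range, Finset.mem_Ico]
    omega
  rw [e, Finset.mul_sum]
  apply Finset.sum_le_sum
  intro j _
  rw [← Finset.sum_mul]
  refine mul_le_mul_of_nonneg_right ?_ (hf j)
  have e2 : ∑ i ∈ range (j + 1), th ^ (j - i) = ∑ i ∈ range (j + 1), th ^ i := by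
    rw [← Finset.sum_range_reflect]
    refine Finset.sum_congr rfl fun i hi => ?_
    congr 1
    have := Finset.mem_range.1 hi
    omega
  rw [e2]
  have h3 := mul_neg_geom_sum th (j + 1)
  rw [le_div_iff₀ (by linarith), mul_comm, h3]
  have : 0 ≤ th ^ (j + 1) := by positivity
  linarith
  









end Crest.Agent.R239.LU227
end

-- ▼ part R239/LUc_227
section

/-! R239 (S0370), block F2/LU (helper227): abstract one-level functional
`D m = inf { E_m h_K - lam log g(K) }` and the arithmetic of the cap costs. -/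

set_option autoImplicit false

open Module Finset
open scoped RealInnerProductSpace

namespace Crest.Agent.R239.LU227

variable {E : Type*} [NormedAddCommGroup E] [InnerProductSpace ℝ E]

/-- Abstract data of one level: a family of admissible bodies `Ad` inside a bounded set `L`, all
containing `0`, and a mass function with values in `(0,1]` on admissible bodies. -/
structure Lev (E : Type*) [NormedAddCommGroup E] [InnerProductSpace ℝ E] where
  Ad : Set E → Prop
  L : Set E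
  g : Set E → ℝ
  lam : ℝ
  lam_nonneg : 0 ≤ lam
  bdd : Bornology.IsBounded L
  sub : ∀ K, Ad K → K ⊆ L
  zero_mem : ∀ K, Ad K → (0 : E) ∈ K
  g_pos : ∀ K, Ad K → 0 < g K
  g_le : ∀ K, Ad K → g K ≤ 1
  AdL : Ad L

namespace Lev

variable (V : Lev E)

noncomputable def val (m : Multiset E) (K : Set E) : ℝ := Eh K m - V.lam * Real.log (V.g K)

noncomputable def D (m : Multiset E) : ℝ := sInf (V.val m '' {K | V.Ad K})

variable {V}

theorem bK {K : Set E} (h : V.Ad K) : Bornology.IsBounded K := V.bdd.subset (V.sub K h)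

theorem val_nonneg {K : Set E} (h : V.Ad K) (m : Multiset E) : 0 ≤ V.val m K := by
  have h1 := Eh_nonneg (bK h) (V.zero_mem K h) m
  have h2 : Real.log (V.g K) ≤ 0 := Real.log_nonpos (V.g_pos K h).le (V.g_le K h)
  have h3 := mul_nonpos_of_nonneg_of_nonpos V.lam_nonneg h2
  unfold val
  linarith


theorem bddBelow (m : Multiset E) : BddBelow (V.val m '' {K | V.Ad K}) := by
  refine ⟨0, ?_⟩
  rintro _ ⟨K, hK, rfl⟩
  exact val_nonneg hK m

theorem nonempty (m : Multiset E) : (V.val m '' {K | V.Ad K}).Nonempty := ⟨_, V.L, V.AdL, rfl⟩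


theorem D_le {K : Set E} (h : V.Ad K) (m : Multiset E) : V.D m ≤ V.val m K :=
  csInf_le (bddBelow m) ⟨K, h, rfl⟩

theorem le_D {m : Multiset E} {c : ℝ} (h : ∀ K, V.Ad K → c ≤ V.val m K) : c ≤ V.D m := by
  apply le_csInf (nonempty m)
  rintro _ ⟨K, hK, rfl⟩
  exact h K hK


/-- (U1) for one level -/
theorem D_split (s : Multiset (E × E)) :
    V.D (s.map fun p => p.1 + p.2) ≤ V.D (s.map Prod.fst + s.map Prod.snd) := by
  apply le_D
  intro K hK
  refine (D_le hK _).trans ?_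
  unfold val
  have := Eh_split (bK hK) ⟨0, V.zero_mem K hK⟩ s
  linarith

theorem val_cons (z : E) (m : Multiset E) (K : Set E) : V.val (z ::ₘ m) K = hs K z + V.val m K := by
  unfold val
  rw [Eh_cons]
  ring

/-- (U2) for one level -/
theorem D_cons_le (z : E) (m : Multiset E) : V.D (z ::ₘ m) ≤ V.D m + hs V.L z := by
  rw [← sub_le_iff_le_add]
  apply le_D
  intro K hK
  have h1 := D_le hK (z ::ₘ m)
  rw [val_cons] at h1
  have h2 := hs_mono V.bdd ⟨0, V.zero_mem K hK⟩ (V.sub K hK) z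
  linarith



end Lev

/-- geometric levels: the sum of the lower levels. -/
theorem sum_lam_le {tau A : ℝ} (ht : 0 ≤ tau) (hA : 2 ≤ A) (j : ℕ) :
    ∑ i ∈ range (j + 1), tau * A ^ i ≤ 2 * (tau * A ^ j) := by
  induction j with
  | zero => simp; linarith
  | succ j ih =>
    rw [Finset.sum_range_succ]
    have : tau * A ^ (j + 1) = (tau * A ^ j) * A := by ring
    have h0 : 0 ≤ tau * A ^ j := by positivity
    nlinarith

/-- The cap costs are dominated by the penalties. -/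
theorem capcost_le {tau A rho kap : ℝ} (ht : 0 ≤ tau) (hA : 2 ≤ A) (hk : 4 / rho ^ 2 ≤ kap)
    (n : ℕ) (k : ℕ → ℕ) :
    ∑ i ∈ range n, tau * A ^ i * (∑ j ∈ (Ico i n).filter (fun j => k j ≠ 0), 2 / rho ^ 2)
      ≤ ∑ j ∈ range n, kap * (tau * A ^ j) * (k j : ℝ) := by
  have hA0 : 0 ≤ A := by linarith
  have h2 : 0 ≤ 2 / rho ^ 2 := by positivity
  have e : ∑ i ∈ range n, tau * A ^ i * (∑ j ∈ (Ico i n).filter (fun j => k j ≠ 0), 2 / rho ^ 2)
      = ∑ j ∈ range n, ∑ i ∈ range (j + 1), tau * A ^ i * (if k j ≠ 0 then 2 / rho ^ 2 else 0) := by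
    simp_rw [Finset.sum_filter, Finset.mul_sum]
    refine Finset.sum_comm' ?_
    intro i j
    simp only [Finset.mem_range, Finset.mem_Ico]
    omega
  rw [e]
  apply Finset.sum_le_sum
  intro j _
  rw [← Finset.sum_mul]
  have h1 := sum_lam_le ht hA j
  have h0 : 0 ≤ tau * A ^ j := by positivity
  by_cases hk0 : k j = 0
  · simp [hk0]
  · have hk1 : (1 : ℝ) ≤ k j := by exact_mod_cast Nat.one_le_iff_ne_zero.2 hk0
    have hkap : 0 ≤ kap := le_trans (by positivity) hk
    rw [if_pos hk0]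
    calc (∑ i ∈ range (j + 1), tau * A ^ i) * (2 / rho ^ 2)
        ≤ (2 * (tau * A ^ j)) * (2 / rho ^ 2) := by gcongr
      _ = (4 / rho ^ 2) * (tau * A ^ j) := by ring
      _ ≤ kap * (tau * A ^ j) := by gcongr
      _ = kap * (tau * A ^ j) * 1 := by ring
      _ ≤ kap * (tau * A ^ j) * (k j : ℝ) := by gcongr

/-- `-log` of the cap mass. -/
theorem neg_log_le {rho : ℝ} (hr : 2 ≤ rho ^ 2) {c : ℕ} {g : ℝ} (h : (1 - 1 / rho ^ 2) ^ c ≤ g) :
    -Real.log g ≤ c * (2 / rho ^ 2) := by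
  have hr0 : 0 < rho ^ 2 := by linarith
  set x := 1 / rho ^ 2 with hx
  have hx0 : 0 < x := by positivity
  have hx1 : x ≤ 1 / 2 := by
    rw [hx]
    exact one_div_le_one_div_of_le (by norm_num) hr
  have h1 : Real.exp (-(2 * x)) ≤ 1 - x := by
    have h2 : 1 + 2 * x ≤ Real.exp (2 * x) := by
      have := Real.add_one_le_exp (2 * x); linarith
    rw [Real.exp_neg]
    rw [inv_le_comm₀ (Real.exp_pos _) (by linarith)]
    refine le_trans ?_ h2
    rw [inv_le_iff_one_le_mul₀ (by linarith)]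
    nlinarith
  have h3 : Real.exp (-(c * (2 * x))) ≤ g := by
    refine le_trans ?_ h
    have : Real.exp (-(c * (2 * x))) = Real.exp (-(2 * x)) ^ c := by
      rw [← Real.exp_nat_mul]; ring_nf
    rw [this]
    gcongr
  have h4 := Real.log_le_log (Real.exp_pos _) h3
  rw [Real.log_exp] at h4
  have : (2 : ℝ) / rho ^ 2 = 2 * x := by rw [hx]; ring
  rw [this]
  linarith

end Crest.Agent.R239.LU227
end

-- ▼ part R239/LUd_227
section

/-! R239 (S0370), block F2/LU (helper227): Gaussian mass of the full cap. -/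

set_option autoImplicit false

open Module Finset MeasureTheory ProbabilityTheory
open scoped RealInnerProductSpace

namespace Crest.Agent.R239.LU227

variable {E : Type*} [NormedAddCommGroup E] [InnerProductSpace ℝ E] [FiniteDimensional ℝ E]
  [MeasurableSpace E] [BorelSpace E]

theorem integral_inner_sq_std (n : E) : ∫ x, ⟪n, x⟫ ^ 2 ∂(stdGaussian E) = ‖n‖ ^ 2 := by
  have := integral_norm_sq_gau (ContinuousLinearMap.id ℝ E) n
  rwa [gau_id, adjoint_id', ContinuousLinearMap.coe_id', id_eq] at this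

theorem integrable_inner_sq_std (n : E) : Integrable (fun x => ⟪n, x⟫ ^ 2) (stdGaussian E) := by
  by_cases hn : n = 0
  · simp [hn]
  · by_contra h
    have h1 := integral_inner_sq_std n
    rw [integral_undef h] at h1
    exact hn (by simpa using h1.symm)

theorem norm_proj_sq (W : Submodule ℝ E) (g : E) :
    ‖W.starProjection g‖ ^ 2 = ∑ i, ⟪((stdOrthonormalBasis ℝ W i : W) : E), g⟫ ^ 2 := by
  have h := (stdOrthonormalBasis ℝ W).sum_sq_norm_inner_right (W.orthogonalProjectionOnto g)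
  have h2 : ‖W.starProjection g‖ = ‖W.orthogonalProjectionOnto g‖ := by
    rw [Submodule.starProjection_apply]; rfl
  rw [h2, ← h]
  refine Finset.sum_congr rfl fun i _ => ?_
  rw [Real.norm_eq_abs, sq_abs, Submodule.inner_orthogonalProjectionOnto_eq_of_mem_left]

theorem integral_norm_proj_sq (W : Submodule ℝ E) :
    ∫ g, ‖W.starProjection g‖ ^ 2 ∂(stdGaussian E) = finrank ℝ W := by
  simp_rw [norm_proj_sq]
  rw [integral_finsetSum _ fun i _ => integrable_inner_sq_std _]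
  simp_rw [integral_inner_sq_std]
  have : ∀ i, ‖((stdOrthonormalBasis ℝ W i : W) : E)‖ = 1 := fun i =>
    (stdOrthonormalBasis ℝ W).orthonormal.1 i
  simp [this]

end Crest.Agent.R239.LU227
end

-- ▼ part R239/F2a_227
section

/-! R239 (S0370), block F2 (helper227), part a: flag projections, cap bodies, support function of the
caps, mass of the caps. -/

set_option autoImplicit false
set_option linter.unusedSectionVars false

open Module Finset MeasureTheory ProbabilityTheory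
open scoped RealInnerProductSpace

namespace Crest.Agent.R239.FD

open Crest.Agent.R239 (gau)
open Crest.Agent.R239.LU227 (Qb kb)

section alg

variable {E : Type*} [NormedAddCommGroup E] [InnerProductSpace ℝ E] [FiniteDimensional ℝ E]

namespace F2


theorem k_eq (V : Flag E) (j : ℕ) : V.k j = kb V.M j := rfl

theorem P_mem (V : Flag E) (j : ℕ) (x : E) : V.P j x ∈ V.M j :=
  Submodule.starProjection_apply_mem _ _

theorem P_of_mem (V : Flag E) {j : ℕ} {x : E} (h : x ∈ V.M j) : V.P j x = x :=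
  Submodule.starProjection_eq_self_iff.2 h



theorem P_P_of_ge (V : Flag E) {i j : ℕ} (h : i ≤ j) (x : E) : V.P j (V.P i x) = V.P j x :=
  LU227.PP' (V.anti h) x

theorem Q_apply (V : Flag E) (j : ℕ) (x : E) : V.Q j x = V.P j x - V.P (j + 1) x := rfl

theorem Q_mem (V : Flag E) (j : ℕ) (x : E) : V.Q j x ∈ V.M j :=
  (V.M j).sub_mem (P_mem V j x) (V.anti (Nat.le_succ j) (P_mem V (j + 1) x))

theorem P_Q_of_le (V : Flag E) {j l : ℕ} (h : j ≤ l) (x : E) : V.P j (V.Q l x) = V.Q l x :=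
  P_of_mem V (V.anti h (Q_mem V l x))

theorem P_Q_of_lt (V : Flag E) {j l : ℕ} (h : l < j) (x : E) : V.P j (V.Q l x) = 0 := by
  rw [Q_apply, map_sub, P_P_of_ge V h.le, P_P_of_ge V h, sub_self]

theorem Q_orth (V : Flag E) {l m : ℕ} (h : l ≠ m) (x y : E) : ⟪V.Q l x, V.Q m y⟫ = 0 := by
  wlog hlm : l < m generalizing l m x y
  · rw [real_inner_comm]
    exact this h.symm y x (lt_of_le_of_ne (not_lt.1 hlm) h.symm)
  have h1 : V.P (l + 1) (V.Q m y) = V.Q m y := P_Q_of_le V hlm y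
  have h2 : V.P l (V.Q m y) = V.Q m y := P_Q_of_le V hlm.le y
  rw [Q_apply V l, inner_sub_left]
  have e1 : ⟪V.P l x, V.Q m y⟫ = ⟪x, V.P l (V.Q m y)⟫ :=
    Submodule.inner_starProjection_left_eq_right _ _ _
  have e2 : ⟪V.P (l + 1) x, V.Q m y⟫ = ⟪x, V.P (l + 1) (V.Q m y)⟫ :=
    Submodule.inner_starProjection_left_eq_right _ _ _
  rw [e1, e2, h1, h2, sub_self]

theorem norm_Q_sq (V : Flag E) (j : ℕ) (x : E) :
    ‖V.Q j x‖ ^ 2 = ‖V.P j x‖ ^ 2 - ‖V.P (j + 1) x‖ ^ 2 := LU227.norm_Qb_sq V.anti j x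


theorem Q_Q_self (V : Flag E) (j : ℕ) (x : E) : V.Q j (V.Q j x) = V.Q j x := by
  rw [Q_apply V j (V.Q j x), P_Q_of_le V le_rfl, P_Q_of_lt V (Nat.lt_succ_self j), sub_zero]

theorem Q_Q_of_ne (V : Flag E) {j l : ℕ} (h : j ≠ l) (x : E) : V.Q j (V.Q l x) = 0 := by
  rw [Q_apply V j (V.Q l x)]
  rcases lt_or_gt_of_ne h with h | h
  · rw [P_Q_of_le V h.le, P_Q_of_le V h, sub_self]
  · rw [P_Q_of_lt V h, P_Q_of_lt V (by omega), sub_self]

theorem norm_sum_Q_sq (V : Flag E) (s : Finset ℕ) (c : ℕ → ℝ) (x : E) :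
    ‖∑ l ∈ s, c l • V.Q l x‖ ^ 2 = ∑ l ∈ s, c l ^ 2 * ‖V.Q l x‖ ^ 2 := by
  rw [← real_inner_self_eq_norm_sq, sum_inner]
  refine Finset.sum_congr rfl fun l hl => ?_
  rw [inner_sum, Finset.sum_eq_single l]
  · rw [inner_smul_left, inner_smul_right, real_inner_self_eq_norm_sq]
    simp only [conj_trivial]
    ring
  · intro m _ hm
    rw [inner_smul_left, inner_smul_right, Q_orth V (Ne.symm hm)]
    simp
  · intro h; exact absurd hl h

theorem H_apply (V : Flag E) (i : ℕ) (x : E) :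
    V.H i x = ∑ l ∈ Ico i V.n, th ^ (l - i) • V.Q l x := by
  simp [Flag.H]


theorem H_mem (V : Flag E) (i : ℕ) (x : E) : V.H i x ∈ V.M i := by
  rw [H_apply]
  refine Submodule.sum_mem _ fun l hl => Submodule.smul_mem _ _ ?_
  exact V.anti (Finset.mem_Ico.1 hl).1 (Q_mem V l x)

theorem Q_H_apply (V : Flag E) {i j : ℕ} (h : j ∈ Ico i V.n) (x : E) :
    V.Q j (V.H i x) = th ^ (j - i) • V.Q j x := by
  rw [H_apply, map_sum, Finset.sum_eq_single j]
  · rw [map_smul, Q_Q_self]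
  · intro l _ hl
    rw [map_smul, Q_Q_of_ne V (Ne.symm hl), smul_zero]
  · intro h'; exact absurd h h'



theorem th_pos : (0 : ℝ) < th := by unfold th; norm_num

theorem th_lt : th < 1 := by unfold th; norm_num

theorem sum_Q_of_mem (V : Flag E) {i : ℕ} {x : E} (hx : x ∈ V.M i) :
    ∑ j ∈ Ico i V.n, V.Q j x = x := LU227.sum_Qb_of_mem V.anti (V.bot V.n le_rfl) hx

theorem N_nonneg (V : Flag E) (i : ℕ) (x : E) : 0 ≤ V.N i x := by
  have := th_pos
  exact Finset.sum_nonneg fun j _ => by positivity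

theorem rr_nonneg (V : Flag E) (i : ℕ) : 0 ≤ V.rr i := by
  have := th_pos
  exact Finset.sum_nonneg fun j _ => by positivity

theorem N_neg (V : Flag E) (i : ℕ) (x : E) : V.N i (-x) = V.N i x := by
  unfold Flag.N
  refine Finset.sum_congr rfl fun j _ => ?_
  rw [map_neg, norm_neg]

theorem N_zero (V : Flag E) (i : ℕ) : V.N i (0 : E) = 0 := by
  unfold Flag.N
  refine Finset.sum_eq_zero fun j _ => ?_
  simp

theorem N_continuous (V : Flag E) (i : ℕ) : Continuous (V.N i) := by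
  unfold Flag.N
  fun_prop

/-- `N (H g) = Σ th^(j-i) ‖Q_j g‖²` -/
theorem N_H (V : Flag E) (i : ℕ) (g : E) :
    V.N i (V.H i g) = ∑ j ∈ Ico i V.n, th ^ (j - i) * ‖V.Q j g‖ ^ 2 := by
  unfold Flag.N
  refine Finset.sum_congr rfl fun j hj => ?_
  have h0 := th_pos
  rw [Q_H_apply V hj, norm_smul, Real.norm_of_nonneg (by positivity), mul_pow, ← mul_assoc]
  congr 1
  rw [inv_pow, sq, ← mul_assoc, inv_mul_cancel₀ (by positivity), one_mul]

theorem zero_mem_cap (V : Flag E) (rho : ℝ) (i : ℕ) : (0 : E) ∈ V.cap rho i := by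
  refine ⟨Submodule.zero_mem _, ?_⟩
  rw [N_zero]
  exact mul_nonneg (sq_nonneg _) (rr_nonneg V i)

theorem neg_mem_cap (V : Flag E) {rho : ℝ} {i : ℕ} {x : E} (h : x ∈ V.cap rho i) :
    -x ∈ V.cap rho i := ⟨Submodule.neg_mem _ h.1, by rw [N_neg]; exact h.2⟩

theorem N_convex (V : Flag E) (i : ℕ) {x y : E} {a b : ℝ} (ha : 0 ≤ a) (hb : 0 ≤ b)
    (hab : a + b = 1) : V.N i (a • x + b • y) ≤ a * V.N i x + b * V.N i y := by
  unfold Flag.N
  rw [Finset.mul_sum, Finset.mul_sum, ← Finset.sum_add_distrib]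
  apply Finset.sum_le_sum
  intro j _
  have h0 := th_pos
  have h1 : ‖V.Q j (a • x + b • y)‖ ≤ a * ‖V.Q j x‖ + b * ‖V.Q j y‖ := by
    rw [map_add, map_smul, map_smul]
    refine (norm_add_le _ _).trans (le_of_eq ?_)
    rw [norm_smul, norm_smul, Real.norm_of_nonneg ha, Real.norm_of_nonneg hb]
  have h2 : ‖V.Q j (a • x + b • y)‖ ^ 2 ≤ a * ‖V.Q j x‖ ^ 2 + b * ‖V.Q j y‖ ^ 2 := by
    have hb' : b = 1 - a := by linarith
    have h3 : ‖V.Q j (a • x + b • y)‖ ^ 2 ≤ (a * ‖V.Q j x‖ + b * ‖V.Q j y‖) ^ 2 := by gcongr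
    have h4 : a * ‖V.Q j x‖ ^ 2 + b * ‖V.Q j y‖ ^ 2 - (a * ‖V.Q j x‖ + b * ‖V.Q j y‖) ^ 2
        = a * b * (‖V.Q j x‖ - ‖V.Q j y‖) ^ 2 := by
      rw [hb']; ring
    nlinarith [mul_nonneg (mul_nonneg ha hb) (sq_nonneg (‖V.Q j x‖ - ‖V.Q j y‖))]
  calc (th⁻¹) ^ (j - i) * ‖V.Q j (a • x + b • y)‖ ^ 2
      ≤ (th⁻¹) ^ (j - i) * (a * ‖V.Q j x‖ ^ 2 + b * ‖V.Q j y‖ ^ 2) := by gcongr
    _ = _ := by ring

theorem convex_cap (V : Flag E) (rho : ℝ) (i : ℕ) : Convex ℝ (V.cap rho i) := by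
  intro x hx y hy a b ha hb hab
  refine ⟨(V.M i).add_mem ((V.M i).smul_mem a hx.1) ((V.M i).smul_mem b hy.1), ?_⟩
  refine (N_convex V i ha hb hab).trans ?_
  calc a * V.N i x + b * V.N i y ≤ a * (rho ^ 2 * V.rr i) + b * (rho ^ 2 * V.rr i) := by
        gcongr
        · exact hx.2
        · exact hy.2
    _ = _ := by rw [← add_mul, hab, one_mul]

theorem isClosed_cap (V : Flag E) (rho : ℝ) (i : ℕ) : IsClosed (V.cap rho i) :=
  (Submodule.closed_of_finiteDimensional (V.M i)).inter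
    (isClosed_le (N_continuous V i) continuous_const)

/-- `|⟨x,z⟩|² ≤ N_i x · Σ th^(j-i) ‖Q_j z‖²` on `M_i` -/
theorem inner_le_of_mem (V : Flag E) {i : ℕ} {x : E} (hx : x ∈ V.M i) (z : E) :
    ⟪x, z⟫ ≤ √(V.N i x) * √(∑ j ∈ Ico i V.n, th ^ (j - i) * ‖V.Q j z‖ ^ 2) := by
  have h0 := th_pos
  have h1 : ⟪x, z⟫ = ∑ j ∈ Ico i V.n, ⟪V.Q j x, V.Q j z⟫ := by
    conv_lhs => rw [← sum_Q_of_mem V hx]
    rw [sum_inner]
    exact Finset.sum_congr rfl fun j _ => (LU227.inner_Qb V.anti j x z).symm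
  rw [h1]
  calc ∑ j ∈ Ico i V.n, ⟪V.Q j x, V.Q j z⟫
      ≤ ∑ j ∈ Ico i V.n, (√((th⁻¹) ^ (j - i)) * ‖V.Q j x‖) * (√(th ^ (j - i)) * ‖V.Q j z‖) := by
        refine Finset.sum_le_sum fun j _ => ?_
        refine (real_inner_le_norm _ _).trans (le_of_eq ?_)
        have : √((th⁻¹) ^ (j - i)) * √(th ^ (j - i)) = 1 := by
          rw [← Real.sqrt_mul (by positivity), ← mul_pow, inv_mul_cancel₀ h0.ne', one_pow,
            Real.sqrt_one]
        calc ‖V.Q j x‖ * ‖V.Q j z‖
            = (√((th⁻¹) ^ (j - i)) * √(th ^ (j - i))) * (‖V.Q j x‖ * ‖V.Q j z‖) := by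
              rw [this, one_mul]
          _ = _ := by ring
    _ ≤ √(∑ j ∈ Ico i V.n, (√((th⁻¹) ^ (j - i)) * ‖V.Q j x‖) ^ 2)
          * √(∑ j ∈ Ico i V.n, (√(th ^ (j - i)) * ‖V.Q j z‖) ^ 2) :=
        Real.sum_mul_le_sqrt_mul_sqrt _ _ _
    _ = _ := by
        unfold Flag.N
        congr 2
        · refine Finset.sum_congr rfl fun j _ => ?_
          rw [mul_pow, Real.sq_sqrt (by positivity)]
        · refine Finset.sum_congr rfl fun j _ => ?_
          rw [mul_pow, Real.sq_sqrt (by positivity)]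

theorem norm_sq_le_N (V : Flag E) {i : ℕ} {x : E} (hx : x ∈ V.M i) : ‖x‖ ^ 2 ≤ V.N i x := by
  have h1 := norm_sum_Q_sq V (Ico i V.n) (fun _ => 1) x
  simp only [one_smul, one_pow, one_mul] at h1
  rw [sum_Q_of_mem V hx] at h1
  rw [h1]
  unfold Flag.N
  refine Finset.sum_le_sum fun j _ => ?_
  have h2 : 1 ≤ (th⁻¹) ^ (j - i) := one_le_pow₀ ((one_le_inv₀ th_pos).2 th_lt.le)
  nlinarith [sq_nonneg ‖V.Q j x‖]

theorem isBounded_cap (V : Flag E) (rho : ℝ) (i : ℕ) : Bornology.IsBounded (V.cap rho i) := by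
  rw [isBounded_iff_forall_norm_le]
  refine ⟨√(rho ^ 2 * V.rr i), fun x hx => ?_⟩
  apply Real.le_sqrt_of_sq_le
  exact (norm_sq_le_N V hx.1).trans hx.2

/-- support function of the cap -/
theorem hs_cap_le (V : Flag E) {rho : ℝ} (hr : 0 ≤ rho) (i : ℕ) (z : E) :
    hs (V.cap rho i) z
      ≤ rho * (√(V.rr i) * √(∑ j ∈ Ico i V.n, th ^ (j - i) * ‖V.Q j z‖ ^ 2)) := by
  refine LU227.hs_le ⟨0, zero_mem_cap V rho i⟩ fun x hx => ?_
  refine (inner_le_of_mem V hx.1 z).trans ?_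
  rw [← mul_assoc]
  refine mul_le_mul_of_nonneg_right ?_ (Real.sqrt_nonneg _)
  calc √(V.N i x) ≤ √(rho ^ 2 * V.rr i) := Real.sqrt_le_sqrt hx.2
    _ = rho * √(V.rr i) := by rw [Real.sqrt_mul (sq_nonneg _), Real.sqrt_sq hr]

theorem sum_hs_cap_le (V : Flag E) {rho : ℝ} (hr : 0 ≤ rho) (z : E) :
    ∑ i ∈ range V.n, hs (V.cap rho i) z ≤ 5 * rho * √(finrank ℝ E : ℝ) * ‖z‖ := by
  have h0 := th_pos
  have h1 := th_lt
  have hinv : 1 / (1 - th) = 5 := by unfold th; norm_num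
  have hr1 : ∑ i ∈ range V.n, V.rr i ≤ 5 * finrank ℝ E := by
    have := LU227.sum_geom_le h0.le h1 V.n (fun j => (V.k j : ℝ)) (fun j => by positivity)
    rw [hinv] at this
    refine this.trans ?_
    gcongr
    exact LU227.sum_kb_le V.anti V.n
  have hz1 : ∑ i ∈ range V.n, ∑ j ∈ Ico i V.n, th ^ (j - i) * ‖V.Q j z‖ ^ 2 ≤ 5 * ‖z‖ ^ 2 := by
    have := LU227.sum_geom_le h0.le h1 V.n (fun j => ‖V.Q j z‖ ^ 2) (fun j => by positivity)
    rw [hinv] at this
    refine this.trans ?_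
    gcongr
    exact LU227.sum_norm_Qb_sq_le V.anti V.n z
  calc ∑ i ∈ range V.n, hs (V.cap rho i) z
      ≤ ∑ i ∈ range V.n, rho * (√(V.rr i) * √(∑ j ∈ Ico i V.n, th ^ (j - i) * ‖V.Q j z‖ ^ 2)) :=
        Finset.sum_le_sum fun i _ => hs_cap_le V hr i z
    _ = rho * ∑ i ∈ range V.n, √(V.rr i) * √(∑ j ∈ Ico i V.n, th ^ (j - i) * ‖V.Q j z‖ ^ 2) := by
        rw [Finset.mul_sum]
    _ ≤ rho * (√(∑ i ∈ range V.n, √(V.rr i) ^ 2)
          * √(∑ i ∈ range V.n, √(∑ j ∈ Ico i V.n, th ^ (j - i) * ‖V.Q j z‖ ^ 2) ^ 2)) := by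
        gcongr
        exact Real.sum_mul_le_sqrt_mul_sqrt _ _ _
    _ = rho * (√(∑ i ∈ range V.n, V.rr i)
          * √(∑ i ∈ range V.n, ∑ j ∈ Ico i V.n, th ^ (j - i) * ‖V.Q j z‖ ^ 2)) := by
        have e1 : ∑ i ∈ range V.n, √(V.rr i) ^ 2 = ∑ i ∈ range V.n, V.rr i :=
          Finset.sum_congr rfl fun i _ => Real.sq_sqrt (rr_nonneg V i)
        have e2 : ∑ i ∈ range V.n, √(∑ j ∈ Ico i V.n, th ^ (j - i) * ‖V.Q j z‖ ^ 2) ^ 2
            = ∑ i ∈ range V.n, ∑ j ∈ Ico i V.n, th ^ (j - i) * ‖V.Q j z‖ ^ 2 :=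
          Finset.sum_congr rfl fun i _ => Real.sq_sqrt
            (Finset.sum_nonneg fun j _ => by positivity)
        rw [e1, e2]
    _ ≤ rho * (√(5 * finrank ℝ E) * √(5 * ‖z‖ ^ 2)) := by
        gcongr
    _ = _ := by
        rw [Real.sqrt_mul (by norm_num), Real.sqrt_mul (by norm_num), Real.sqrt_sq (norm_nonneg z)]
        have : √(5 : ℝ) * √5 = 5 := Real.mul_self_sqrt (by norm_num)
        calc rho * (√5 * √(finrank ℝ E : ℝ) * (√5 * ‖z‖))
            = (√5 * √5) * rho * √(finrank ℝ E : ℝ) * ‖z‖ := by ring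
          _ = _ := by rw [this]

end F2

end alg

end Crest.Agent.R239.FD
end

-- ▼ part R239/F2b_227

/-! R239 (S0370), block F2 (helper227), part b: mass of the caps, API of `D`, `J`, `Ut`,
`target_U2`. -/

set_option autoImplicit false
set_option linter.unusedSectionVars false

open Module Finset MeasureTheory ProbabilityTheory
open scoped RealInnerProductSpace

namespace Crest.Agent.R239.FD

open Crest.Agent.R239 (gau)
open Crest.Agent.R239.LU227 (Qb kb)

variable {E : Type*} [NormedAddCommGroup E] [InnerProductSpace ℝ E] [FiniteDimensional ℝ E]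
  [MeasurableSpace E] [BorelSpace E]

namespace F2

theorem integrable_norm_P_sq (V : Flag E) (j : ℕ) :
    Integrable (fun g => ‖V.P j g‖ ^ 2) (stdGaussian E) := by
  have : (fun g => ‖V.P j g‖ ^ 2) = fun g =>
      ∑ i, ⟪((stdOrthonormalBasis ℝ (V.M j) i : V.M j) : E), g⟫ ^ 2 := by
    ext g; exact LU227.norm_proj_sq (V.M j) g
  rw [this]
  exact integrable_finsetSum _ fun i _ => LU227.integrable_inner_sq_std _

theorem integral_norm_P_sq (V : Flag E) (j : ℕ) :
    ∫ g, ‖V.P j g‖ ^ 2 ∂(stdGaussian E) = finrank ℝ (V.M j) := LU227.integral_norm_proj_sq _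

theorem integrable_norm_Q_sq (V : Flag E) (j : ℕ) :
    Integrable (fun g => ‖V.Q j g‖ ^ 2) (stdGaussian E) := by
  simp_rw [norm_Q_sq]
  exact (integrable_norm_P_sq V j).sub (integrable_norm_P_sq V (j + 1))

theorem integral_norm_Q_sq (V : Flag E) (j : ℕ) :
    ∫ g, ‖V.Q j g‖ ^ 2 ∂(stdGaussian E) = V.k j := by
  simp_rw [norm_Q_sq]
  rw [integral_sub (integrable_norm_P_sq V j) (integrable_norm_P_sq V (j + 1)),
    integral_norm_P_sq, integral_norm_P_sq, k_eq, LU227.kb_cast V.anti]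

theorem integrable_N_H (V : Flag E) (i : ℕ) :
    Integrable (fun g => V.N i (V.H i g)) (stdGaussian E) := by
  simp_rw [N_H]
  exact integrable_finsetSum _ fun j _ => (integrable_norm_Q_sq V j).const_mul _

theorem integral_N_H (V : Flag E) (i : ℕ) :
    ∫ g, V.N i (V.H i g) ∂(stdGaussian E) = V.rr i := by
  simp_rw [N_H]
  rw [integral_finsetSum _ fun j _ => (integrable_norm_Q_sq V j).const_mul _]
  unfold Flag.rr
  refine Finset.sum_congr rfl fun j _ => ?_
  rw [integral_const_mul, integral_norm_Q_sq]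


theorem gau_M (V : Flag E) (i : ℕ) : (gau (V.H i)).real (V.M i : Set E) = 1 := by
  rw [gau_real_apply _ (Submodule.closed_of_finiteDimensional (V.M i)).measurableSet]
  have : (V.H i) ⁻¹' (V.M i : Set E) = Set.univ := by
    ext g; simp [H_mem]
  rw [this]; simp

/-- mass of the cap when the weighted dimension vanishes -/
theorem gau_cap_of_rr (V : Flag E) (rho : ℝ) {i : ℕ} (h : V.rr i = 0) :
    (gau (V.H i)).real (V.cap rho i) = 1 := by
  have h0 := th_pos
  have hk : ∀ j ∈ Ico i V.n, V.k j = 0 := by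
    intro j hj
    have h1 := (Finset.sum_eq_zero_iff_of_nonneg (fun j _ => by positivity)).1 h j hj
    have h2 : (th : ℝ) ^ (j - i) ≠ 0 := by positivity
    have h3 : (V.k j : ℝ) = 0 := (mul_eq_zero.1 h1).resolve_left h2
    exact_mod_cast h3
  have : V.cap rho i = (V.M i : Set E) := by
    ext x
    refine ⟨fun hx => hx.1, fun hx => ⟨hx, ?_⟩⟩
    rw [h, mul_zero]
    refine le_of_eq ?_
    unfold Flag.N
    refine Finset.sum_eq_zero fun j hj => ?_
    have h4 : V.Q j = 0 := LU227.Qb_eq_zero V.anti (hk j hj)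
    rw [h4]
    simp
  rw [this, gau_M]

/-- Markov: mass of the cap. -/
theorem gau_cap_ge (V : Flag E) {rho : ℝ} (hr : 0 < rho) (i : ℕ) :
    1 - 1 / rho ^ 2 ≤ (gau (V.H i)).real (V.cap rho i) := by
  rcases eq_or_lt_of_le (rr_nonneg V i) with h | h
  · rw [gau_cap_of_rr V rho h.symm]
    have : 0 ≤ 1 / rho ^ 2 := by positivity
    linarith
  · rw [gau_real_apply _ (isClosed_cap V rho i).measurableSet]
    have hm : MeasurableSet ((V.H i) ⁻¹' (V.cap rho i)) :=
      (V.H i).continuous.measurable (isClosed_cap V rho i).measurableSet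
    have h1 := mul_meas_ge_le_integral_of_nonneg (μ := stdGaussian E)
      (f := fun g => V.N i (V.H i g)) (Filter.Eventually.of_forall fun g => N_nonneg V i _)
      (integrable_N_H V i) (rho ^ 2 * V.rr i)
    rw [integral_N_H] at h1
    have h2 : ((V.H i) ⁻¹' (V.cap rho i))ᶜ ⊆ {g | rho ^ 2 * V.rr i ≤ V.N i (V.H i g)} := by
      intro g hg
      by_contra hc
      apply hg
      exact ⟨H_mem V i g, (not_le.1 hc).le⟩
    have h3 : (stdGaussian E).real ((V.H i) ⁻¹' (V.cap rho i))ᶜ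
        ≤ (stdGaussian E).real {g | rho ^ 2 * V.rr i ≤ V.N i (V.H i g)} := measureReal_mono h2
    have h4 : rho ^ 2 * V.rr i * (stdGaussian E).real ((V.H i) ⁻¹' (V.cap rho i))ᶜ ≤ V.rr i := by
      refine le_trans ?_ h1
      gcongr
    have h5 : (stdGaussian E).real ((V.H i) ⁻¹' (V.cap rho i))ᶜ ≤ 1 / rho ^ 2 := by
      rw [le_div_iff₀ (by positivity)]
      have : V.rr i * ((stdGaussian E).real ((V.H i) ⁻¹' (V.cap rho i))ᶜ * rho ^ 2)
          ≤ V.rr i * 1 := by linarith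
      exact le_of_mul_le_mul_left this h
    rw [probReal_compl_eq_one_sub hm] at h5
    linarith

theorem Ok.rho_pos {p : Par} (hp : p.Ok) : 0 < p.rho := by have := hp.rho_ge; linarith

theorem Ok.rho_sq {p : Par} (hp : p.Ok) : 256 ≤ p.rho ^ 2 := by
  have := hp.rho_ge
  nlinarith

theorem Ok.lam_pos {p : Par} (hp : p.Ok) (i : ℕ) : 0 < p.lam i := by
  have h1 := hp.tau_pos
  have h2 := hp.A_ge
  unfold Par.lam
  positivity

theorem gau_cap_pos {p : Par} (hp : p.Ok) (V : Flag E) (i : ℕ) :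
    0 < (gau (V.H i)).real (V.cap p.rho i) := by
  refine lt_of_lt_of_le ?_ (gau_cap_ge V (Ok.rho_pos hp) i)
  have h := Ok.rho_sq hp
  have : 1 / p.rho ^ 2 ≤ 1 / 256 := one_div_le_one_div_of_le (by norm_num) h
  linarith

/-- the full cap is admissible -/
theorem adm_cap {p : Par} (hp : p.Ok) (V : Flag E) (i : ℕ) : Adm p V i (V.cap p.rho i) :=
  ⟨isClosed_cap V _ i, convex_cap V _ i, fun _ h => neg_mem_cap V h, le_rfl, gau_cap_pos hp V i⟩

theorem Adm.nonempty {p : Par} {V : Flag E} {i : ℕ} {K : Set E} (h : Adm p V i K) :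
    K.Nonempty := by
  by_contra hc
  rw [Set.not_nonempty_iff_eq_empty] at hc
  have := h.2.2.2.2
  rw [hc] at this
  simp at this

theorem Adm.zero_mem {p : Par} {V : Flag E} {i : ℕ} {K : Set E} (h : Adm p V i K) :
    (0 : E) ∈ K := by
  obtain ⟨x, hx⟩ := Adm.nonempty h
  have hc : Convex ℝ K := h.2.1
  have := hc hx (h.2.2.1 x hx) (a := 1 / 2) (b := 1 / 2) (by norm_num) (by norm_num)
    (by norm_num)
  simpa using this

/-- the abstract level -/
noncomputable def lev {p : Par} (hp : p.Ok) (V : Flag E) (i : ℕ) : LU227.Lev E where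
  Ad := Adm p V i
  L := V.cap p.rho i
  g K := (gau (V.H i)).real K
  lam := p.lam i
  lam_nonneg := (Ok.lam_pos hp i).le
  bdd := isBounded_cap V _ i
  sub := fun _ h => h.2.2.2.1
  zero_mem := fun _ h => Adm.zero_mem h
  g_pos := fun _ h => h.2.2.2.2
  g_le := fun _ _ => measureReal_le_one
  AdL := adm_cap hp V i








theorem D_le {p : Par} (hp : p.Ok) {V : Flag E} {i : ℕ} {K : Set E} (h : Adm p V i K)
    (μ : Multiset E) : D p V i μ ≤ val p V i μ K := LU227.Lev.D_le (V := lev hp V i) h μ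




theorem D_split {p : Par} (hp : p.Ok) (V : Flag E) (i : ℕ) (s : Multiset (E × E)) :
    D p V i (s.map fun q => q.1 + q.2) ≤ D p V i (s.map Prod.fst + s.map Prod.snd) :=
  LU227.Lev.D_split (V := lev hp V i) s

theorem D_cons_le {p : Par} (hp : p.Ok) (V : Flag E) (i : ℕ) (z : E) (μ : Multiset E) :
    D p V i (z ::ₘ μ) ≤ D p V i μ + hs (V.cap p.rho i) z :=
  LU227.Lev.D_cons_le (V := lev hp V i) z μ

/-- the full cap as competitor for the empty population -/
theorem D_zero_le {p : Par} (hp : p.Ok) (V : Flag E) (i : ℕ) :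
    D p V i 0 ≤ p.lam i * ∑ j ∈ (Ico i V.n).filter (fun j => V.k j ≠ 0), 2 / p.rho ^ 2 := by
  have h1 := D_le hp (adm_cap hp V i) 0
  have h2 : val p V i 0 (V.cap p.rho i)
      = p.lam i * (-Real.log ((gau (V.H i)).real (V.cap p.rho i))) := by
    unfold val Eh
    simp
  rw [h2] at h1
  refine h1.trans ?_
  have h0 := th_pos
  have hl := Ok.lam_pos hp i
  have hr := Ok.rho_sq hp
  gcongr
  by_cases he : (Ico i V.n).filter (fun j => V.k j ≠ 0) = ∅
  · rw [he, Finset.sum_empty]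
    have : V.rr i = 0 := by
      unfold Flag.rr
      refine Finset.sum_eq_zero fun j hj => ?_
      have h3 : V.k j = 0 := by
        by_contra hc
        have : j ∈ (Ico i V.n).filter (fun j => V.k j ≠ 0) := Finset.mem_filter.2 ⟨hj, hc⟩
        rw [he] at this
        simp at this
      rw [h3]; simp
    rw [gau_cap_of_rr V _ this]
    simp
  · have h3 := gau_cap_ge V (Ok.rho_pos hp) i
    have h4 := LU227.neg_log_le (rho := p.rho) (by linarith) (c := 1) (by simpa using h3)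
    refine h4.trans ?_
    obtain ⟨j, hj⟩ := Finset.nonempty_iff_ne_empty.2 he
    rw [Nat.cast_one, one_mul]
    exact Finset.single_le_sum (f := fun _ : ℕ => 2 / p.rho ^ 2) (fun _ _ => by positivity) hj

theorem J_zero_le {p : Par} (hp : p.Ok) (V : Flag E) : J p V 0 ≤ 0 := by
  unfold J
  rw [Finset.sum_sub_distrib, sub_nonpos]
  have h1 := hp.tau_pos
  have h2 := hp.A_ge
  have h3 := hp.kap_rho
  have h4 := Ok.rho_sq hp
  have h5 : 4 / p.rho ^ 2 ≤ p.kap := by
    rw [div_le_iff₀ (by linarith)]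
    linarith
  have h6 := LU227.capcost_le (tau := p.tau) (A := p.A) (rho := p.rho) (kap := p.kap) h1.le
    (by linarith) h5 V.n V.k
  calc ∑ i ∈ range V.n, D p V i 0
      ≤ ∑ i ∈ range V.n, p.tau * p.A ^ i
          * ∑ j ∈ (Ico i V.n).filter (fun j => V.k j ≠ 0), 2 / p.rho ^ 2 :=
        Finset.sum_le_sum fun i _ => D_zero_le hp V i
    _ ≤ _ := h6

theorem J_cons_le {p : Par} (hp : p.Ok) (V : Flag E) (z : E) (μ : Multiset E) :
    J p V (z ::ₘ μ) ≤ J p V μ + 5 * p.rho * √(finrank ℝ E : ℝ) * ‖z‖ := by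
  refine le_trans ?_ (add_le_add le_rfl (sum_hs_cap_le V (Ok.rho_pos hp).le z))
  unfold J
  rw [← Finset.sum_add_distrib]
  apply Finset.sum_le_sum
  intro i _
  have := D_cons_le hp V i z μ
  linarith














end F2

/-- target of F2 -/
theorem target_U2 : Target_U2 := by
  intro p hp
  refine ⟨5 * p.rho, by have := F2.Ok.rho_pos hp; positivity, fun d => ⟨?_, ?_, ?_⟩⟩
  · intro V z μ
    exact F2.J_cons_le hp V z μ
  · intro V
    exact F2.J_zero_le hp V
  · intro V i s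
    exact F2.D_split hp V i s

end Crest.Agent.R239.FD
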