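import Mathlib
import Crest.Agent.R239.Gau4

-- ▼ part R239/SoftA_450
section

/-!
R239 (S0370), block L13 (soft layer), part A: linear algebra of an antitone flag
`M : ℕ → Submodule ℝ E` (helper450).
`blk M j z = P_{M j} z - P_{M (j+1)} z` is the component of `z` in the block
`V_j = M_j ⊓ (M_{j+1})ᗮ`.
-/

open scoped RealInnerProductSpace BigOperators
open Finset

namespace Crest.Agent.R239.Soft450

variable {E : Type*} [NormedAddCommGroup E] [InnerProductSpace ℝ E] [FiniteDimensional ℝ E]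

/-- Component of `z` in block `j` of the flag. -/
noncomputable def blk (M : ℕ → Submodule ℝ E) (j : ℕ) (z : E) : E :=
  (M j).starProjection z - (M (j + 1)).starProjection z


theorem star_star_of_le {U V : Submodule ℝ E} (h : U ≤ V) (z : E) :
    U.starProjection (V.starProjection z) = U.starProjection z := by
  have := Submodule.starProjection_comp_starProjection_of_le h
  exact DFunLike.congr_fun this z

theorem star_star_of_le' {U V : Submodule ℝ E} (h : U ≤ V) (z : E) :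
    V.starProjection (U.starProjection z) = U.starProjection z :=
  Submodule.starProjection_eq_self_iff.2 (h (Submodule.starProjection_apply_mem U z))

theorem inner_star_star {U V : Submodule ℝ E} (h : U ≤ V) (y z : E) :
    ⟪V.starProjection y, U.starProjection z⟫ = ⟪y, U.starProjection z⟫ := by
  rw [Submodule.inner_starProjection_left_eq_right, star_star_of_le' h]

theorem norm_star_sq (U : Submodule ℝ E) (z : E) :
    ‖U.starProjection z‖ ^ 2 = ⟪z, U.starProjection z⟫ := by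
  rw [← real_inner_self_eq_norm_sq, inner_star_star le_rfl]

theorem norm_star_sub_sq {U V : Submodule ℝ E} (h : U ≤ V) (z : E) :
    ‖V.starProjection z - U.starProjection z‖ ^ 2
      = ‖V.starProjection z‖ ^ 2 - ‖U.starProjection z‖ ^ 2 := by
  rw [norm_sub_sq_real, inner_star_star h, ← norm_star_sq]
  ring


theorem norm_blk_sq {M : ℕ → Submodule ℝ E} (hM : Antitone M) (j : ℕ) (z : E) :
    ‖blk M j z‖ ^ 2 = ‖(M j).starProjection z‖ ^ 2 - ‖(M (j + 1)).starProjection z‖ ^ 2 :=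
  norm_star_sub_sq (hM (Nat.le_succ j)) z


theorem sum_norm_blk_sq {M : ℕ → Submodule ℝ E} (hM : Antitone M) {i N : ℕ} (hiN : i ≤ N)
    (z : E) : ∑ j ∈ Ico i N, ‖blk M j z‖ ^ 2
      = ‖(M i).starProjection z‖ ^ 2 - ‖(M N).starProjection z‖ ^ 2 := by
  have := Finset.sum_Ico_sub (fun j => -‖(M j).starProjection z‖ ^ 2) hiN
  rw [Finset.sum_congr rfl (fun j _ => norm_blk_sq hM j z)]
  calc ∑ j ∈ Ico i N, (‖(M j).starProjection z‖ ^ 2 - ‖(M (j + 1)).starProjection z‖ ^ 2)
      = ∑ j ∈ Ico i N, (-‖(M (j+1)).starProjection z‖ ^ 2 - -‖(M j).starProjection z‖ ^ 2) :=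
        Finset.sum_congr rfl fun j _ => by ring
    _ = _ := by rw [this]; ring











end Crest.Agent.R239.Soft450
end

-- ▼ part R239/Mom_764

/-! R239 (S0370): second moments of the flag Gaussians (helper764).
Paper text: helper583 docs 2388/2389, helper236 doc 2408; here only Gaussian second moments.

* general: `∫ ⟪w,g⟫⟪z,g⟫ = ⟪w,z⟫`, `∫ ‖A g‖² = Σ ‖A e_i‖²`, `∫ ‖P_U g‖² = finrank U`
* flag: `Q M j = P_{M_j} - P_{M_{j+1}}`, `H θ M n i = Σ_{j∈Ico i n} θ^(j-i) • Q M j`,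
  adjoint, products, norms, `P_j H_i = θ^(j-i) H_j`
* (m1) `∫ ⟪w,H_i g⟫² = Σ θ^(2(l-i)) ‖Q_l w‖²`
* (m2) variances of `a_j = ⟪(P_i - P_j)v, H_i g⟫`, `ζ_j = ⟪P_j v, H_i g⟫`, cross term zero
* (m3) `∫ ‖Q_l H_i g‖² = θ^(2(l-i)) k_l`, `∫ (ξ² + Σ_{j>i} om_{j-i} ζ_j²) = b_i`. -/

set_option autoImplicit false
set_option linter.unusedSectionVars false
open MeasureTheory ProbabilityTheory Set Filter Topology Metric
open scoped RealInnerProductSpace ENNReal NNReal InnerProduct Pointwise BigOperators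

namespace Crest.Agent.R239.Mom764

open Crest.Agent.R239 Crest.Agent.R239.Soft450

/-! ### General second moments -/

section general

variable {E : Type*} [NormedAddCommGroup E] [InnerProductSpace ℝ E] [FiniteDimensional ℝ E]
  [MeasurableSpace E] [BorelSpace E]
variable {F : Type*} [NormedAddCommGroup F] [InnerProductSpace ℝ F] [FiniteDimensional ℝ F]
  [MeasurableSpace F] [BorelSpace F]

lemma memLp_inner (w : E) : MemLp (fun g : E => ⟪w, g⟫) 2 (stdGaussian E) := by
  have h := (IsGaussian.memLp_dual (stdGaussian E) (innerSL ℝ w) 2 (by simp))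
  simpa using h


lemma integrable_inner_sq (w : E) : Integrable (fun g : E => ⟪w, g⟫ ^ 2) (stdGaussian E) :=
  (memLp_inner w).integrable_sq



theorem integral_inner_sq (w : E) : ∫ g, ⟪w, g⟫ ^ 2 ∂(stdGaussian E) = ‖w‖ ^ 2 := by
  have := integral_norm_sq_gau (ContinuousLinearMap.id ℝ E) w
  rw [gau_id] at this
  simpa using this


lemma integrable_inner_map_sq (A : F →L[ℝ] E) (w : E) :
    Integrable (fun g : F => ⟪w, A g⟫ ^ 2) (stdGaussian F) := by
  simpa only [ContinuousLinearMap.adjoint_inner_left] using integrable_inner_sq (A.adjoint w)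


theorem integral_inner_map_sq (A : F →L[ℝ] E) (w : E) :
    ∫ g, ⟪w, A g⟫ ^ 2 ∂(stdGaussian F) = ‖A.adjoint w‖ ^ 2 := by
  simpa only [ContinuousLinearMap.adjoint_inner_left] using integral_inner_sq (A.adjoint w)


lemma norm_sq_eq_sum {ι : Type*} [Fintype ι] (b : OrthonormalBasis ι ℝ E) (x : E) :
    ‖x‖ ^ 2 = ∑ i, ⟪b i, x⟫ ^ 2 := by
  have := b.sum_sq_norm_inner_right x
  rw [← this]
  exact Finset.sum_congr rfl fun i _ => by rw [Real.norm_eq_abs, sq_abs]

lemma integrable_norm_sq (A : F →L[ℝ] E) :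
    Integrable (fun g : F => ‖A g‖ ^ 2) (stdGaussian F) := by
  have h : (fun g : F => ‖A g‖ ^ 2)
      = fun g => ∑ i, ⟪stdOrthonormalBasis ℝ E i, A g⟫ ^ 2 := by
    funext g; exact norm_sq_eq_sum _ _
  rw [h]
  exact integrable_finsetSum _ fun i _ => integrable_inner_map_sq A _

/-- `∫ ‖A g‖² = Σ ‖A† e_i‖²` over any orthonormal basis of the target. -/
theorem integral_norm_sq {ι : Type*} [Fintype ι] (b : OrthonormalBasis ι ℝ E) (A : F →L[ℝ] E) :
    ∫ g, ‖A g‖ ^ 2 ∂(stdGaussian F) = ∑ i, ‖A.adjoint (b i)‖ ^ 2 := by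
  have h : (fun g : F => ‖A g‖ ^ 2) = fun g => ∑ i, ⟪b i, A g⟫ ^ 2 := by
    funext g; exact norm_sq_eq_sum _ _
  rw [h, integral_finsetSum _ fun i _ => integrable_inner_map_sq A _]
  exact Finset.sum_congr rfl fun i _ => integral_inner_map_sq A _

/-- trace of an orthogonal projection -/
lemma sum_norm_starProjection {ι : Type*} [Fintype ι] (b : OrthonormalBasis ι ℝ E)
    (U : Submodule ℝ E) :
    ∑ i, ‖U.starProjection (b i)‖ ^ 2 = Module.finrank ℝ U := by
  let c := stdOrthonormalBasis ℝ U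
  have h1 : ∀ i, ‖U.starProjection (b i)‖ ^ 2 = ∑ j, ⟪((c j : U) : E), b i⟫ ^ 2 := by
    intro i
    have h2 : ‖U.starProjection (b i)‖ = ‖U.orthogonalProjectionOnto (b i)‖ := by
      rw [Submodule.starProjection_apply]; rfl
    rw [h2, norm_sq_eq_sum c]
    refine Finset.sum_congr rfl fun j _ => ?_
    rw [Submodule.coe_inner, ← Submodule.starProjection_apply,
      ← Submodule.inner_starProjection_left_eq_right,
      Submodule.starProjection_eq_self_iff.2 (c j).2]
  rw [Finset.sum_congr rfl fun i _ => h1 i, Finset.sum_comm]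
  have h3 : ∀ j, ∑ i, ⟪((c j : U) : E), b i⟫ ^ 2 = 1 := by
    intro j
    have : ∑ i, ⟪((c j : U) : E), b i⟫ ^ 2 = ‖((c j : U) : E)‖ ^ 2 := by
      rw [norm_sq_eq_sum b]
      exact Finset.sum_congr rfl fun i _ => by rw [real_inner_comm]
    have h4 : ‖((c j : U) : E)‖ = 1 := by
      rw [← c.orthonormal.1 j]; rfl
    rw [this, h4]
    norm_num
  rw [Finset.sum_congr rfl fun j _ => h3 j]
  simp



/-- transfer to the law `gau A` -/
lemma integral_gau (A : F →L[ℝ] E) {f : E → ℝ} (hf : Continuous f) :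
    ∫ x, f x ∂(gau A) = ∫ g, f (A g) ∂(stdGaussian F) := by
  unfold gau
  rw [integral_map (by fun_prop) hf.aestronglyMeasurable]

lemma integrable_gau_iff (A : F →L[ℝ] E) {f : E → ℝ} (hf : Continuous f) :
    Integrable f (gau A) ↔ Integrable (fun g => f (A g)) (stdGaussian F) := by
  unfold gau
  rw [integrable_map_measure hf.aestronglyMeasurable (by fun_prop)]
  rfl

end general

/-! ### Flag operators -/

section flag

variable {E : Type*} [NormedAddCommGroup E] [InnerProductSpace ℝ E] [FiniteDimensional ℝ E]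

/-- block projection -/
noncomputable def Q (M : ℕ → Submodule ℝ E) (j : ℕ) : E →L[ℝ] E :=
  (M j).starProjection - (M (j + 1)).starProjection

/-- root of the level-`i` covariance -/
noncomputable def H (θ : ℝ) (M : ℕ → Submodule ℝ E) (n i : ℕ) : E →L[ℝ] E :=
  ∑ j ∈ Finset.Ico i n, θ ^ (j - i) • Q M j

variable {M : ℕ → Submodule ℝ E}

lemma Q_apply (M : ℕ → Submodule ℝ E) (j : ℕ) (x : E) :
    Q M j x = (M j).starProjection x - (M (j + 1)).starProjection x := rfl


lemma H_apply (θ : ℝ) (M : ℕ → Submodule ℝ E) (n i : ℕ) (x : E) :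
    H θ M n i x = ∑ j ∈ Finset.Ico i n, θ ^ (j - i) • Q M j x := by
  simp [H]

lemma inner_Q_left (j : ℕ) (x y : E) : ⟪Q M j x, y⟫ = ⟪x, Q M j y⟫ := by
  rw [Q_apply, Q_apply, inner_sub_left, inner_sub_right,
    Submodule.inner_starProjection_left_eq_right, Submodule.inner_starProjection_left_eq_right]

lemma adjoint_Q (j : ℕ) : (Q M j).adjoint = Q M j := by
  ext x
  apply ext_inner_right ℝ
  intro y
  rw [ContinuousLinearMap.adjoint_inner_left, inner_Q_left]

lemma inner_H_left (θ : ℝ) (n i : ℕ) (x y : E) : ⟪H θ M n i x, y⟫ = ⟪x, H θ M n i y⟫ := by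
  rw [H_apply, H_apply, sum_inner, inner_sum]
  exact Finset.sum_congr rfl fun j _ => by
    rw [real_inner_smul_left, real_inner_smul_right, inner_Q_left]

lemma adjoint_H (θ : ℝ) (n i : ℕ) : (H θ M n i).adjoint = H θ M n i := by
  ext x
  apply ext_inner_right ℝ
  intro y
  rw [ContinuousLinearMap.adjoint_inner_left, inner_H_left]

variable (hM : Antitone M)
include hM

lemma P_Q {i j : ℕ} (h : i ≤ j) (x : E) : (M i).starProjection (Q M j x) = Q M j x := by
  rw [Q_apply, map_sub, star_star_of_le' (hM h), star_star_of_le' (hM (h.trans (Nat.le_succ j)))]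


lemma P_Q_zero {i j : ℕ} (h : j < i) (x : E) : (M i).starProjection (Q M j x) = 0 := by
  rw [Q_apply, map_sub, star_star_of_le (hM h.le), star_star_of_le (hM (Nat.succ_le_of_lt h)),
    sub_self]


lemma Q_Q (j : ℕ) (x : E) : Q M j (Q M j x) = Q M j x := by
  conv_lhs => rw [Q_apply]
  rw [P_Q hM le_rfl, P_Q_zero hM (Nat.lt_succ_self j), sub_zero]

lemma Q_Q_ne {j l : ℕ} (h : j ≠ l) (x : E) : Q M j (Q M l x) = 0 := by
  rcases lt_or_gt_of_ne h with h | h
  · rw [Q_apply, P_Q hM h.le, P_Q hM (Nat.succ_le_of_lt h), sub_self]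
  · rw [Q_apply, P_Q_zero hM h, P_Q_zero hM (h.trans (Nat.lt_succ_self j)), sub_self]

lemma inner_Q_Q_ne {j l : ℕ} (h : j ≠ l) (x y : E) : ⟪Q M j x, Q M l y⟫ = 0 := by
  rw [inner_Q_left, Q_Q_ne hM h, inner_zero_right]


lemma norm_Q_sq (j : ℕ) (x : E) : ‖Q M j x‖ ^ 2 =
    ‖(M j).starProjection x‖ ^ 2 - ‖(M (j + 1)).starProjection x‖ ^ 2 :=
  norm_blk_sq hM j x

lemma sum_norm_Q_sq {i N : ℕ} (h : i ≤ N) (x : E) : ∑ j ∈ Finset.Ico i N, ‖Q M j x‖ ^ 2
    = ‖(M i).starProjection x‖ ^ 2 - ‖(M N).starProjection x‖ ^ 2 :=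
  sum_norm_blk_sq hM h x


/-- inner products of weighted block sums -/
lemma inner_sum_Q (s : Finset ℕ) (c d : ℕ → ℝ) (x y : E) :
    ⟪∑ j ∈ s, c j • Q M j x, ∑ j ∈ s, d j • Q M j y⟫
      = ∑ j ∈ s, c j * d j * ⟪Q M j x, Q M j y⟫ := by
  rw [sum_inner]
  refine Finset.sum_congr rfl fun j hj => ?_
  rw [inner_sum, Finset.sum_eq_single_of_mem j hj]
  · rw [real_inner_smul_left, real_inner_smul_right]; ring
  · intro l _ hl
    rw [real_inner_smul_left, real_inner_smul_right, inner_Q_Q_ne hM hl.symm]; ring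

lemma norm_sum_Q_sq (s : Finset ℕ) (c : ℕ → ℝ) (x : E) :
    ‖∑ j ∈ s, c j • Q M j x‖ ^ 2 = ∑ j ∈ s, c j ^ 2 * ‖Q M j x‖ ^ 2 := by
  rw [← real_inner_self_eq_norm_sq, inner_sum_Q hM]
  exact Finset.sum_congr rfl fun j _ => by rw [real_inner_self_eq_norm_sq]; ring

lemma inner_H_H (θ : ℝ) (n i : ℕ) (x y : E) :
    ⟪H θ M n i x, H θ M n i y⟫
      = ∑ j ∈ Finset.Ico i n, θ ^ (2 * (j - i)) * ⟪Q M j x, Q M j y⟫ := by
  rw [H_apply, H_apply, inner_sum_Q hM]
  exact Finset.sum_congr rfl fun j _ => by rw [← pow_add, two_mul]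

lemma norm_H_sq (θ : ℝ) (n i : ℕ) (x : E) :
    ‖H θ M n i x‖ ^ 2 = ∑ j ∈ Finset.Ico i n, θ ^ (2 * (j - i)) * ‖Q M j x‖ ^ 2 := by
  rw [← real_inner_self_eq_norm_sq, inner_H_H hM]
  exact Finset.sum_congr rfl fun j _ => by rw [real_inner_self_eq_norm_sq]

/-- `Q_l H_i = θ^(l-i) Q_l` -/
lemma Q_H {θ : ℝ} {n i l : ℕ} (hil : i ≤ l) (hln : l < n) (x : E) :
    Q M l (H θ M n i x) = θ ^ (l - i) • Q M l x := by
  rw [H_apply, map_sum, Finset.sum_eq_single_of_mem l (Finset.mem_Ico.2 ⟨hil, hln⟩)]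
  · rw [map_smul, Q_Q hM]
  · intro j _ hj
    rw [map_smul, Q_Q_ne hM hj.symm, smul_zero]




/-- the range of `H_i` is in `M_i` -/
lemma H_mem (θ : ℝ) (n i : ℕ) (x : E) : H θ M n i x ∈ M i := by
  rw [H_apply]
  refine Submodule.sum_mem _ fun j hj => Submodule.smul_mem _ _ ?_
  rw [Finset.mem_Ico] at hj
  rw [← P_Q hM hj.1 x]
  exact Submodule.starProjection_apply_mem _ _






end flag

/-! ### Moments on the flag -/

section moments

variable {E : Type*} [NormedAddCommGroup E] [InnerProductSpace ℝ E] [FiniteDimensional ℝ E]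
  [MeasurableSpace E] [BorelSpace E]
variable {M : ℕ → Submodule ℝ E} (hM : Antitone M)
include hM












omit [MeasurableSpace E] [BorelSpace E] in
/-- trace of a block -/
lemma sum_norm_Q_basis {ι : Type*} [Fintype ι] (b : OrthonormalBasis ι ℝ E) (l : ℕ) :
    ∑ i, ‖Q M l (b i)‖ ^ 2 = Module.finrank ℝ (M l) - Module.finrank ℝ (M (l + 1)) := by
  borelize E
  rw [← sum_norm_starProjection b (M l), ← sum_norm_starProjection b (M (l + 1)),
    ← Finset.sum_sub_distrib]
  exact Finset.sum_congr rfl fun i _ => norm_Q_sq hM l _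

/-- (m3) `E ‖Q_l x‖² = θ^(2(l-i)) k_l` -/
theorem integral_norm_Q_sq (θ : ℝ) {n i l : ℕ} (hil : i ≤ l) (hln : l < n) :
    ∫ g, ‖Q M l (H θ M n i g)‖ ^ 2 ∂(stdGaussian E)
      = θ ^ (2 * (l - i)) * ((Module.finrank ℝ (M l) : ℝ) - Module.finrank ℝ (M (l + 1))) := by
  have h := integral_norm_sq (stdOrthonormalBasis ℝ E) (Q M l)
  rw [adjoint_Q, sum_norm_Q_basis hM] at h
  rw [← h, ← integral_const_mul]
  refine integral_congr_ae (Filter.Eventually.of_forall fun g => ?_)
  show ‖Q M l (H θ M n i g)‖ ^ 2 = _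
  rw [Q_H hM hil hln, norm_smul, mul_pow, Real.norm_eq_abs, sq_abs, ← pow_mul, mul_comm 2]

/-- `E ‖Q_l g‖² = k_l` -/
theorem integral_norm_Q_std_sq (l : ℕ) :
    ∫ g, ‖Q M l g‖ ^ 2 ∂(stdGaussian E)
      = (Module.finrank ℝ (M l) : ℝ) - Module.finrank ℝ (M (l + 1)) := by
  have h := integral_norm_sq (stdOrthonormalBasis ℝ E) (Q M l)
  rwa [adjoint_Q, sum_norm_Q_basis hM] at h




end moments

end Crest.Agent.R239.Mom764
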