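import Crest.Agent.R239.Gau4

-- ▼ part R239/Gau6

/-! General Gaussian tools for R239, part 6 (helper622): square roots, covariance monotonicity. -/

set_option autoImplicit false
set_option linter.unusedSectionVars false
open MeasureTheory ProbabilityTheory Set Filter Topology Metric
open scoped RealInnerProductSpace ENNReal NNReal InnerProduct Pointwise

namespace Crest.Agent.R239

open Crest.Agent.Lib.Ehrhard

variable {E : Type*} [NormedAddCommGroup E] [InnerProductSpace ℝ E] [FiniteDimensional ℝ E]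
  [MeasurableSpace E] [BorelSpace E]
variable {F : Type*} [NormedAddCommGroup F] [InnerProductSpace ℝ F] [FiniteDimensional ℝ F]
  [MeasurableSpace F] [BorelSpace F]
variable {G : Type*} [NormedAddCommGroup G] [InnerProductSpace ℝ G] [FiniteDimensional ℝ G]
  [MeasurableSpace G] [BorelSpace G]

/-- Square roots of positive semidefinite symmetric operators. -/
theorem exists_root (S : E →L[ℝ] E) (hs : ∀ x y, ⟪S x, y⟫ = ⟪x, S y⟫) (hp : ∀ x, 0 ≤ ⟪S x, x⟫) :
    ∃ D : E →L[ℝ] E, ∀ t, ‖D.adjoint t‖ ^ 2 = ⟪S t, t⟫ := by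
  have hT : (S : E →ₗ[ℝ] E).IsSymmetric := hs
  set b := hT.eigenvectorBasis rfl with hb
  set lam := hT.eigenvalues rfl with hlam
  have hSb : ∀ i, S (b i) = lam i • b i := fun i => hT.apply_eigenvectorBasis rfl i
  have hl : ∀ i, 0 ≤ lam i := by
    intro i
    have h := hp (b i)
    rw [hSb, inner_smul_left, real_inner_self_eq_norm_sq, b.orthonormal.1 i] at h
    simpa using h
  have hSt : ∀ t, ⟪S t, t⟫ = ∑ i, lam i * ⟪b i, t⟫ ^ 2 := by
    intro t
    rw [← b.sum_inner_mul_inner (S t) t]
    refine Finset.sum_congr rfl fun i _ => ?_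
    rw [hs, hSb, inner_smul_right, real_inner_comm]
    ring
  let L : E →L[ℝ] E := ∑ i, (Real.sqrt (lam i)) •
    ((ContinuousLinearMap.toSpanSingleton ℝ (b i)) ∘L (innerSL ℝ (b i)))
  have hL : ∀ t, L t = ∑ i, (Real.sqrt (lam i) * ⟪b i, t⟫) • b i := by
    intro t
    simp only [L, sum_apply, smul_apply,
      ContinuousLinearMap.comp_apply, innerSL_apply_apply,
      ContinuousLinearMap.toSpanSingleton_apply, smul_smul]
  refine ⟨L.adjoint, fun t => ?_⟩
  rw [ContinuousLinearMap.adjoint_adjoint, hSt, hL, ← real_inner_self_eq_norm_sq,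
    b.orthonormal.inner_sum]
  refine Finset.sum_congr rfl fun i _ => ?_
  simp only [conj_trivial]
  rw [← pow_two, mul_pow, Real.sq_sqrt (hl i)]

/-- If `SS† ≤ CC†` there is `D` with `SS† + DD† = CC†`. -/
theorem exists_complement (S : F →L[ℝ] E) (C : G →L[ℝ] E)
    (h : ∀ t, ‖S.adjoint t‖ ≤ ‖C.adjoint t‖) :
    ∃ D : E →L[ℝ] E, ∀ t, ‖S.adjoint t‖ ^ 2 + ‖D.adjoint t‖ ^ 2 = ‖C.adjoint t‖ ^ 2 := by
  obtain ⟨D, hD⟩ := exists_root (C ∘L C.adjoint - S ∘L S.adjoint) (by
    intro x y
    simp only [sub_apply, ContinuousLinearMap.comp_apply, inner_sub_left,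
      inner_sub_right]
    have h1 := ContinuousLinearMap.adjoint_inner_right C (C.adjoint x) y
    have h2 := ContinuousLinearMap.adjoint_inner_right S (S.adjoint x) y
    have h3 := ContinuousLinearMap.adjoint_inner_left C (C.adjoint y) x
    have h4 := ContinuousLinearMap.adjoint_inner_left S (S.adjoint y) x
    rw [← h1, ← h2, real_inner_comm (C _) x, real_inner_comm (S _) x] at *
    linarith [real_inner_comm (C (C.adjoint y)) x, real_inner_comm (S (S.adjoint y)) x]) (by
    intro x
    simp only [sub_apply, inner_sub_left]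
    rw [← norm_adjoint_sq, ← norm_adjoint_sq]
    have := h x
    have h0 := norm_nonneg (S.adjoint x)
    nlinarith)
  refine ⟨D, fun t => ?_⟩
  rw [hD, sub_apply, inner_sub_left, ← norm_adjoint_sq, ← norm_adjoint_sq]
  ring




end Crest.Agent.R239
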