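import Mathlib
import Crest.Agent.R239.Gau1
import Crest.Agent.R239.Gau4
import Crest.Agent.R239.FDef

-- ▼ part R239/Rem_864
section

/-! R239 leaf REM (helper864): slab bounds, abstract real-analysis part.

`p t` is a function with `1 - p t ≤ 2 exp (-t²/(2b))` (`t ≥ 0`) and `exp (-1) t ≤ p t` (`0 ≤ t ≤ 1`),
for example `p t = P (|ξ| ≤ t)` for a centred Gaussian variable of variance `≤ b ≤ 1`. -/

set_option autoImplicit false

open Real

namespace Crest.Agent.R239.Rem864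

/-- (r1) `S ≤ lam`: the slab `t = 2`. -/
theorem slab_r1 {p : ℝ → ℝ} {b : ℝ} (hb : 0 < b) (hb1 : b ≤ 1)
    (h1 : ∀ t, 0 ≤ t → 1 - p t ≤ 2 * exp (-(t ^ 2 / (2 * b))))
    {S lam : ℝ} (hlam : 0 < lam) (hS : S ≤ lam) :
    ∃ t, 0 < t ∧ 0 < p t ∧ S * t - lam * log (p t) ≤ 3 * lam := by
  have hexp : exp (-(2 ^ 2 / (2 * b))) ≤ exp (-2) := by
    apply exp_le_exp.2
    have : (2 : ℝ) ≤ 2 ^ 2 / (2 * b) := by
      rw [le_div_iff₀ (by positivity)]
      nlinarith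
    linarith
  have he2 : exp (-2) ≤ 0.14 := by
    have h := Real.exp_one_gt_d9
    have h3 : exp (-2) = (exp 1 ^ 2)⁻¹ := by
      rw [Real.exp_neg, ← Real.exp_nat_mul]
      norm_num
    rw [h3, inv_le_comm₀ (by positivity) (by norm_num)]
    nlinarith
  have hp := h1 2 (by norm_num)
  have hp2 : (0.72 : ℝ) ≤ p 2 := by linarith
  have hlog : - log (p 2) ≤ 1 := by
    have h4 : log (0.72 : ℝ) ≤ log (p 2) := log_le_log (by norm_num) hp2
    have h5 : 1 - (0.72 : ℝ)⁻¹ ≤ log (0.72 : ℝ) := one_sub_inv_le_log_of_pos (by norm_num)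
    have h6 : (0.72 : ℝ)⁻¹ ≤ 2 := by norm_num
    linarith
  refine ⟨2, by norm_num, by linarith, ?_⟩
  have h7 : lam * (- log (p 2)) ≤ lam * 1 := mul_le_mul_of_nonneg_left hlog hlam.le
  nlinarith

/-- (r2) `S > lam`: the slab `t = lam / S`. -/
theorem slab_r2 {p : ℝ → ℝ}
    (h2 : ∀ t, 0 ≤ t → t ≤ 1 → exp (-1) * t ≤ p t)
    {S lam : ℝ} (hlam : 0 < lam) (hS : lam ≤ S) :
    ∃ t, 0 < t ∧ 0 < p t ∧ S * t - lam * log (p t) ≤ lam * (2 + log (S / lam)) := by
  have hS0 : 0 < S := lt_of_lt_of_le hlam hS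
  have ht0 : 0 < lam / S := div_pos hlam hS0
  have ht1 : lam / S ≤ 1 := (div_le_one hS0).2 hS
  have hp := h2 (lam / S) ht0.le ht1
  have hpos : 0 < exp (-1) * (lam / S) := by positivity
  refine ⟨lam / S, ht0, lt_of_lt_of_le hpos hp, ?_⟩
  have hlog : log (exp (-1) * (lam / S)) ≤ log (p (lam / S)) := log_le_log hpos hp
  rw [log_mul (exp_pos _).ne' ht0.ne', log_exp] at hlog
  have h3 : log (lam / S) = - log (S / lam) := by
    rw [← log_inv, inv_div]
  rw [h3] at hlog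
  have h4 : S * (lam / S) = lam := by field_simp
  rw [h4]
  nlinarith

/-- `- log (1 - y) ≤ 2 y log 2` for `0 ≤ y ≤ 1/2`. -/
theorem neg_log_one_sub_le {y : ℝ} (hy0 : 0 ≤ y) (hy : y ≤ 1 / 2) :
    - log (1 - y) ≤ 2 * y * log 2 := by
  have ha : (1 : ℝ) ∈ Set.Ioi (0 : ℝ) := by simp
  have hb : (1 / 2 : ℝ) ∈ Set.Ioi (0 : ℝ) := by simp
  have h := strictConcaveOn_log_Ioi.concaveOn.2 ha hb
    (show (0 : ℝ) ≤ 1 - 2 * y by linarith) (show (0 : ℝ) ≤ 2 * y by linarith) (by ring)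
  simp only [smul_eq_mul, log_one, mul_zero, zero_add, mul_one] at h
  have h1 : (1 - 2 * y) + 2 * y * (1 / 2) = 1 - y := by ring
  rw [h1] at h
  have h2 : log (1 / 2 : ℝ) = - log 2 := by
    rw [one_div, log_inv]
  rw [h2] at h
  linarith

/-- Tails: a slab of small logarithmic cost. -/
theorem slab_r0 {p : ℝ → ℝ} {b : ℝ} (hb : 0 < b)
    (h1 : ∀ t, 0 ≤ t → 1 - p t ≤ 2 * exp (-(t ^ 2 / (2 * b))))
    {ε : ℝ} (hε : 0 < ε) :
    ∃ t, 0 < t ∧ 0 < p t ∧ - log (p t) ≤ ε := by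
  set δ : ℝ := min (1 / 2) (ε / 2) with hδ
  have hδ0 : 0 < δ := by rw [hδ]; positivity
  have hδ1 : δ ≤ 1 / 2 := min_le_left _ _
  have hδ2 : δ ≤ ε / 2 := min_le_right _ _
  set t : ℝ := sqrt (2 * b * log (2 / δ)) with ht
  have hL : 0 < log (2 / δ) := by
    apply log_pos
    rw [lt_div_iff₀ hδ0]
    linarith
  have ht0 : 0 < t := by rw [ht]; positivity
  have htsq : t ^ 2 = 2 * b * log (2 / δ) := by
    rw [ht]; exact sq_sqrt (by positivity)
  have hx : t ^ 2 / (2 * b) = log (2 / δ) := by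
    rw [htsq]; field_simp
  have hp := h1 t ht0.le
  rw [hx, exp_neg, exp_log (by positivity)] at hp
  have hp' : 1 - p t ≤ δ := by
    have : 2 * (2 / δ)⁻¹ = δ := by field_simp
    linarith
  have hpp : 1 - δ ≤ p t := by linarith
  refine ⟨t, ht0, by linarith, ?_⟩
  have h3 : log (1 - δ) ≤ log (p t) := log_le_log (by linarith) hpp
  have h4 := neg_log_one_sub_le hδ0.le hδ1
  have h5 : log 2 ≤ 1 := by
    have := Real.log_two_lt_d9
    linarith
  nlinarith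

/-- (r3) `0 < S ≤ lam`. -/
theorem slab_r3 {p : ℝ → ℝ} {b : ℝ} (hb : 0 < b)
    (h1 : ∀ t, 0 ≤ t → 1 - p t ≤ 2 * exp (-(t ^ 2 / (2 * b))))
    {S lam e : ℝ} (hlam : 0 < lam) (hS0 : 0 < S) (hS : S ≤ lam) (he : 0 < e) (he1 : e ≤ 1) :
    ∃ t, 0 < t ∧ 0 < p t ∧
      S * t - lam * log (p t) ≤ e * lam * b + 2 / e * (S ^ 2 / lam) * log (2 * lam / S) := by
  set x : ℝ := S / lam with hx
  have hx0 : 0 < x := div_pos hS0 hlam
  have hx1 : x ≤ 1 := (div_le_one hlam).2 hS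
  have hSx : S = lam * x := by rw [hx]; field_simp
  set L : ℝ := log (2 / x) with hL
  have hL2 : log 2 ≤ L := by
    rw [hL]
    apply log_le_log (by norm_num)
    rw [le_div_iff₀ hx0]
    linarith
  have hlog2 : 0 < log 2 := log_pos (by norm_num)
  have hL0 : 0 < L := lt_of_lt_of_le hlog2 hL2
  set t : ℝ := sqrt (4 * b * L) with ht
  have ht0 : 0 < t := by rw [ht]; positivity
  have htsq : t ^ 2 = 4 * b * L := by
    rw [ht]; exact sq_sqrt (by positivity)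
  have hq : t ^ 2 / (2 * b) = 2 * L := by
    rw [htsq]; field_simp; ring
  have hp := h1 t ht0.le
  have hexp : exp (-(2 * L)) = (x / 2) ^ 2 := by
    have : -(2 * L) = log ((x / 2) ^ 2) := by
      rw [hL, log_pow, ← inv_div, log_inv]
      push_cast
      ring
    rw [this, exp_log (by positivity)]
  rw [hq, hexp] at hp
  have hp' : 1 - x ^ 2 / 2 ≤ p t := by nlinarith
  have hy : x ^ 2 / 2 ≤ 1 / 2 := by nlinarith
  have hy0 : 0 ≤ x ^ 2 / 2 := by positivity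
  refine ⟨t, ht0, by linarith, ?_⟩
  have h3 : log (1 - x ^ 2 / 2) ≤ log (p t) := log_le_log (by linarith) hp'
  have h4 := neg_log_one_sub_le hy0 hy
  have h5 : - log (p t) ≤ x ^ 2 * log 2 := by nlinarith
  have h6 : - log (p t) ≤ x ^ 2 * L / e := by
    have : x ^ 2 * log 2 ≤ x ^ 2 * L / e := by
      rw [le_div_iff₀ he]
      have h7 : x ^ 2 * log 2 * e ≤ x ^ 2 * log 2 * 1 :=
        mul_le_mul_of_nonneg_left he1 (by positivity)
      have h8 : x ^ 2 * log 2 ≤ x ^ 2 * L := mul_le_mul_of_nonneg_left hL2 (by positivity)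
      linarith
    linarith
  have h9 : x * t ≤ e * b + x ^ 2 * L / e := by
    -- AM-GM: (x t)^2 = 4 (e b) (x^2 L / e)
    have h10 : (x * t) ^ 2 = 4 * (e * b) * (x ^ 2 * L / e) := by
      rw [mul_pow, htsq]; field_simp
    have h11 : 0 ≤ e * b := by positivity
    have h12 : 0 ≤ x ^ 2 * L / e := by positivity
    nlinarith [sq_nonneg (e * b - x ^ 2 * L / e), abs_le_of_sq_le_sq' (a := x * t)
      (b := e * b + x ^ 2 * L / e) (by nlinarith [sq_nonneg (e * b - x ^ 2 * L / e)]) (by positivity)]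
  have h13 : 2 * lam / S = 2 / x := by
    rw [hx]; field_simp
  have h14 : S ^ 2 / lam = lam * x ^ 2 := by
    rw [hSx]; field_simp
  rw [h13, h14, ← hL]
  have h15 : S * t - lam * log (p t) = lam * (x * t + - log (p t)) := by
    rw [hSx]; ring
  rw [h15]
  have h16 : x * t + - log (p t) ≤ e * b + 2 * (x ^ 2 * L / e) := by linarith
  calc lam * (x * t + - log (p t)) ≤ lam * (e * b + 2 * (x ^ 2 * L / e)) :=
        mul_le_mul_of_nonneg_left h16 hlam.le
    _ = e * lam * b + 2 / e * (lam * x ^ 2) * L := by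
        field_simp

/-- (r3) with slack, `0 ≤ S ≤ lam`. -/
theorem slab_r3' {p : ℝ → ℝ} {b : ℝ} (hb : 0 < b)
    (h1 : ∀ t, 0 ≤ t → 1 - p t ≤ 2 * exp (-(t ^ 2 / (2 * b))))
    {S lam e ε : ℝ} (hlam : 0 < lam) (hS0 : 0 ≤ S) (hS : S ≤ lam) (he : 0 < e) (he1 : e ≤ 1)
    (hε : 0 < ε) :
    ∃ t, 0 < t ∧ 0 < p t ∧
      S * t - lam * log (p t) ≤
        e * lam * b + 2 / e * (S ^ 2 / lam) * log (2 * lam / S) + ε := by
  rcases hS0.eq_or_lt with h | h
  · subst h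
    obtain ⟨t, ht, hp, hl⟩ := slab_r0 hb h1 (ε := ε / lam) (by positivity)
    refine ⟨t, ht, hp, ?_⟩
    have h3 : lam * (- log (p t)) ≤ lam * (ε / lam) := mul_le_mul_of_nonneg_left hl hlam.le
    have h4 : lam * (ε / lam) = ε := by field_simp
    have h5 : 0 ≤ e * lam * b := by positivity
    simp only [zero_mul, ne_eq, OfNat.ofNat_ne_zero, not_false_eq_true, zero_pow, zero_div,
      mul_zero, zero_mul, add_zero]
    linarith
  · obtain ⟨t, ht, hp, hl⟩ := slab_r3 hb h1 hlam h hS he he1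
    exact ⟨t, ht, hp, by linarith⟩

end Crest.Agent.R239.Rem864
end

-- ▼ part R239/RemG_864
section

/-! R239 leaf REM (helper864), Gaussian part: the slab `{|⟪w,g⟫| ≤ t}` of a standard Gaussian. -/

set_option autoImplicit false

open MeasureTheory ProbabilityTheory Set Real
open scoped RealInnerProductSpace ENNReal NNReal InnerProduct

namespace Crest.Agent.R239.Rem864

variable {E : Type*} [NormedAddCommGroup E] [InnerProductSpace ℝ E] [FiniteDimensional ℝ E]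
  [MeasurableSpace E] [BorelSpace E]
variable {F : Type*} [NormedAddCommGroup F] [InnerProductSpace ℝ F] [FiniteDimensional ℝ F]
  [MeasurableSpace F] [BorelSpace F]

theorem gaussV_subG (v : ℝ≥0) {b : ℝ} (hb : 0 < b) (hv : (v : ℝ) ≤ b) :
    HasSubgaussianMGF (fun x : ℝ => x) b.toNNReal (gaussianReal 0 v) := by
  constructor
  · intro t
    exact integrable_exp_mul_gaussianReal t
  · intro t
    have h : mgf (fun x : ℝ => x) (gaussianReal 0 v) t = rexp (0 * t + v * t ^ 2 / 2) := by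
      have := congrFun (mgf_id_gaussianReal (μ := 0) (v := v)) t
      exact this
    rw [h]
    apply exp_le_exp.2
    rw [Real.coe_toNNReal _ hb.le]
    nlinarith [sq_nonneg t]

theorem gaussV_tail (v : ℝ≥0) {b : ℝ} (hb : 0 < b) (hv : (v : ℝ) ≤ b) {t : ℝ} (ht : 0 ≤ t) :
    1 - (gaussianReal 0 v).real {x | |x| ≤ t} ≤ 2 * exp (-(t ^ 2 / (2 * b))) := by
  have hm : MeasurableSet {x : ℝ | |x| ≤ t} := measurableSet_le (by fun_prop) (by fun_prop)
  have h0 := gaussV_subG v hb hv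
  have h1 := h0.measure_ge_le ht
  have h2 := h0.neg.measure_ge_le ht
  rw [Real.coe_toNNReal _ hb.le] at h1 h2
  have h3 : (gaussianReal 0 v).real {x | |x| ≤ t}ᶜ = 1 - (gaussianReal 0 v).real {x | |x| ≤ t} := by
    rw [measureReal_compl hm]; simp
  have h4 : {x : ℝ | |x| ≤ t}ᶜ ⊆ {x : ℝ | t ≤ x} ∪ {x : ℝ | t ≤ (-fun x : ℝ => x) x} := by
    intro x hx
    simp only [mem_compl_iff, mem_ofPred_eq, not_le] at hx
    simp only [mem_union, mem_ofPred_eq, Pi.neg_apply]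
    rcases lt_abs.1 hx with h | h
    · exact Or.inl h.le
    · exact Or.inr h.le
  have h5 := measureReal_mono (μ := gaussianReal 0 v) h4
  have h6 := measureReal_union_le (μ := gaussianReal 0 v) {x : ℝ | t ≤ x}
    {x : ℝ | t ≤ (-fun x : ℝ => x) x}
  rw [← h3]
  have h7 : -t ^ 2 / (2 * b) = -(t ^ 2 / (2 * b)) := by ring
  rw [h7] at h1 h2
  linarith

theorem pdf_lower {x : ℝ} (hx : |x| ≤ 1) : exp (-1) / 2 ≤ gaussianPDFReal 0 1 x := by
  rw [gaussianPDFReal]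
  have h1 : √(2 * π * ((1 : ℝ≥0) : ℝ)) ≤ 2 * exp (1 / 2) := by
    apply Real.sqrt_le_iff.2
    refine ⟨by positivity, ?_⟩
    rw [mul_pow, ← Real.exp_nat_mul]
    have h2 : exp (((2 : ℕ) : ℝ) * (1 / 2)) = exp 1 := by norm_num
    rw [h2]
    have := Real.exp_one_gt_d9
    have := Real.pi_lt_d2
    push_cast
    nlinarith
  have hpos : 0 < √(2 * π * ((1 : ℝ≥0) : ℝ)) := by
    apply Real.sqrt_pos.2
    have := Real.pi_pos
    push_cast
    linarith
  have h3 : (2 * exp (1 / 2))⁻¹ ≤ (√(2 * π * ((1 : ℝ≥0) : ℝ)))⁻¹ :=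
    inv_anti₀ hpos h1
  have h4 : exp (-(1 / 2)) ≤ exp (-(x - 0) ^ 2 / (2 * ((1 : ℝ≥0) : ℝ))) := by
    apply exp_le_exp.2
    push_cast
    have : x ^ 2 ≤ 1 := by
      rw [← sq_abs]
      nlinarith [abs_nonneg x]
    linarith
  calc exp (-1) / 2 = (2 * exp (1 / 2))⁻¹ * exp (-(1 / 2)) := by
        rw [mul_inv, ← Real.exp_neg, mul_assoc, ← Real.exp_add]
        norm_num
        ring
    _ ≤ (√(2 * π * ((1 : ℝ≥0) : ℝ)))⁻¹ * exp (-(x - 0) ^ 2 / (2 * ((1 : ℝ≥0) : ℝ))) :=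
        mul_le_mul h3 h4 (exp_pos _).le (by positivity)

/-- one dimension: `exp (-1) t ≤ γ₁ [-t,t]` for `0 ≤ t ≤ 1`. -/
theorem gauss1_lower {t : ℝ} (ht0 : 0 ≤ t) (ht1 : t ≤ 1) :
    exp (-1) * t ≤ (gaussianReal 0 1).real {x | |x| ≤ t} := by
  have hset : {x : ℝ | |x| ≤ t} = Icc (-t) t := by
    ext x; simp [abs_le]
  rw [hset, measureReal_def, gaussianReal_apply_eq_integral 0 (by norm_num : (1 : ℝ≥0) ≠ 0),
    ENNReal.toReal_ofReal (integral_nonneg fun x => gaussianPDFReal_nonneg _ _ _)]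
  have h1 : ∫ x in Icc (-t) t, exp (-1) / 2 ≤ ∫ x in Icc (-t) t, gaussianPDFReal 0 1 x := by
    apply setIntegral_mono_on
    · exact (integrableOn_const (by simp) (by simp))
    · exact (integrable_gaussianPDFReal 0 1).integrableOn
    · exact measurableSet_Icc
    · intro x hx
      apply pdf_lower
      rw [abs_le]
      constructor <;> linarith [hx.1, hx.2]
  have h2 : ∫ x in Icc (-t) t, exp (-1) / 2 = exp (-1) * t := by
    rw [setIntegral_const, measureReal_def, Real.volume_Icc, ENNReal.toReal_ofReal (by linarith)]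
    simp only [smul_eq_mul]
    ring
  linarith

theorem gaussV_lower (v : ℝ≥0) (hv : (v : ℝ) ≤ 1) {t : ℝ} (ht0 : 0 ≤ t) (ht1 : t ≤ 1) :
    exp (-1) * t ≤ (gaussianReal 0 v).real {x | |x| ≤ t} := by
  have h2 : gaussianReal 0 v = (gaussianReal 0 1).map (fun x => √(v : ℝ) * x) := by
    rw [gaussianReal_map_const_mul]
    congr 1
    · simp
    · ext
      simp
  have hm : MeasurableSet {x : ℝ | |x| ≤ t} := measurableSet_le (by fun_prop) (by fun_prop)
  rw [h2, measureReal_def, Measure.map_apply (by fun_prop) hm, ← measureReal_def]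
  refine (gauss1_lower ht0 ht1).trans (measureReal_mono ?_)
  intro x hx
  simp only [mem_ofPred_eq, mem_preimage] at hx ⊢
  rw [abs_mul, abs_of_nonneg (Real.sqrt_nonneg _)]
  have : √(v : ℝ) ≤ 1 := by
    rw [Real.sqrt_le_one]
    exact hv
  calc √(v : ℝ) * |x| ≤ 1 * |x| := mul_le_mul_of_nonneg_right this (abs_nonneg _)
    _ ≤ t := by linarith

/-- law of a linear functional -/
theorem gau_slab (A : F →L[ℝ] E) (n : E) (t : ℝ) :
    (gau A).real {x | |⟪n, x⟫| ≤ t} = (gaussianReal 0 (‖A.adjoint n‖₊ ^ 2)).real {x | |x| ≤ t} := by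
  have hm : MeasurableSet {x : ℝ | |x| ≤ t} := measurableSet_le (by fun_prop) (by fun_prop)
  rw [← gau_map_inner, measureReal_def, measureReal_def, Measure.map_apply (by fun_prop) hm]
  rfl


theorem gau_h1 (A : F →L[ℝ] E) (n : E) {b : ℝ} (hb : 0 < b) (hv : ‖A.adjoint n‖ ^ 2 ≤ b) :
    ∀ t, 0 ≤ t → 1 - (gau A).real {x | |⟪n, x⟫| ≤ t} ≤ 2 * exp (-(t ^ 2 / (2 * b))) := by
  intro t ht
  rw [gau_slab]
  exact gaussV_tail _ hb (by push_cast; exact hv) ht

theorem gau_h2 (A : F →L[ℝ] E) (n : E) (hv : ‖A.adjoint n‖ ^ 2 ≤ 1) :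
    ∀ t, 0 ≤ t → t ≤ 1 → exp (-1) * t ≤ (gau A).real {x | |⟪n, x⟫| ≤ t} := by
  intro t ht ht1
  rw [gau_slab]
  exact gaussV_lower _ (by push_cast; exact hv) ht ht1

/-- (r1) `S ≤ lam`. -/
theorem gau_r1 (A : F →L[ℝ] E) (n : E) (hv : ‖A.adjoint n‖ ^ 2 ≤ 1) {S lam : ℝ}
    (hlam : 0 < lam) (hS : S ≤ lam) :
    ∃ t, 0 < t ∧ 0 < (gau A).real {x | |⟪n, x⟫| ≤ t} ∧
      S * t - lam * log ((gau A).real {x | |⟪n, x⟫| ≤ t}) ≤ 3 * lam :=
  slab_r1 (p := fun t => (gau A).real {x | |⟪n, x⟫| ≤ t}) one_pos le_rfl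
    (gau_h1 A n one_pos hv) hlam hS

/-- (r2) `lam ≤ S`. -/
theorem gau_r2 (A : F →L[ℝ] E) (n : E) (hv : ‖A.adjoint n‖ ^ 2 ≤ 1) {S lam : ℝ}
    (hlam : 0 < lam) (hS : lam ≤ S) :
    ∃ t, 0 < t ∧ 0 < (gau A).real {x | |⟪n, x⟫| ≤ t} ∧
      S * t - lam * log ((gau A).real {x | |⟪n, x⟫| ≤ t}) ≤ lam * (2 + log (S / lam)) :=
  slab_r2 (p := fun t => (gau A).real {x | |⟪n, x⟫| ≤ t}) (gau_h2 A n hv) hlam hS

/-- (r3) `0 ≤ S ≤ lam`, with slack. -/
theorem gau_r3 (A : F →L[ℝ] E) (n : E) {S lam e ε : ℝ}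
    (hlam : 0 < lam) (hS0 : 0 ≤ S) (hS : S ≤ lam) (he : 0 < e) (he1 : e ≤ 1) (hε : 0 < ε) :
    ∃ t, 0 < t ∧ 0 < (gau A).real {x | |⟪n, x⟫| ≤ t} ∧
      S * t - lam * log ((gau A).real {x | |⟪n, x⟫| ≤ t}) ≤
        e * lam * ‖A.adjoint n‖ ^ 2 + 2 / e * (S ^ 2 / lam) * log (2 * lam / S) + ε := by
  obtain ⟨t, h1, h2, h3⟩ := slab_r3' (p := fun t => (gau A).real {x | |⟪n, x⟫| ≤ t})
    (b := ‖A.adjoint n‖ ^ 2 + ε / (2 * lam)) (by positivity)
    (gau_h1 A n (by positivity) (by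
      have : 0 < ε / (2 * lam) := by positivity
      linarith)) hlam hS0 hS he he1 (ε := ε / 2) (by positivity)
  refine ⟨t, h1, h2, h3.trans ?_⟩
  have h4 : e * lam * (ε / (2 * lam)) ≤ ε / 2 := by
    have : e * lam * (ε / (2 * lam)) = e * (ε / 2) := by field_simp
    rw [this]
    nlinarith
  nlinarith


end Crest.Agent.R239.Rem864
end

-- ▼ part R239/RemLev_864

/-! R239 leaf REM (helper864): the slab remainders of `Target_LEV`. -/

set_option autoImplicit false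

open MeasureTheory ProbabilityTheory Set Real
open scoped RealInnerProductSpace ENNReal NNReal InnerProduct

namespace Crest.Agent.R239.Rem864

open Crest.Agent.R239.FD

variable {E : Type*} [NormedAddCommGroup E] [InnerProductSpace ℝ E] [FiniteDimensional ℝ E]
  [MeasurableSpace E] [BorelSpace E]
variable {F : Type*} [NormedAddCommGroup F] [InnerProductSpace ℝ F] [FiniteDimensional ℝ F]
  [MeasurableSpace F] [BorelSpace F]

theorem lam_pos {p : Par} (hp : p.Ok) (i : ℕ) : 0 < p.lam i := by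
  have h1 := hp.tau_pos
  have h2 : 0 < p.A := by linarith [hp.A_ge]
  unfold Par.lam
  positivity

theorem lam_add (p : Par) (i m : ℕ) : p.lam (i + m) = p.lam i * p.A ^ m := by
  unfold Par.lam
  rw [pow_add]; ring

/-- `log y ≤ 2 √y`. -/
theorem log_le_two_sqrt {y : ℝ} (hy : 0 < y) : log y ≤ 2 * √y := by
  have h1 : log y = 2 * log (√y) := by
    rw [Real.log_sqrt hy.le]; ring
  have h2 : log (√y) ≤ √y - 1 := log_le_sub_one_of_pos (Real.sqrt_pos.2 hy)
  linarith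

/-- `x² log (2/x) ≤ 3 x √x` for `0 < x`. -/
theorem sq_log_le {x : ℝ} (hx : 0 < x) : x ^ 2 * log (2 / x) ≤ 3 * (x * √x) := by
  have h1 := log_le_two_sqrt (y := 2 / x) (by positivity)
  have hsx : 0 < √x := Real.sqrt_pos.2 hx
  have h2 : √(2 / x) = √2 / √x := Real.sqrt_div (by norm_num) x
  have h3 : √2 ≤ 3 / 2 := by
    rw [Real.sqrt_le_left (by norm_num)]
    norm_num
  have h4 : 2 * √(2 / x) ≤ 3 / √x := by
    rw [h2, ← mul_div_assoc]
    apply div_le_div_of_nonneg_right _ hsx.le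
    linarith
  have h5 : x ^ 2 * log (2 / x) ≤ x ^ 2 * (3 / √x) :=
    mul_le_mul_of_nonneg_left (h1.trans h4) (by positivity)
  have h6 : x ^ 2 * (3 / √x) = 3 * (x * √x) := by
    have hxx : √x * √x = x := Real.mul_self_sqrt hx.le
    rw [mul_div_assoc', div_eq_iff hsx.ne']
    calc x ^ 2 * 3 = 3 * (x * x) := by ring
      _ = 3 * (x * (√x * √x)) := by rw [hxx]
      _ = 3 * (x * √x) * √x := by ring
  linarith

theorem inv_pow_le_quarter {A : ℝ} (hA : 16 ≤ A) (m : ℕ) : √((A ^ m)⁻¹) ≤ (1 / 2) ^ m := by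
  have hA0 : 0 < A := by linarith
  rw [Real.sqrt_le_left (by positivity), ← pow_mul, ← inv_pow]
  calc A⁻¹ ^ m ≤ (1 / 4 : ℝ) ^ m := by
        apply pow_le_pow_left₀ (by positivity)
        rw [inv_le_comm₀ hA0 (by norm_num)]
        linarith
    _ = (1 / 2) ^ (m * 2) := by
        rw [mul_comm, pow_mul]; norm_num

/-- slab remainder above `I`. -/
theorem rem_hi {p : Par} (hp : p.Ok) {I i : ℕ} (hI : I < i) {Sv s e : ℝ} (hS0 : 0 ≤ Sv)
    (hS : Sv ≤ p.lam I) (hs0 : 0 ≤ s) (hs1 : s ≤ 1) (he : 0 < e) (he1 : e ≤ 1)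
    (A : F →L[ℝ] E) (n : E) :
    ∃ t, 0 < t ∧ 0 < (gau A).real {x | |⟪n, x⟫| ≤ t} ∧
      s * t * Sv - p.lam i * log ((gau A).real {x | |⟪n, x⟫| ≤ t}) ≤
        e * p.lam i * ‖A.adjoint n‖ ^ 2 + 7 / e * p.lam I * (1 / 2) ^ (i - I) := by
  obtain ⟨m, rfl⟩ : ∃ m, i = I + m := ⟨i - I, by omega⟩
  have hm : I + m - I = m := by omega
  rw [hm]
  have hlI := lam_pos hp I
  have hli := lam_pos hp (I + m)
  have hA := hp.A_ge
  have hA0 : 0 < p.A := by linarith
  have hAm : 1 ≤ p.A ^ m := one_le_pow₀ (by linarith)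
  have hla : p.lam (I + m) = p.lam I * p.A ^ m := lam_add p I m
  have hle : p.lam I ≤ p.lam (I + m) := by
    rw [hla]; nlinarith
  have hsS0 : 0 ≤ s * Sv := mul_nonneg hs0 hS0
  have hsS : s * Sv ≤ p.lam I := by nlinarith
  have hhalf : (0 : ℝ) < (1 / 2) ^ m := by positivity
  obtain ⟨t, h1, h2, h3⟩ := gau_r3 A n (S := s * Sv) (lam := p.lam (I + m)) (e := e)
    (ε := p.lam I * (1 / 2) ^ m) hli hsS0 (hsS.trans hle) he he1 (by positivity)
  refine ⟨t, h1, h2, ?_⟩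
  have h4 : s * t * Sv = s * Sv * t := by ring
  rw [h4]
  refine h3.trans ?_
  -- the main term
  have key : (s * Sv) ^ 2 / p.lam (I + m) * log (2 * p.lam (I + m) / (s * Sv)) ≤
      3 * (p.lam I * (1 / 2) ^ m) := by
    rcases hsS0.eq_or_lt with h | h
    · rw [← h]; simp; positivity
    · set x : ℝ := s * Sv / p.lam (I + m) with hx
      have hx0 : 0 < x := div_pos h hli
      have e1 : (s * Sv) ^ 2 / p.lam (I + m) = p.lam (I + m) * x ^ 2 := by
        rw [hx]; field_simp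
      have e2 : 2 * p.lam (I + m) / (s * Sv) = 2 / x := by
        rw [hx]; field_simp
      rw [e1, e2, mul_assoc]
      have h5 := sq_log_le hx0
      have h6 : x ≤ (p.A ^ m)⁻¹ := by
        rw [hx, hla, div_le_iff₀ (by positivity)]
        have : (p.A ^ m)⁻¹ * (p.lam I * p.A ^ m) = p.lam I := by
          field_simp
        rw [this]; exact hsS
      have h7 : √x ≤ (1 / 2) ^ m := (Real.sqrt_le_sqrt h6).trans (inv_pow_le_quarter hA m)
      have h8 : p.lam (I + m) * x ≤ p.lam I := by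
        have : p.lam (I + m) * x = s * Sv := by rw [hx]; field_simp
        rw [this]; exact hsS
      calc p.lam (I + m) * (x ^ 2 * log (2 / x)) ≤ p.lam (I + m) * (3 * (x * √x)) :=
            mul_le_mul_of_nonneg_left h5 hli.le
        _ = 3 * ((p.lam (I + m) * x) * √x) := by ring
        _ ≤ 3 * (p.lam I * (1 / 2) ^ m) := by
            apply mul_le_mul_of_nonneg_left _ (by norm_num)
            exact mul_le_mul h8 h7 (Real.sqrt_nonneg _) hlI.le
  have h9 : 2 / e * ((s * Sv) ^ 2 / p.lam (I + m)) * log (2 * p.lam (I + m) / (s * Sv)) ≤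
      6 / e * (p.lam I * (1 / 2) ^ m) := by
    calc 2 / e * ((s * Sv) ^ 2 / p.lam (I + m)) * log (2 * p.lam (I + m) / (s * Sv))
        = 2 / e * ((s * Sv) ^ 2 / p.lam (I + m) * log (2 * p.lam (I + m) / (s * Sv))) := by ring
      _ ≤ 2 / e * (3 * (p.lam I * (1 / 2) ^ m)) := mul_le_mul_of_nonneg_left key (by positivity)
      _ = 6 / e * (p.lam I * (1 / 2) ^ m) := by ring
  have h10 : p.lam I * (1 / 2) ^ m ≤ 1 / e * (p.lam I * (1 / 2) ^ m) := by
    have : 1 ≤ 1 / e := by rw [le_div_iff₀ he]; linarith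
    have hpos : 0 < p.lam I * (1 / 2) ^ m := by positivity
    nlinarith
  have h11 : 7 / e * p.lam I * (1 / 2) ^ m = 6 / e * (p.lam I * (1 / 2) ^ m) +
      1 / e * (p.lam I * (1 / 2) ^ m) := by ring
  linarith

/-- `m log A / A^m ≤ 2 (1/2)^m`. -/
theorem mul_log_div_le {A : ℝ} (hA : 16 ≤ A) (m : ℕ) :
    log (A ^ m) ≤ 2 * (1 / 2) ^ m * A ^ m := by
  have hA0 : 0 < A := by linarith
  have hAm : 0 < A ^ m := by positivity
  have h1 := log_le_two_sqrt hAm
  have h2 := inv_pow_le_quarter hA m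
  have h3 : √(A ^ m) = √((A ^ m)⁻¹) * A ^ m := by
    rw [Real.sqrt_inv]
    have hs : 0 < √(A ^ m) := Real.sqrt_pos.2 hAm
    have : A ^ m = √(A ^ m) * √(A ^ m) := (Real.mul_self_sqrt hAm.le).symm
    field_simp
    rw [Real.sq_sqrt hAm.le]
  rw [h3] at h1
  have h4 : √((A ^ m)⁻¹) * A ^ m ≤ (1 / 2) ^ m * A ^ m := mul_le_mul_of_nonneg_right h2 hAm.le
  linarith

/-- slab remainder at the levels `≤ I`. -/
theorem rem_lo {p : Par} (hp : p.Ok) {I i : ℕ} (hI : i ≤ I) {Sv s : ℝ} (hS0 : 0 ≤ Sv)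
    (hS : Sv ≤ p.lam I) (hs0 : 0 ≤ s) (hs1 : s ≤ 1)
    (A : F →L[ℝ] E) (n : E) (hn : ‖A.adjoint n‖ ^ 2 ≤ 4) :
    ∃ t, 0 < t ∧ 0 < (gau A).real {x | |⟪n, x⟫| ≤ t} ∧
      s * t * Sv - p.lam i * log ((gau A).real {x | |⟪n, x⟫| ≤ t}) ≤
        8 * p.lam I * (1 / 2) ^ (I - i) := by
  obtain ⟨m, rfl⟩ : ∃ m, I = i + m := ⟨I - i, by omega⟩
  have hm : i + m - i = m := by omega
  rw [hm]
  have hli := lam_pos hp i
  have hA := hp.A_ge
  have hA0 : 0 < p.A := by linarith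
  have hAm : 1 ≤ p.A ^ m := one_le_pow₀ (by linarith)
  have hla : p.lam (i + m) = p.lam i * p.A ^ m := lam_add p i m
  rw [hla] at hS ⊢
  have hhalf : (0 : ℝ) < (1 / 2) ^ m := by positivity
  -- `1 ≤ (1/2)^m A^m`
  have hone : 1 ≤ (1 / 2) ^ m * p.A ^ m := by
    rw [← mul_pow]
    exact one_le_pow₀ (by linarith)
  -- scaled functional
  have hn' : ‖A.adjoint ((1 / 2 : ℝ) • n)‖ ^ 2 ≤ 1 := by
    rw [map_smul, norm_smul, mul_pow]
    norm_num
    linarith
  have hset : ∀ t : ℝ, {x : E | |⟪(1 / 2 : ℝ) • n, x⟫| ≤ t} = {x : E | |⟪n, x⟫| ≤ 2 * t} := by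
    intro t
    ext x
    simp only [mem_ofPred_eq, real_inner_smul_left, abs_mul]
    rw [abs_of_pos (by norm_num : (0 : ℝ) < 1 / 2)]
    constructor <;> intro h <;> linarith
  have hsS0 : 0 ≤ 2 * (s * Sv) := by positivity
  have hsS : 2 * (s * Sv) ≤ 2 * (p.lam i * p.A ^ m) := by nlinarith
  rcases le_total (2 * (s * Sv)) (p.lam i) with h | h
  · obtain ⟨t, h1, h2, h3⟩ := gau_r1 A ((1 / 2 : ℝ) • n) hn' hli h
    rw [hset] at h2 h3
    refine ⟨2 * t, by linarith, h2, ?_⟩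
    have h4 : s * (2 * t) * Sv = 2 * (s * Sv) * t := by ring
    rw [h4]
    refine h3.trans ?_
    nlinarith
  · obtain ⟨t, h1, h2, h3⟩ := gau_r2 A ((1 / 2 : ℝ) • n) hn' hli h
    rw [hset] at h2 h3
    refine ⟨2 * t, by linarith, h2, ?_⟩
    have h4 : s * (2 * t) * Sv = 2 * (s * Sv) * t := by ring
    rw [h4]
    refine h3.trans ?_
    have hpos : 0 < 2 * (s * Sv) := lt_of_lt_of_le hli h
    have h5 : 2 * (s * Sv) / p.lam i ≤ 2 * p.A ^ m := by
      rw [div_le_iff₀ hli]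
      calc 2 * (s * Sv) ≤ 2 * (p.lam i * p.A ^ m) := hsS
        _ = 2 * p.A ^ m * p.lam i := by ring
    have h6 : log (2 * (s * Sv) / p.lam i) ≤ log (2 * p.A ^ m) :=
      log_le_log (by positivity) h5
    rw [log_mul (by norm_num) (by positivity)] at h6
    have h7 := mul_log_div_le hA m
    have h8 : log 2 ≤ 1 := by
      have := Real.log_two_lt_d9
      linarith
    have h9 : 2 + log (2 * (s * Sv) / p.lam i) ≤ 5 * ((1 / 2) ^ m * p.A ^ m) := by
      nlinarith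
    calc p.lam i * (2 + log (2 * (s * Sv) / p.lam i)) ≤ p.lam i * (5 * ((1 / 2) ^ m * p.A ^ m)) :=
          mul_le_mul_of_nonneg_left h9 hli.le
      _ ≤ 8 * (p.lam i * p.A ^ m) * (1 / 2) ^ m := by
          have : 0 ≤ p.lam i * ((1 / 2) ^ m * p.A ^ m) := by positivity
          nlinarith

end Crest.Agent.R239.Rem864
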