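import Crest.Agent.R239.FDef
import Crest.Agent.R239.Rot_203
import Crest.Agent.R239.FlagAlg_557
import Crest.Agent.R239.Mom_764
import Mathlib
import Crest.Agent.R239.AdmHalf_606_Mg
import Crest.Agent.R239.Dom_640
import Crest.Agent.R239.InsCut_488
import Crest.Agent.R239.RemLev_864
import Crest.Agent.R239.Cmp_142
import Crest.Agent.R239.Gau4
import Crest.Agent.R239.LineGauss
import Crest.Agent.R239.Gau6
import Crest.Agent.R239.Fl_597

-- ▼ part R239/F5_336
section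

/-!
# R239 / S0370, block F5 (helper336): rotation of a flag, interface F5 -> F6

With `sb = 2 s - s²`, `x = V.H i g`, `ξ = ⟪v,x⟫`, `ζ_j = ⟪P_j v,x⟫`, `a_j = ξ - ζ_j`:
`qf = sb ⟪V.Hi i v, g⟫² - p`, `p = sb (Z² + Σ om ζ_j² + Σ om (sb b_j/(1 - sb b_j)) a_j²)`,
`Z = Σ om ζ_j = ⟪V.Hi i v - V.H i v, g⟫` (helper208), and the trace of `p` is
`≤ 2 sb Σ om b_j`.  Output `f5_N`: the inequality used by F6 (helper772), one form for all levels.
-/

set_option autoImplicit false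
set_option linter.unusedSectionVars false

open MeasureTheory ProbabilityTheory
open scoped RealInnerProductSpace

namespace Crest.Agent.R239.F5336

open Crest.Agent.R239.FD
open Finset

variable {E : Type*} [NormedAddCommGroup E] [InnerProductSpace ℝ E] [FiniteDimensional ℝ E]
  [MeasurableSpace E] [BorelSpace E]

/-! ### Bridges to `FlagAlg557` -/

lemma th_pos : (0 : ℝ) < th := by norm_num [th]

lemma P_eq (V : Flag E) (j : ℕ) : V.P j = FlagAlg557.P V.M j := rfl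

lemma Q_eq (V : Flag E) (j : ℕ) : V.Q j = FlagAlg557.Q V.M j := rfl

lemma H_eq (V : Flag E) (i : ℕ) : V.H i = FlagAlg557.H V.M th V.n i := rfl

lemma Hi_eq (V : Flag E) (i : ℕ) : V.Hi i = FlagAlg557.Hi V.M th V.n i := by
  unfold Flag.Hi FlagAlg557.Hi FlagAlg557.comb
  refine sum_congr rfl fun j _ => ?_
  rw [inv_pow]; rfl

lemma om_eq' {m : ℕ} (hm : 1 ≤ m) : FlagAlg557.om th m = om m := by
  rw [FlagAlg557.om_eq th_pos m hm, om, pow_mul']
  simp only [inv_pow]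

lemma om_nonneg (m : ℕ) : 0 ≤ om m := by
  unfold om th; positivity

lemma om_val (m : ℕ) : om m = (25 / 16 : ℝ) ^ m * (9 / 25) := by
  unfold om th
  rw [pow_mul]; norm_num

lemma bot_n (V : Flag E) : V.M V.n = ⊥ := V.bot _ le_rfl

lemma H_mem (V : Flag E) (i : ℕ) (g : E) : V.H i g ∈ V.M i := by
  rw [H_eq]; exact FlagAlg557.comb_mem V.anti i V.n _ g

lemma Hi_mem (V : Flag E) (i : ℕ) (g : E) : V.Hi i g ∈ V.M i := by
  rw [Hi_eq]; exact FlagAlg557.comb_mem V.anti i V.n _ g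

lemma H_of_le (V : Flag E) {i : ℕ} (h : V.n ≤ i) : V.H i = 0 := by
  unfold Flag.H; rw [Ico_eq_empty (by omega), sum_empty]


lemma P_of_le (V : Flag E) {i : ℕ} (h : V.n ≤ i) (x : E) : V.P i x = 0 := by
  rw [P_eq]; exact FlagAlg557.P_eq_zero (V.bot i h) x

/-- precision of level `i` -/
lemma norm_Hi_sq (V : Flag E) {i : ℕ} (h : i < V.n) (x : E) :
    ‖V.Hi i x‖ ^ 2 = ‖V.P i x‖ ^ 2 + ∑ j ∈ Ico (i + 1) V.n, om (j - i) * ‖V.P j x‖ ^ 2 := by
  rw [Hi_eq, FlagAlg557.norm_Hi_sq V.anti h (bot_n V)]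
  congr 1
  refine sum_congr rfl fun j hj => ?_
  have := Finset.mem_Ico.1 hj
  rw [om_eq' (by omega)]; rfl

/-- polarised precision of level `i` -/
lemma inner_Hi_Hi (V : Flag E) {i : ℕ} (h : i < V.n) (x y : E) :
    ⟪V.Hi i x, V.Hi i y⟫
      = ⟪V.P i x, V.P i y⟫ + ∑ j ∈ Ico (i + 1) V.n, om (j - i) * ⟪V.P j x, V.P j y⟫ := by
  have h1 := norm_Hi_sq V h (x + y)
  have h2 := norm_Hi_sq V h x
  have h3 := norm_Hi_sq V h y
  simp only [map_add, norm_add_sq_real] at h1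
  have h4 : ∑ j ∈ Ico (i + 1) V.n,
      om (j - i) * (‖V.P j x‖ ^ 2 + 2 * ⟪V.P j x, V.P j y⟫ + ‖V.P j y‖ ^ 2)
      = ∑ j ∈ Ico (i + 1) V.n, om (j - i) * ‖V.P j x‖ ^ 2
        + 2 * ∑ j ∈ Ico (i + 1) V.n, om (j - i) * ⟪V.P j x, V.P j y⟫
        + ∑ j ∈ Ico (i + 1) V.n, om (j - i) * ‖V.P j y‖ ^ 2 := by
    rw [mul_sum, ← sum_add_distrib, ← sum_add_distrib]
    refine sum_congr rfl fun j _ => ?_
    ring
  rw [h4] at h1
  linarith

lemma Hi_H (V : Flag E) {i : ℕ} (h : i ≤ V.n) (g : E) : V.Hi i (V.H i g) = V.P i g := by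
  rw [Hi_eq, H_eq, FlagAlg557.Hi_H V.anti th_pos h (bot_n V)]; rfl

lemma H_Hi (V : Flag E) {i : ℕ} (h : i ≤ V.n) (g : E) : V.H i (V.Hi i g) = V.P i g := by
  rw [Hi_eq, H_eq, FlagAlg557.H_Hi V.anti th_pos h (bot_n V)]; rfl

lemma inner_H_comm (V : Flag E) (i : ℕ) (x y : E) : ⟪V.H i x, y⟫ = ⟪x, V.H i y⟫ := by
  rw [H_eq]; exact FlagAlg557.inner_comb_comm i V.n _ x y

lemma inner_P_comm (V : Flag E) (i : ℕ) (x y : E) : ⟪V.P i x, y⟫ = ⟪x, V.P i y⟫ :=
  FlagAlg557.inner_P_comm' (M := V.M) i x y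

lemma P_of_mem (V : Flag E) {i : ℕ} {x : E} (hx : x ∈ V.M i) : V.P i x = x :=
  FlagAlg557.P_of_mem hx

lemma P_P (V : Flag E) {i j : ℕ} (h : i ≤ j) (x : E) : V.P j (V.P i x) = V.P j x :=
  FlagAlg557.P_P V.anti h x

/-! ### The rotated flag -/



lemma rot_n (V : Flag E) (v : E) (s : ℝ) : (V.rot v s).n = V.n := rfl

lemma Ts_mem (V : Flag E) (v : E) (s : ℝ) {j : ℕ} {x : E} (hx : x ∈ V.M j) :
    Ts v s x ∈ (V.rot v s).M j :=
  Submodule.mem_map_of_mem hx

lemma sb_lt_one {s : ℝ} (h1 : s < 1) : 2 * s - s ^ 2 < 1 := by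
  have h := mul_pos (sub_pos.2 h1) (sub_pos.2 h1)
  linarith

lemma sb_pos {s : ℝ} (h0 : 0 < s) (h1 : s < 1) : 0 < 2 * s - s ^ 2 := by nlinarith

lemma b_nonneg (V : Flag E) (v : E) (j : ℕ) : 0 ≤ V.b v j := sq_nonneg _

lemma b_le_one (V : Flag E) {v : E} (hv : ‖v‖ = 1) (j : ℕ) : V.b v j ≤ 1 := by
  have h : ‖V.P j v‖ ≤ ‖v‖ := (V.M j).norm_starProjection_apply_le v
  rw [hv] at h
  unfold Flag.b
  exact pow_le_one₀ (norm_nonneg _) h

/-- C1 on `M j` for the rotated flag -/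
lemma norm_rotP_sq (V : Flag E) {v : E} (hv : ‖v‖ = 1) {s : ℝ} (h0 : 0 < s) (h1 : s < 1)
    (j : ℕ) (x : E) :
    ‖(V.rot v s).P j (Ts v s x)‖ ^ 2 = ‖V.P j x‖ ^ 2 - (2 * s - s ^ 2) * ⟪v, x⟫ ^ 2
      + (2 * s - s ^ 2) * ⟪v - V.P j v, x⟫ ^ 2 / (1 - (2 * s - s ^ 2) * V.b v j) := by
  have hb : 1 - (2 * s - s ^ 2) * ‖(V.M j).starProjection v‖ ^ 2 ≠ 0 := by
    have h2 := b_le_one V hv j
    have h3 := b_nonneg V v j
    unfold Flag.b Flag.P at h2 h3
    have h4 := sb_lt_one h1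
    have h5 := sb_pos h0 h1
    have : (2 * s - s ^ 2) * ‖(V.M j).starProjection v‖ ^ 2 ≤ (2 * s - s ^ 2) * 1 :=
      mul_le_mul_of_nonneg_left h2 h5.le
    linarith
  have h := Rot203.norm_proj_Ts_sq hv (V.M j) s x hb
  have e : (V.rot v s).P j (Ts v s x)
      = ((V.M j).map (Rot203.Ts s v)).starProjection (Rot203.Ts s v x) := by
    unfold Flag.P
    congr 1
  rw [e, h, inner_sub_left]
  rfl

/-- **(ROT)**: the precision of the rotated flag. -/
theorem p_rot : P_ROT E := by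
  intro V v s i x hv h0 h1 hx
  by_cases hin : V.n ≤ i
  · have hx0 : x = 0 := by rw [V.bot i hin] at hx; simpa using hx
    subst hx0
    simp [qf]
  push Not at hin
  rw [norm_Hi_sq (V.rot v s) hin, norm_Hi_sq V hin, P_of_mem (V.rot v s) (Ts_mem V v s hx),
    P_of_mem V hx]
  have hT : ‖Ts v s x‖ ^ 2 = ‖x‖ ^ 2 - (2 * s - s ^ 2) * ⟪v, x⟫ ^ 2 := by
    have := Rot203.norm_Ts_sq hv s x
    rw [Rot203.Ts_apply] at this
    rw [Ts_apply]; exact this
  rw [hT, qf, rot_n]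
  have h2 : ∑ j ∈ Ico (i + 1) V.n, om (j - i) * ‖(V.rot v s).P j (Ts v s x)‖ ^ 2
      = ∑ j ∈ Ico (i + 1) V.n, om (j - i) * ‖V.P j x‖ ^ 2
        - (2 * s - s ^ 2) * ∑ j ∈ Ico (i + 1) V.n,
          om (j - i) * (⟪v, x⟫ ^ 2 - ⟪v - V.P j v, x⟫ ^ 2 / (1 - (2 * s - s ^ 2) * V.b v j)) := by
    rw [mul_sum, ← sum_sub_distrib]
    refine sum_congr rfl fun j _ => ?_
    rw [norm_rotP_sq V hv h0 h1]
    ring
  rw [h2]
  ring


/-! ### The form `q` in `g`-coordinates (helper208) -/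

/-- `⟪Hi_i v, g⟫ = ξ + Σ om ζ_j` -/
lemma inner_Hi_eq (V : Flag E) {i : ℕ} (h : i < V.n) (v g : E) :
    ⟪V.Hi i v, g⟫ = ⟪v, V.H i g⟫
      + ∑ j ∈ Ico (i + 1) V.n, om (j - i) * ⟪V.P j v, V.H i g⟫ := by
  have h1 := inner_Hi_Hi V h v (V.H i g)
  rw [Hi_H V h.le, ← inner_P_comm V i, P_of_mem V (Hi_mem V i v)] at h1
  rw [h1, P_of_mem V (H_mem V i g), inner_P_comm V i, P_of_mem V (H_mem V i g)]
  congr 1
  refine sum_congr rfl fun j _ => ?_
  rw [← inner_P_comm V j (V.P j v), P_P V le_rfl]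

/-- the remainder form -/
noncomputable def pf (V : Flag E) (v : E) (sb : ℝ) (i : ℕ) (x z : E) : ℝ :=
  sb * (⟪z, x⟫ ^ 2 + ∑ j ∈ Ico (i + 1) V.n, om (j - i) * ⟪V.P j v, x⟫ ^ 2
    + ∑ j ∈ Ico (i + 1) V.n, om (j - i) * (sb * V.b v j / (1 - sb * V.b v j))
        * ⟪v - V.P j v, x⟫ ^ 2)

lemma one_sub_pos (V : Flag E) {v : E} (hv : ‖v‖ = 1) {sb : ℝ} (h0 : 0 ≤ sb) (h1 : sb < 1)
    (j : ℕ) : 0 < 1 - sb * V.b v j := by
  have h2 := b_le_one V hv j
  have : sb * V.b v j ≤ sb * 1 := mul_le_mul_of_nonneg_left h2 h0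
  linarith

/-- exact splitting `q = sb ℓ² - p` (helper208) -/
lemma qf_split (V : Flag E) {v : E} (hv : ‖v‖ = 1) {sb : ℝ} (h0 : 0 ≤ sb) (h1 : sb < 1) {i : ℕ}
    (h : i < V.n) (g : E) :
    qf V v sb i (V.H i g) = sb * ⟪V.Hi i v, g⟫ ^ 2
      - sb * (⟪V.Hi i v - V.H i v, g⟫ ^ 2
        + ∑ j ∈ Ico (i + 1) V.n, om (j - i) * ⟪V.P j v, V.H i g⟫ ^ 2
        + ∑ j ∈ Ico (i + 1) V.n, om (j - i) * (sb * V.b v j / (1 - sb * V.b v j))
            * ⟪v - V.P j v, V.H i g⟫ ^ 2) := by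
  set x := V.H i g with hx
  set ξ := ⟪v, x⟫ with hξ
  set Z := ∑ j ∈ Ico (i + 1) V.n, om (j - i) * ⟪V.P j v, x⟫ with hZ
  have e1 : ⟪V.Hi i v, g⟫ = ξ + Z := inner_Hi_eq V h v g
  have e2 : ⟪V.Hi i v - V.H i v, g⟫ = Z := by
    rw [inner_sub_left, e1, inner_H_comm, ← hx]; ring
  rw [e1, e2, qf]
  have e3 : ∑ j ∈ Ico (i + 1) V.n,
      om (j - i) * (ξ ^ 2 - ⟪v - V.P j v, x⟫ ^ 2 / (1 - sb * V.b v j))
      = 2 * ξ * Z - ∑ j ∈ Ico (i + 1) V.n, om (j - i) * ⟪V.P j v, x⟫ ^ 2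
        - ∑ j ∈ Ico (i + 1) V.n, om (j - i) * (sb * V.b v j / (1 - sb * V.b v j))
            * ⟪v - V.P j v, x⟫ ^ 2 := by
    rw [hZ, mul_sum, ← sum_sub_distrib, ← sum_sub_distrib]
    refine sum_congr rfl fun j _ => ?_
    have hp := one_sub_pos V hv h0 h1 j
    rw [inner_sub_left, ← hξ]
    have h2 : (ξ - ⟪V.P j v, x⟫) ^ 2 / (1 - sb * V.b v j)
        = (ξ - ⟪V.P j v, x⟫) ^ 2
          + sb * V.b v j / (1 - sb * V.b v j) * (ξ - ⟪V.P j v, x⟫) ^ 2 := by
      field_simp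
      ring
    rw [h2]
    ring
  rw [← hξ, e3]
  ring

/-! ### Traces -/

lemma norm_H_sub_le (V : Flag E) {v : E} (hv : ‖v‖ = 1) {i j : ℕ} (hij : i ≤ j) (hjn : j ≤ V.n) :
    ‖V.H i (v - V.P j v)‖ ^ 2 ≤ 1 := by
  have h := FlagAlg557.norm_H_sub_sq_le V.anti th_pos (by norm_num [th]) hij hjn v
  have h2 := b_le_one V hv i
  have h3 := b_nonneg V v j
  unfold Flag.b at h2 h3
  rw [H_eq, P_eq]
  rw [P_eq] at h2 h3
  linarith

/-- `‖Hi v - H v‖² + Σ om ‖H P_j v‖² = Σ om b_j` -/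
lemma trace_Z (V : Flag E) {i : ℕ} (h : i < V.n) (v : E) :
    ‖V.Hi i v - V.H i v‖ ^ 2 + ∑ j ∈ Ico (i + 1) V.n, om (j - i) * ‖V.H i (V.P j v)‖ ^ 2
      = ∑ j ∈ Ico (i + 1) V.n, om (j - i) * V.b v j := by
  have h1 : ‖V.H i v‖ ^ 2 + ∑ j ∈ Ico (i + 1) V.n, om (j - i) * ‖V.H i (V.P j v)‖ ^ 2
      = ‖V.P i v‖ ^ 2 := by
    have h2 := FlagAlg557.trace_identity V.anti th_pos h (bot_n V) v
    rw [H_eq, P_eq, ← h2]
    congr 1
    refine sum_congr rfl fun j hj => ?_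
    have := Finset.mem_Ico.1 hj
    rw [om_eq' (by omega)]; rfl
  have h3 : ⟪V.Hi i v, V.H i v⟫ = ‖V.P i v‖ ^ 2 := by
    rw [← inner_H_comm, H_Hi V h.le, ← real_inner_self_eq_norm_sq, inner_P_comm, inner_P_comm,
      P_P V le_rfl]
  have h4 := norm_Hi_sq V h v
  rw [norm_sub_sq_real, h3]
  unfold Flag.b
  linarith

/-- `‖Hi v - Q_i v‖² = b_{i+1} + Σ om b_j` -/
lemma trace_r (V : Flag E) {i : ℕ} (h : i < V.n) (v : E) :
    ‖V.Hi i v - V.Q i v‖ ^ 2
      = V.b v (i + 1) + ∑ j ∈ Ico (i + 1) V.n, om (j - i) * V.b v j := by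
  have h4 := norm_Hi_sq V h v
  have hQQ : V.Q i (V.Q i v) = V.Q i v := FlagAlg557.Q_Q_self V.anti i v
  have hc : ∀ x y : E, ⟪V.Q i x, y⟫ = ⟪x, V.Q i y⟫ := fun x y =>
    FlagAlg557.inner_Q_comm (M := V.M) i x y
  have h5 : V.Q i (V.Hi i v) = V.Q i v := by
    rw [Hi_eq, Q_eq, FlagAlg557.Hi, FlagAlg557.Q_comb V.anti (by simp [h])]
    simp
  have h6 : ⟪V.Hi i v, V.Q i v⟫ = ‖V.Q i v‖ ^ 2 := by
    rw [← hc, h5, ← real_inner_self_eq_norm_sq, hc, hc, hQQ]
  have h7 : ‖V.Q i v‖ ^ 2 = ‖V.P i v‖ ^ 2 - ‖V.P (i + 1) v‖ ^ 2 :=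
    FlagAlg557.norm_Q_sq' V.anti i v
  rw [norm_sub_sq_real, h6, h4]
  unfold Flag.b
  linarith

/-- numerics of the weights: `b_{i+1} + 3 Σ om b_j ≤ BB` -/
lemma weights_le (V : Flag E) {i : ℕ} (h : i < V.n) (v : E) :
    V.b v (i + 1) + 3 * ∑ j ∈ Ico (i + 1) V.n, om (j - i) * V.b v j ≤ BB V v i := by
  unfold BB
  rcases Nat.lt_or_ge (i + 1) V.n with hlt | hge
  · rw [← sum_Ioo_add_eq_sum_Ico hlt, ← sum_Ioo_add_eq_sum_Ico hlt]
    have e1 : i + 1 - i = 1 := by omega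
    rw [e1, om_val]
    have h1 : 3 * ∑ j ∈ Ioo (i + 1) V.n, om (j - i) * V.b v j
        ≤ ∑ j ∈ Ioo (i + 1) V.n, (25 / 8 : ℝ) ^ (j - i) * V.b v j := by
      rw [mul_sum]
      refine sum_le_sum fun j hj => ?_
      rw [← mul_assoc]
      refine mul_le_mul_of_nonneg_right ?_ (b_nonneg V v j)
      rw [om_val]
      have hj' := Finset.mem_Ioo.1 hj
      have h2 : (25 / 8 : ℝ) ^ (j - i) = 2 ^ (j - i) * (25 / 16 : ℝ) ^ (j - i) := by
        rw [← mul_pow]; norm_num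
      rw [h2]
      have h3 : (2 : ℝ) ≤ 2 ^ (j - i) := by
        calc (2 : ℝ) = 2 ^ 1 := by norm_num
          _ ≤ 2 ^ (j - i) := pow_le_pow_right₀ (by norm_num) (by omega)
      have h4 : (0 : ℝ) < (25 / 16 : ℝ) ^ (j - i) := by positivity
      nlinarith [mul_le_mul_of_nonneg_right h3 h4.le]
    have h5 := b_nonneg V v (i + 1)
    nlinarith [h1, h5]
  · have hb : V.b v (i + 1) = 0 := by
      unfold Flag.b; rw [P_of_le V hge]; simp
    rw [Ico_eq_empty (by omega), sum_empty, sum_empty, hb]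
    simp

/-- re-indexing a finite family by `ℕ` -/
lemma reindex {ι : Type*} (J : Finset ι) (u : ι → E) :
    ∃ (n : ℕ) (w : ℕ → E), ∀ f : E → ℝ, ∑ k ∈ range n, f (w k) = ∑ k ∈ J, f (u k) := by
  classical
  induction J using Finset.induction_on with
  | empty => exact ⟨0, fun _ => 0, fun f => by simp⟩
  | insert a J ha ih =>
    obtain ⟨n, w, hw⟩ := ih
    refine ⟨n + 1, fun k => if k < n then w k else u a, fun f => ?_⟩
    rw [sum_range_succ, sum_insert ha, ← hw f]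
    simp only [lt_irrefl, if_false]
    rw [add_comm]
    congr 1
    refine sum_congr rfl fun k hk => ?_
    rw [if_pos (Finset.mem_range.1 hk)]

/-- **F5 -> F6 interface** (772's (N), form 208): one inequality for all levels. -/
theorem f5_N (V : Flag E) {v : E} (hv : ‖v‖ = 1) {s : ℝ} (h0 : 0 < s) (h1 : s < 1)
    (hsb : 2 * s - s ^ 2 ≤ 1 / 2) (i : ℕ) :
    ∃ (J : Finset ℕ) (u : ℕ → E),
      (∀ g, ‖(V.rot v s).Hi i (Ts v s (V.H i g))‖ ^ 2 + (2 * s - s ^ 2) / 2 * ⟪V.Q i v, g⟫ ^ 2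
        ≤ ‖g‖ ^ 2 + ∑ k ∈ J, ⟪u k, g⟫ ^ 2) ∧
      ∑ k ∈ J, ‖u k‖ ^ 2 ≤ (2 * s - s ^ 2) * BB V v i := by
  set sb := 2 * s - s ^ 2 with hsbd
  have hsb0 : 0 < sb := sb_pos h0 h1
  have hsb1 : sb < 1 := sb_lt_one h1
  rcases Nat.lt_or_ge i V.n with hin | hin
  swap
  · refine ⟨∅, fun _ => 0, fun g => ?_, ?_⟩
    · have hQ : V.Q i v = 0 := by
        show V.P i v - V.P (i + 1) v = 0
        rw [P_of_le V hin, P_of_le V (by omega), sub_zero]
      rw [H_of_le V hin, hQ]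
      simp
    · unfold BB
      rw [Ico_eq_empty (by omega)]
      simp
  -- the family of vectors
  set W := Ico (i + 1) V.n with hW
  set cz : ℕ → ℝ := fun j => sb * om (j - i) with hcz
  set ca : ℕ → ℝ := fun j => sb * (om (j - i) * (sb * V.b v j / (1 - sb * V.b v j))) with hca
  have hcz0 : ∀ j, 0 ≤ cz j := fun j => mul_nonneg hsb0.le (om_nonneg _)
  have hca0 : ∀ j, 0 ≤ ca j := fun j => mul_nonneg hsb0.le (mul_nonneg (om_nonneg _)
    (div_nonneg (mul_nonneg hsb0.le (b_nonneg V v j)) (one_sub_pos V hv hsb0.le hsb1 j).le))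
  set J : Finset ((Fin 2) ⊕ (ℕ ⊕ ℕ)) :=
    (Finset.univ : Finset (Fin 2)).disjSum (W.disjSum W) with hJ
  set u : (Fin 2) ⊕ (ℕ ⊕ ℕ) → E := Sum.elim
    (fun k => if k = 0 then Real.sqrt sb • (V.Hi i v - V.Q i v)
      else Real.sqrt sb • (V.Hi i v - V.H i v))
    (Sum.elim (fun j => Real.sqrt (cz j) • V.H i (V.P j v))
      (fun j => Real.sqrt (ca j) • V.H i (v - V.P j v))) with hu
  have hsum : ∀ f : E → ℝ, ∑ k ∈ J, f (u k)
      = f (Real.sqrt sb • (V.Hi i v - V.Q i v)) + f (Real.sqrt sb • (V.Hi i v - V.H i v))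
        + (∑ j ∈ W, f (Real.sqrt (cz j) • V.H i (V.P j v))
          + ∑ j ∈ W, f (Real.sqrt (ca j) • V.H i (v - V.P j v))) := by
    intro f
    rw [hJ, sum_disjSum, sum_disjSum, Fin.sum_univ_two]
    simp [hu]
  obtain ⟨N, w, hw⟩ := reindex J u
  refine ⟨range N, w, fun g => ?_, ?_⟩
  · have hsum1 := (hw (fun y => ⟪y, g⟫ ^ 2)).trans (hsum (fun y => ⟪y, g⟫ ^ 2))
    rw [hsum1]
    have hsq : ∀ (c : ℝ) (y : E), 0 ≤ c → ⟪Real.sqrt c • y, g⟫ ^ 2 = c * ⟪y, g⟫ ^ 2 := by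
      intro c y hc
      rw [real_inner_smul_left, mul_pow, Real.sq_sqrt hc]
    rw [hsq _ _ hsb0.le, hsq _ _ hsb0.le,
      sum_congr rfl (fun j _ => hsq (cz j) (V.H i (V.P j v)) (hcz0 j)),
      sum_congr rfl (fun j _ => hsq (ca j) (V.H i (v - V.P j v)) (hca0 j))]
    rw [p_rot V v s i (V.H i g) hv h0 h1 (H_mem V i g), Hi_H V hin.le, ← hsbd,
      qf_split V hv hsb0.le hsb1 hin g]
    have hP : ‖V.P i g‖ ^ 2 ≤ ‖g‖ ^ 2 := by
      have : ‖V.P i g‖ ≤ ‖g‖ := (V.M i).norm_starProjection_apply_le g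
      exact pow_le_pow_left₀ (norm_nonneg _) this 2
    have hz : ∑ j ∈ W, cz j * ⟪V.H i (V.P j v), g⟫ ^ 2
        = sb * ∑ j ∈ W, om (j - i) * ⟪V.P j v, V.H i g⟫ ^ 2 := by
      rw [mul_sum]
      refine sum_congr rfl fun j _ => ?_
      rw [hcz, inner_H_comm]; ring
    have ha : ∑ j ∈ W, ca j * ⟪V.H i (v - V.P j v), g⟫ ^ 2
        = sb * ∑ j ∈ W, om (j - i) * (sb * V.b v j / (1 - sb * V.b v j))
            * ⟪v - V.P j v, V.H i g⟫ ^ 2 := by
      rw [mul_sum]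
      refine sum_congr rfl fun j _ => ?_
      rw [hca, inner_H_comm]; ring
    rw [hz, ha]
    have hl : ⟪V.Hi i v, g⟫ = ⟪V.Q i v, g⟫ + ⟪V.Hi i v - V.Q i v, g⟫ := by
      rw [inner_sub_left]; ring
    rw [hl]
    have hq : sb / 2 * ⟪V.Q i v, g⟫ ^ 2 ≤ sb * (⟪V.Q i v, g⟫ + ⟪V.Hi i v - V.Q i v, g⟫) ^ 2
        + sb * ⟪V.Hi i v - V.Q i v, g⟫ ^ 2 := by
      nlinarith [mul_nonneg hsb0.le (sq_nonneg (⟪V.Q i v, g⟫ + 2 * ⟪V.Hi i v - V.Q i v, g⟫))]
    linarith
  · have hsum1 := (hw (fun y => ‖y‖ ^ 2)).trans (hsum (fun y => ‖y‖ ^ 2))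
    rw [hsum1]
    have hsq : ∀ (c : ℝ) (y : E), 0 ≤ c → ‖Real.sqrt c • y‖ ^ 2 = c * ‖y‖ ^ 2 := by
      intro c y hc
      rw [norm_smul, mul_pow, Real.norm_eq_abs, sq_abs, Real.sq_sqrt hc]
    rw [hsq _ _ hsb0.le, hsq _ _ hsb0.le,
      sum_congr rfl (fun j _ => hsq (cz j) (V.H i (V.P j v)) (hcz0 j)),
      sum_congr rfl (fun j _ => hsq (ca j) (V.H i (v - V.P j v)) (hca0 j))]
    have hz : ∑ j ∈ W, cz j * ‖V.H i (V.P j v)‖ ^ 2
        = sb * ∑ j ∈ W, om (j - i) * ‖V.H i (V.P j v)‖ ^ 2 := by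
      rw [mul_sum]
      refine sum_congr rfl fun j _ => ?_
      rw [hcz]; ring
    have ha : ∑ j ∈ W, ca j * ‖V.H i (v - V.P j v)‖ ^ 2
        ≤ sb * ∑ j ∈ W, om (j - i) * V.b v j := by
      rw [mul_sum]
      refine sum_le_sum fun j hj => ?_
      have hj' := Finset.mem_Ico.1 hj
      have h2 := norm_H_sub_le V hv (i := i) (j := j) (by omega) (by omega)
      have h3 : sb * V.b v j / (1 - sb * V.b v j) ≤ V.b v j := by
        have hp := one_sub_pos V hv hsb0.le hsb1 j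
        rw [div_le_iff₀ hp]
        have hb1 := b_le_one V hv j
        have hb0 := b_nonneg V v j
        nlinarith [mul_nonneg hb0 hsb0.le, mul_nonneg hb0 (sub_nonneg.2 hb1),
          mul_nonneg (mul_nonneg hb0 hsb0.le) (sub_nonneg.2 hb1)]
      have h4 : 0 ≤ sb * V.b v j / (1 - sb * V.b v j) :=
        div_nonneg (mul_nonneg hsb0.le (b_nonneg V v j)) (one_sub_pos V hv hsb0.le hsb1 j).le
      rw [hca]
      have h5 : (om (j - i) * (sb * V.b v j / (1 - sb * V.b v j))) * ‖V.H i (v - V.P j v)‖ ^ 2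
          ≤ (om (j - i) * V.b v j) * 1 :=
        mul_le_mul (mul_le_mul_of_nonneg_left h3 (om_nonneg _)) h2 (sq_nonneg _)
          (mul_nonneg (om_nonneg _) (b_nonneg V v j))
      have h6 := mul_le_mul_of_nonneg_left h5 hsb0.le
      calc _ = sb * ((om (j - i) * (sb * V.b v j / (1 - sb * V.b v j)))
            * ‖V.H i (v - V.P j v)‖ ^ 2) := by ring
        _ ≤ _ := by linarith [h6]
    have t1 := trace_Z V hin v
    have t2 := trace_r V hin v
    have t3 := weights_le V hin v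
    rw [hz, t2]
    have t4 : sb * ‖V.Hi i v - V.H i v‖ ^ 2
        + sb * ∑ j ∈ W, om (j - i) * ‖V.H i (V.P j v)‖ ^ 2
        = sb * ∑ j ∈ W, om (j - i) * V.b v j := by
      rw [← mul_add, t1]
    have t5 := mul_le_mul_of_nonneg_left t3 hsb0.le
    have t6 : sb * (V.b v (i + 1) + 3 * ∑ j ∈ W, om (j - i) * V.b v j)
        = sb * (V.b v (i + 1) + ∑ j ∈ W, om (j - i) * V.b v j)
          + 2 * (sb * ∑ j ∈ W, om (j - i) * V.b v j) := by ring
    linarith

end Crest.Agent.R239.F5336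
end

-- ▼ part R239/MomF_764
section

/-! R239 (S0370): Gaussian integrals of `qf`, `qp` over `FDef` (helper764).
`x = V.H i g`, `ξ = ⟪v,x⟫`, `ζ_j = ⟪P_j v,x⟫`, `a_j = ⟪v - P_j v,x⟫`, `g ~ stdGaussian E`. -/

set_option autoImplicit false
set_option linter.unusedSectionVars false
open MeasureTheory ProbabilityTheory
open scoped RealInnerProductSpace BigOperators

namespace Crest.Agent.R239.MomF764

open Crest.Agent.R239 Crest.Agent.R239.FD

variable {E : Type*} [NormedAddCommGroup E] [InnerProductSpace ℝ E] [FiniteDimensional ℝ E]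
  [MeasurableSpace E] [BorelSpace E]

/-! ### bridges -/

lemma P_eq (V : Flag E) (j : ℕ) : V.P j = (V.M j).starProjection := rfl
lemma H_eq (V : Flag E) (i : ℕ) : V.H i = Mom764.H th V.M V.n i := rfl

lemma th_pos : 0 < th := by unfold th; norm_num
lemma th_le : th ≤ 1 := by unfold th; norm_num


lemma b_nonneg (V : Flag E) (v : E) (i : ℕ) : 0 ≤ V.b v i := sq_nonneg _
lemma b_le_one (V : Flag E) {v : E} (hv : ‖v‖ = 1) (i : ℕ) : V.b v i ≤ 1 := by
  unfold Flag.b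
  rw [P_eq]
  have h := (V.M i).norm_starProjection_apply_le v
  rw [hv] at h
  nlinarith [norm_nonneg ((V.M i).starProjection v)]
lemma BB_nonneg (V : Flag E) (v : E) (i : ℕ) : 0 ≤ BB V v i := by
  unfold BB
  exact Finset.sum_nonneg fun j _ => mul_nonneg (by positivity) (b_nonneg V v j)

/-! ### variances -/










/-! ### integrability -/



/-! ### exact values -/







/-! ### bounds -/








/-! ### the same on the law of level `i` -/





end Crest.Agent.R239.MomF764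
end

-- ▼ part R239/LevLo_696
section

/-! R239, block F6 (helper696): one level comparison at LOW levels (`i ≤ I`) and at BAD levels
(583's official order of cuts: the competitor of the tilted flag is not cut; first the comparison,
then the slab and the cap of `V` on the side of `V`). -/

set_option autoImplicit false
set_option linter.unusedSectionVars false
open MeasureTheory ProbabilityTheory Set Filter Topology Pointwise
open scoped RealInnerProductSpace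

namespace Crest.Agent.R239.LevLo696

open Crest.Agent.R239 (gau gau_real_apply)
open Crest.Agent.R239.FD
open Crest.Agent.R239.F6b696

variable {E : Type*} [NormedAddCommGroup E] [InnerProductSpace ℝ E] [FiniteDimensional ℝ E]
  [MeasurableSpace E] [BorelSpace E]




lemma lam_nonneg {p : Par} (hp : p.Ok) (i : ℕ) : 0 ≤ p.lam i := (Rem864.lam_pos hp i).le




/-- variance of `⟪v, ·⟫` at level `i` -/
lemma var_v_le (V : Flag E) (v : E) (i : ℕ) : ‖(V.H i).adjoint v‖ ^ 2 ≤ V.b v i := by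
  rcases le_total i V.n with hin | hin
  · have h1 : ‖(V.H i).adjoint v‖ ^ 2
        = ∑ j ∈ Finset.Ico i V.n, th ^ (2 * (j - i)) * ‖V.Q j v‖ ^ 2 := by
      rw [MomF764.H_eq, Mom764.adjoint_H, Mom764.norm_H_sq V.anti]; rfl
    have h2 : V.b v i = ∑ j ∈ Finset.Ico i V.n, ‖V.Q j v‖ ^ 2 := by
      have := Mom764.sum_norm_Q_sq V.anti hin v
      rw [V.bot V.n le_rfl] at this
      simp only [Submodule.starProjection_bot] at this
      unfold Flag.b
      rw [MomF764.P_eq]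
      have e : ∑ j ∈ Finset.Ico i V.n, ‖V.Q j v‖ ^ 2
          = ∑ j ∈ Finset.Ico i V.n, ‖Mom764.Q V.M j v‖ ^ 2 := rfl
      rw [e, this]; simp
    rw [h1, h2]
    refine Finset.sum_le_sum fun j _ => ?_
    have h3 : th ^ (2 * (j - i)) ≤ 1 := pow_le_one₀ MomF764.th_pos.le MomF764.th_le
    nlinarith [sq_nonneg ‖V.Q j v‖]
  · have h1 : V.H i = 0 := by
      unfold Flag.H
      rw [Finset.Ico_eq_empty (by omega), Finset.sum_empty]
    rw [h1]
    simp only [map_zero, _root_.zero_apply, norm_zero, ne_eq, OfNat.ofNat_ne_zero,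
      not_false_eq_true, zero_pow]
    exact MomF764.b_nonneg V v i





end Crest.Agent.R239.LevLo696
end

-- ▼ part R239/Mix1_614
section

/-!
# R239 : rank-one mixture lemma (MIX1) for the standard Gaussian

`K, Q, W` measurable, `(1/2) K + (1/2) Q ⊆ W`, `n` a unit vector, `0 ≤ s ≤ 1/4`,
`scl n c x = x + (c-1) ⟪n,x⟫ n`.  Then
`γ K * γ {x | scl n ((1-s)^(-1/2)) x ∈ Q} * exp (s/2 - (s+4s²)/2 * E_K ⟪n,·⟫²) ≤ (γ W)²`.
-/

set_option autoImplicit false
set_option linter.unusedSectionVars false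

open MeasureTheory ProbabilityTheory Set Filter Topology
open scoped RealInnerProductSpace ENNReal NNReal InnerProduct

namespace Crest.Agent.R239.Mix1_614

open Crest.Agent.R239 Crest.Agent.Lib.PrekopaLeindler

variable {E : Type*} [NormedAddCommGroup E] [InnerProductSpace ℝ E] [FiniteDimensional ℝ E]
  [MeasurableSpace E] [BorelSpace E]

/-- scaling by `c` in the direction `n` -/
noncomputable def scl (n : E) (c : ℝ) (x : E) : E := x + ((c - 1) * ⟪n, x⟫) • n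

lemma scl_line {n : E} (hn : ‖n‖ = 1) (c s : ℝ) (y : E) :
    scl n c (s • n + proj n y) = (c * s) • n + proj n y := by
  have h1 : ⟪n, s • n + proj n y⟫ = s := by
    rw [inner_add_right, inner_smul_right, inner_proj hn, real_inner_self_eq_norm_sq, hn]; ring
  rw [scl, h1]
  have : (c * s) • n = s • n + ((c - 1) * s) • n := by rw [← add_smul]; congr 1; ring
  rw [this]; abel

lemma inner_line {n : E} (hn : ‖n‖ = 1) (s : ℝ) (y : E) : ⟪n, s • n + proj n y⟫ = s := by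
  rw [inner_add_right, inner_smul_right, inner_proj hn, real_inner_self_eq_norm_sq, hn]; ring

lemma continuous_scl (n : E) (c : ℝ) : Continuous (scl n c) := by
  unfold scl; fun_prop

/-- the Gaussian density -/
lemma g1_lint (f : ℝ → ℝ≥0∞) (hf : Measurable f) :
    ∫⁻ s, f s ∂(gaussianReal 0 1) = ∫⁻ s, gaussianPDF 0 1 s * f s := by
  rw [gaussianReal_of_var_ne_zero _ one_ne_zero,
    lintegral_withDensity_eq_lintegral_mul _ (measurable_gaussianPDF _ _) hf]
  rfl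

/-- Gaussian integral over `E` as an integral over `ℝ × E` with Lebesgue measure in direction `n`. -/
lemma lint_prod {n : E} (hn : ‖n‖ = 1) (F : E → ℝ≥0∞) (hF : Measurable F) :
    ∫⁻ p : ℝ × E, gaussianPDF 0 1 p.1 * F (p.1 • n + proj n p.2) ∂(volume.prod (stdGaussian E))
      = ∫⁻ x, F x ∂(stdGaussian E) := by
  rw [line_lintegral hn hF, lintegral_prod_symm]
  · refine lintegral_congr fun y => ?_
    rw [g1_lint]
    exact hF.comp (by fun_prop)
  · refine Measurable.aemeasurable ?_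
    refine Measurable.mul ((measurable_gaussianPDF 0 1).comp measurable_fst) ?_
    exact hF.comp (by fun_prop)

/-- the one dimensional substitution -/
lemma oneD {s : ℝ} (hs : s < 1) (g : ℝ → ℝ≥0∞) (hg : Measurable g) :
    ∫⁻ b, gaussianPDF 0 1 b * (ENNReal.ofReal (Real.exp (s * b ^ 2 / 2)) * g b)
      = ENNReal.ofReal (1 / Real.sqrt (1 - s)) *
        ∫⁻ b, gaussianPDF 0 1 b * g ((1 / Real.sqrt (1 - s)) * b) := by
  have hs' : 0 < 1 - s := by linarith
  have hc0 : 0 < 1 / Real.sqrt (1 - s) := by positivity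
  have hc2 : (1 / Real.sqrt (1 - s)) ^ 2 * (1 - s) = 1 := by
    rw [div_pow, one_pow, Real.sq_sqrt hs'.le]
    field_simp
  generalize 1 / Real.sqrt (1 - s) = c at hc0 hc2 ⊢
  have hGm : Measurable fun b : ℝ =>
      gaussianPDF 0 1 b * (ENNReal.ofReal (Real.exp (s * b ^ 2 / 2)) * g b) :=
    (measurable_gaussianPDF 0 1).mul (Measurable.mul (by fun_prop) hg)
  conv_lhs => rw [← Real.smul_map_volume_mul_left hc0.ne']
  rw [lintegral_smul_measure, lintegral_map hGm (by fun_prop), abs_of_pos hc0, smul_eq_mul]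
  congr 1
  refine lintegral_congr fun b => ?_
  rw [← mul_assoc]
  congr 1
  unfold gaussianPDF
  rw [← ENNReal.ofReal_mul (gaussianPDFReal_nonneg _ _ _)]
  congr 1
  unfold gaussianPDFReal
  simp only [NNReal.coe_one, mul_one, sub_zero]
  rw [mul_assoc, ← Real.exp_add]
  congr 2
  have : (c * b) ^ 2 * (1 - s) = b ^ 2 := by
    calc (c * b) ^ 2 * (1 - s) = (c ^ 2 * (1 - s)) * b ^ 2 := by ring
      _ = b ^ 2 := by rw [hc2, one_mul]
  linarith

/-- the substitution `b -> c b` in direction `n` -/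
lemma lint_prod_scl {n : E} (hn : ‖n‖ = 1) {s : ℝ} (hs : s < 1) {Q : Set E}
    (hQ : MeasurableSet Q) :
    ∫⁻ p : ℝ × E, gaussianPDF 0 1 p.1 * (ENNReal.ofReal (Real.exp (s * p.1 ^ 2 / 2)) *
        Q.indicator 1 (p.1 • n + proj n p.2)) ∂(volume.prod (stdGaussian E))
      = ENNReal.ofReal (1 / Real.sqrt (1 - s)) *
        stdGaussian E {x | scl n (1 / Real.sqrt (1 - s)) x ∈ Q} := by
  have hm0 : Measurable fun p : ℝ × E => gaussianPDF 0 1 p.1 *
      (ENNReal.ofReal (Real.exp (s * p.1 ^ 2 / 2)) *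
        (Q.indicator 1 (p.1 • n + proj n p.2) : ℝ≥0∞)) := by
    refine Measurable.mul ((measurable_gaussianPDF 0 1).comp measurable_fst) ?_
    refine Measurable.mul (by fun_prop) ?_
    exact (measurable_one.indicator hQ).comp (measurable_line n)
  have hone := fun y : E => oneD hs (fun b => (Q.indicator 1 (b • n + proj n y) : ℝ≥0∞))
    ((measurable_one.indicator hQ).comp (by fun_prop))
  generalize 1 / Real.sqrt (1 - s) = c at hone ⊢
  have hQ2 : MeasurableSet {x : E | scl n c x ∈ Q} := (continuous_scl n c).measurable hQ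
  have hr : stdGaussian E {x | scl n c x ∈ Q}
      = ∫⁻ x, (Q.indicator 1 (scl n c x) : ℝ≥0∞) ∂(stdGaussian E) := by
    rw [← lintegral_indicator_one hQ2]
    rfl
  have hF : Measurable fun x : E => (Q.indicator 1 (scl n c x) : ℝ≥0∞) :=
    (measurable_one.indicator hQ).comp (continuous_scl n c).measurable
  rw [hr, ← lint_prod hn _ hF, lintegral_prod_symm _ hm0.aemeasurable, lintegral_prod_symm]
  swap
  · refine Measurable.aemeasurable ?_
    refine Measurable.mul ((measurable_gaussianPDF 0 1).comp measurable_fst) ?_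
    exact hF.comp (measurable_line n)
  rw [← lintegral_const_mul' _ _ ENNReal.ofReal_ne_top]
  refine lintegral_congr fun y => ?_
  have := hone y
  simp only [scl_line hn]
  exact this

/-- the key inequality -/
lemma key_ineq {s a b : ℝ} (_hs0 : 0 ≤ s) (hs : s ≤ 1 / 4) :
    s * b ^ 2 - (s + 4 * s ^ 2) * a ^ 2 ≤ (a - b) ^ 2 / 2 := by
  have h1 : 0 ≤ (2 * s * a - (b - a) / 2) ^ 2 := sq_nonneg _
  have h2 : 0 ≤ (1 / 4 - s) * (b - a) ^ 2 := mul_nonneg (by linarith) (sq_nonneg _)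
  nlinarith

theorem mix1_lint {K Q W : Set E} (hK : MeasurableSet K) (hQ : MeasurableSet Q)
    (hW : MeasurableSet W) (hsub : ∀ x ∈ K, ∀ y ∈ Q, (1 / 2 : ℝ) • x + (1 / 2 : ℝ) • y ∈ W)
    {n : E} (hn : ‖n‖ = 1) {s : ℝ} (hs0 : 0 ≤ s) (hs : s ≤ 1 / 4) :
    (∫⁻ x in K, ENNReal.ofReal (Real.exp (-((s + 4 * s ^ 2) * ⟪n, x⟫ ^ 2 / 2))) ∂(stdGaussian E)) *
      (ENNReal.ofReal (1 / Real.sqrt (1 - s)) *
        stdGaussian E {x | scl n (1 / Real.sqrt (1 - s)) x ∈ Q}) ≤ (stdGaussian E W) ^ 2 := by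
  have hPL : PL (ℝ × E) (volume.prod (stdGaussian E)) := PL.prod PL_real PL_std
  have hπ : Measurable fun p : ℝ × E => p.1 • n + proj n p.2 := measurable_line n
  set f : ℝ × E → ℝ≥0∞ := fun p => gaussianPDF 0 1 p.1 *
    (ENNReal.ofReal (Real.exp (-((s + 4 * s ^ 2) * p.1 ^ 2 / 2))) *
      K.indicator 1 (p.1 • n + proj n p.2)) with hf
  set g : ℝ × E → ℝ≥0∞ := fun p => gaussianPDF 0 1 p.1 *
    (ENNReal.ofReal (Real.exp (s * p.1 ^ 2 / 2)) *
      Q.indicator 1 (p.1 • n + proj n p.2)) with hg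
  set h : ℝ × E → ℝ≥0∞ := fun p => gaussianPDF 0 1 p.1 * W.indicator 1 (p.1 • n + proj n p.2)
    with hh
  have hfm : Measurable f :=
    ((measurable_gaussianPDF 0 1).comp measurable_fst).mul
      (Measurable.mul (by fun_prop) ((measurable_one.indicator hK).comp hπ))
  have hgm : Measurable g :=
    ((measurable_gaussianPDF 0 1).comp measurable_fst).mul
      (Measurable.mul (by fun_prop) ((measurable_one.indicator hQ).comp hπ))
  have hhm : Measurable h :=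
    ((measurable_gaussianPDF 0 1).comp measurable_fst).mul ((measurable_one.indicator hW).comp hπ)
  have H := hPL (1 / 2) (by norm_num) (by norm_num) f g h hfm hgm hhm (by
    rintro ⟨a, x⟩ ⟨b, y⟩
    have e12 : (1 : ℝ) - 1 / 2 = 1 / 2 := by norm_num
    rw [e12]
    by_cases hx : a • n + proj n x ∈ K
    swap
    · have : f (a, x) = 0 := by simp [hf, hx]
      rw [this, ENNReal.zero_rpow_of_pos (by norm_num), zero_mul]; exact zero_le
    by_cases hy : b • n + proj n y ∈ Q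
    swap
    · have : g (b, y) = 0 := by simp [hg, hy]
      rw [this, ENNReal.zero_rpow_of_pos (by norm_num), mul_zero]; exact zero_le
    have hm : (((1 / 2 : ℝ) • (a, x) + (1 / 2 : ℝ) • (b, y) : ℝ × E)).1 • n
        + proj n (((1 / 2 : ℝ) • (a, x) + (1 / 2 : ℝ) • (b, y) : ℝ × E)).2 ∈ W := by
      have := hsub _ hx _ hy
      convert this using 1
      simp only [Prod.smul_mk, Prod.mk_add_mk, map_add, map_smul, smul_eq_mul, add_smul, smul_add,
        mul_smul]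
      abel
    have hfv : f (a, x) = gaussianPDF 0 1 a *
        ENNReal.ofReal (Real.exp (-((s + 4 * s ^ 2) * a ^ 2 / 2))) := by
      simp [hf, hx]
    have hgv : g (b, y) = gaussianPDF 0 1 b * ENNReal.ofReal (Real.exp (s * b ^ 2 / 2)) := by
      simp [hg, hy]
    have hhv : h ((1 / 2 : ℝ) • (a, x) + (1 / 2 : ℝ) • (b, y))
        = gaussianPDF 0 1 (1 / 2 * a + 1 / 2 * b) := by
      simp only [hh]
      rw [Set.indicator_of_mem hm]
      simp
    rw [hfv, hgv, hhv]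
    unfold gaussianPDF
    rw [← ENNReal.ofReal_mul (gaussianPDFReal_nonneg _ _ _),
      ← ENNReal.ofReal_mul (gaussianPDFReal_nonneg _ _ _),
      ENNReal.ofReal_rpow_of_nonneg (mul_nonneg (gaussianPDFReal_nonneg _ _ _) (Real.exp_pos _).le)
        (by norm_num),
      ENNReal.ofReal_rpow_of_nonneg (mul_nonneg (gaussianPDFReal_nonneg _ _ _) (Real.exp_pos _).le)
        (by norm_num),
      ← ENNReal.ofReal_mul (by
        have := gaussianPDFReal_nonneg 0 1 a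
        positivity)]
    apply ENNReal.ofReal_le_ofReal
    unfold gaussianPDFReal
    simp only [NNReal.coe_one, mul_one, sub_zero]
    have hc : (0:ℝ) < (Real.sqrt (2 * Real.pi))⁻¹ := by positivity
    rw [mul_assoc, ← Real.exp_add, mul_assoc, ← Real.exp_add, Real.mul_rpow hc.le (Real.exp_pos _).le,
      Real.mul_rpow hc.le (Real.exp_pos _).le, ← Real.exp_mul, ← Real.exp_mul]
    have h3 : (Real.sqrt (2 * Real.pi))⁻¹ ^ (1 / 2 : ℝ) * (Real.sqrt (2 * Real.pi))⁻¹ ^ (1 / 2 : ℝ)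
        = (Real.sqrt (2 * Real.pi))⁻¹ := by
      rw [← Real.rpow_add hc]; norm_num
    calc _ = ((Real.sqrt (2 * Real.pi))⁻¹ ^ (1 / 2 : ℝ) * (Real.sqrt (2 * Real.pi))⁻¹ ^ (1 / 2 : ℝ)) *
          (Real.exp ((-a ^ 2 / 2 + -((s + 4 * s ^ 2) * a ^ 2 / 2)) * (1 / 2)) *
            Real.exp ((-b ^ 2 / 2 + s * b ^ 2 / 2) * (1 / 2))) := by ring
      _ ≤ _ := by
        rw [h3, ← Real.exp_add]
        refine mul_le_mul_of_nonneg_left (Real.exp_le_exp.2 ?_) hc.le
        have := key_ineq (a := a) (b := b) hs0 hs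
        nlinarith)
  have e1 : ∫⁻ p, f p ∂(volume.prod (stdGaussian E))
      = ∫⁻ x in K, ENNReal.ofReal (Real.exp (-((s + 4 * s ^ 2) * ⟪n, x⟫ ^ 2 / 2))) ∂(stdGaussian E) := by
    rw [← lintegral_indicator hK, ← lint_prod hn _ (Measurable.indicator (by fun_prop) hK)]
    refine lintegral_congr fun p => ?_
    simp only [hf]
    congr 1
    by_cases hx : p.1 • n + proj n p.2 ∈ K
    · rw [Set.indicator_of_mem hx, Set.indicator_of_mem hx, inner_line hn]
      simp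
    · rw [Set.indicator_of_notMem hx, Set.indicator_of_notMem hx, mul_zero]
  have e2 := lint_prod_scl (E := E) hn (by linarith : s < 1) hQ
  have e3 : ∫⁻ p, h p ∂(volume.prod (stdGaussian E)) = stdGaussian E W := by
    rw [← lintegral_indicator_one hW, ← lint_prod hn _ (measurable_one.indicator hW)]
  rw [e1, e2, e3] at H
  have e12 : (1 : ℝ) - 1 / 2 = 1 / 2 := by norm_num
  rw [e12, ← ENNReal.mul_rpow_of_nonneg _ _ (by norm_num)] at H
  have H2 := ENNReal.rpow_le_rpow H (by norm_num : (0:ℝ) ≤ 2)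
  have e22 : (1 / 2 : ℝ) * 2 = 1 := by norm_num
  rw [← ENNReal.rpow_mul, e22, ENNReal.rpow_one, ENNReal.rpow_two] at H2
  exact H2

theorem integrable_inner_sq (n : E) : Integrable (fun x : E => ⟪n, x⟫ ^ 2) (stdGaussian E) := by
  have h := (IsGaussian.memLp_id (stdGaussian E) 2 (by simp))
  have h2 : MemLp (fun x : E => ⟪n, x⟫) 2 (stdGaussian E) := h.const_inner n
  exact h2.integrable_sq

/-- **MIX1**: rank-one mixture lemma. -/
theorem mix1 {K Q W : Set E} (hK : MeasurableSet K) (hQ : MeasurableSet Q)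
    (hW : MeasurableSet W) (hsub : ∀ x ∈ K, ∀ y ∈ Q, (1 / 2 : ℝ) • x + (1 / 2 : ℝ) • y ∈ W)
    {n : E} (hn : ‖n‖ = 1) {s : ℝ} (hs0 : 0 ≤ s) (hs : s ≤ 1 / 4)
    (hKpos : 0 < (stdGaussian E).real K) :
    (stdGaussian E).real K * (stdGaussian E).real {x | scl n (1 / Real.sqrt (1 - s)) x ∈ Q} *
      Real.exp (s / 2 - (s + 4 * s ^ 2) / 2 *
        ((∫ x in K, ⟪n, x⟫ ^ 2 ∂(stdGaussian E)) / (stdGaussian E).real K))
      ≤ ((stdGaussian E).real W) ^ 2 := by
  set eK : ℝ := (∫ x in K, ⟪n, x⟫ ^ 2 ∂(stdGaussian E)) / (stdGaussian E).real K with heK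
  set r : ℝ := (s + 4 * s ^ 2) / 2 with hr
  have hs' : 0 < 1 - s := by linarith
  have H := mix1_lint hK hQ hW hsub hn hs0 hs
  have hi2 : Integrable (fun x : E => ⟪n, x⟫ ^ 2) ((stdGaussian E).restrict K) :=
    (integrable_inner_sq n).restrict
  have hiexp : Integrable (fun x : E => Real.exp (-((s + 4 * s ^ 2) * ⟪n, x⟫ ^ 2 / 2)))
      ((stdGaussian E).restrict K) := by
    refine Integrable.mono' (integrable_const 1) (by fun_prop) (Eventually.of_forall fun x => ?_)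
    rw [Real.norm_eq_abs, abs_of_pos (Real.exp_pos _)]
    refine Real.exp_le_one_iff.2 ?_
    have : 0 ≤ (s + 4 * s ^ 2) * ⟪n, x⟫ ^ 2 / 2 := by positivity
    linarith
  -- Jensen
  have hJ : Real.exp (-(r * eK)) * (stdGaussian E).real K ≤
      ∫ x in K, Real.exp (-((s + 4 * s ^ 2) * ⟪n, x⟫ ^ 2 / 2)) ∂(stdGaussian E) := by
    have h1 : ∀ x : E, Real.exp (-(r * eK)) * (1 + (r * eK - r * ⟪n, x⟫ ^ 2)) ≤
        Real.exp (-((s + 4 * s ^ 2) * ⟪n, x⟫ ^ 2 / 2)) := by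
      intro x
      have e : -((s + 4 * s ^ 2) * ⟪n, x⟫ ^ 2 / 2) = -(r * eK) + (r * eK - r * ⟪n, x⟫ ^ 2) := by
        rw [hr]; ring
      rw [e, Real.exp_add]
      refine mul_le_mul_of_nonneg_left ?_ (Real.exp_pos _).le
      have := Real.add_one_le_exp (r * eK - r * ⟪n, x⟫ ^ 2)
      linarith
    have hi3 : Integrable (fun x : E => r * ⟪n, x⟫ ^ 2) ((stdGaussian E).restrict K) :=
      hi2.const_mul r
    have hi4 : Integrable (fun x : E => (1 + r * eK) - r * ⟪n, x⟫ ^ 2) ((stdGaussian E).restrict K) :=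
      (integrable_const _).sub hi3
    have h2 : ∫ x in K, Real.exp (-(r * eK)) * ((1 + r * eK) - r * ⟪n, x⟫ ^ 2) ∂(stdGaussian E) ≤
        ∫ x in K, Real.exp (-((s + 4 * s ^ 2) * ⟪n, x⟫ ^ 2 / 2)) ∂(stdGaussian E) :=
      integral_mono (hi4.const_mul _) hiexp (fun x => by
        have := h1 x
        have e : (1 + r * eK) - r * ⟪n, x⟫ ^ 2 = 1 + (r * eK - r * ⟪n, x⟫ ^ 2) := by ring
        simp only [e]
        exact this)
    refine le_trans (le_of_eq ?_) h2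
    rw [integral_const_mul, integral_sub (integrable_const _) hi3, integral_const_mul]
    simp only [integral_const, smul_eq_mul, measureReal_restrict_apply_univ]
    rw [heK]
    field_simp
    ring
  -- to real numbers
  have hK1 : ∫⁻ x in K, ENNReal.ofReal (Real.exp (-((s + 4 * s ^ 2) * ⟪n, x⟫ ^ 2 / 2))) ∂(stdGaussian E)
      = ENNReal.ofReal (∫ x in K, Real.exp (-((s + 4 * s ^ 2) * ⟪n, x⟫ ^ 2 / 2)) ∂(stdGaussian E)) :=
    (ofReal_integral_eq_lintegral_ofReal hiexp (Eventually.of_forall fun x => (Real.exp_pos _).le)).symm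
  rw [hK1] at H
  have H' := ENNReal.toReal_mono (by finiteness) H
  rw [ENNReal.toReal_mul, ENNReal.toReal_mul,
    ENNReal.toReal_ofReal (integral_nonneg fun x => (Real.exp_pos _).le),
    ENNReal.toReal_ofReal (by positivity), ENNReal.toReal_pow] at H'
  have hsq : Real.exp (s / 2) ≤ 1 / Real.sqrt (1 - s) := by
    rw [le_div_iff₀ (Real.sqrt_pos.2 hs')]
    have h1 : Real.sqrt (1 - s) ≤ Real.exp (-(s / 2)) := by
      rw [Real.sqrt_le_left (Real.exp_pos _).le, ← Real.exp_nat_mul]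
      have := Real.add_one_le_exp (-s)
      have e : ((2 : ℕ) : ℝ) * -(s / 2) = -s := by push_cast; ring
      rw [e]; linarith
    calc Real.exp (s / 2) * Real.sqrt (1 - s) ≤ Real.exp (s / 2) * Real.exp (-(s / 2)) :=
          mul_le_mul_of_nonneg_left h1 (Real.exp_pos _).le
      _ = 1 := by rw [← Real.exp_add]; simp
  have hQn : 0 ≤ (stdGaussian E).real {x | scl n (1 / Real.sqrt (1 - s)) x ∈ Q} := measureReal_nonneg
  have e4 : s / 2 - r * eK = s / 2 + -(r * eK) := by ring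
  rw [e4, Real.exp_add]
  calc (stdGaussian E).real K * (stdGaussian E).real {x | scl n (1 / Real.sqrt (1 - s)) x ∈ Q} *
        (Real.exp (s / 2) * Real.exp (-(r * eK)))
      = (Real.exp (-(r * eK)) * (stdGaussian E).real K) * (Real.exp (s / 2) *
        (stdGaussian E).real {x | scl n (1 / Real.sqrt (1 - s)) x ∈ Q}) := by ring
    _ ≤ (∫ x in K, Real.exp (-((s + 4 * s ^ 2) * ⟪n, x⟫ ^ 2 / 2)) ∂(stdGaussian E)) *
        (1 / Real.sqrt (1 - s) *
          (stdGaussian E).real {x | scl n (1 / Real.sqrt (1 - s)) x ∈ Q}) := by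
        refine mul_le_mul hJ (mul_le_mul_of_nonneg_right hsq hQn) (by positivity)
          (integral_nonneg fun x => (Real.exp_pos _).le)
    _ ≤ _ := H'

end Crest.Agent.R239.Mix1_614
end

-- ▼ part R239/CmpR_174
section

/-! R239 (583's proof, version T1-B), helper174: comparison lemma (CMP) and its rank-one gain
version (CMP1), for `stdGaussian`. -/

set_option autoImplicit false
set_option linter.unusedSectionVars false
open MeasureTheory ProbabilityTheory Set Filter Topology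
open scoped RealInnerProductSpace ENNReal NNReal InnerProduct

namespace Crest.Agent.R239.CmpR174

open Crest.Agent.R239

variable {E : Type*} [NormedAddCommGroup E] [InnerProductSpace ℝ E] [FiniteDimensional ℝ E]
  [MeasurableSpace E] [BorelSpace E]
variable {F : Type*} [NormedAddCommGroup F] [InnerProductSpace ℝ F] [FiniteDimensional ℝ F]
  [MeasurableSpace F] [BorelSpace F]
variable {G : Type*} [NormedAddCommGroup G] [InnerProductSpace ℝ G] [FiniteDimensional ℝ G]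
  [MeasurableSpace G] [BorelSpace G]

lemma gau_neg (A : F →L[ℝ] E) : gau (-A) = gau A := by
  apply gau_ext
  intro t
  rw [map_neg, ContinuousLinearMap.neg_apply, norm_neg]

/-- shifting a symmetric convex set away from the centre loses mass -/
theorem gau_shift_le (A : F →L[ℝ] E) {K : Set E} (hK : MeasurableSet K) (cK : Convex ℝ K)
    (sK : ∀ x ∈ K, -x ∈ K) (y : E) : gau A {z | y + z ∈ K} ≤ gau A K := by
  have hm : ∀ w : E, MeasurableSet {z : E | w + z ∈ K} := fun w =>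
    (by fun_prop : Measurable fun z : E => w + z) hK
  have hS : ∀ w : E, MeasurableSet {x : F | w + A x ∈ K} := fun w =>
    (by fun_prop : Measurable fun x : F => w + A x) hK
  have e1 : ∀ w : E, gau A {z | w + z ∈ K} = stdGaussian F {x | w + A x ∈ K} := by
    intro w
    rw [gau_apply A (hm w)]
    rfl
  have e2 : gau A {z | -y + z ∈ K} = gau A {z | y + z ∈ K} := by
    conv_lhs => rw [← gau_neg A]
    rw [gau_apply _ (hm (-y)), e1 y]
    congr 1
    ext x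
    simp only [mem_preimage, mem_setOf_eq, ContinuousLinearMap.neg_apply]
    constructor
    · intro h
      have := sK _ h
      simpa [neg_add_rev, add_comm] using this
    · intro h
      have := sK _ h
      simpa [neg_add_rev, add_comm] using this
  have hpl := PL_std (E := F) (1/2) (by norm_num) (by norm_num)
    (indicator {x : F | y + A x ∈ K} 1) (indicator {x : F | -y + A x ∈ K} 1)
    (indicator {x : F | (0 : E) + A x ∈ K} 1)
    (measurable_one.indicator (hS y)) (measurable_one.indicator (hS (-y)))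
    (measurable_one.indicator (hS 0)) (by
      intro x x'
      by_cases h1 : x ∈ {x : F | y + A x ∈ K}
      · by_cases h2 : x' ∈ {x : F | -y + A x ∈ K}
        · have h3 : ((1 - (1/2:ℝ)) • x + (1/2:ℝ) • x') ∈ {x : F | (0 : E) + A x ∈ K} := by
            have := cK h1 h2 (by norm_num : (0:ℝ) ≤ 1/2) (by norm_num : (0:ℝ) ≤ 1/2)
              (by norm_num)
            simp only [mem_setOf_eq, zero_add, map_add, map_smul]
            convert this using 1
            rw [smul_add, smul_add, smul_neg]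
            norm_num
            abel
          rw [indicator_of_mem h1, indicator_of_mem h2, indicator_of_mem h3]
          simp
        · rw [indicator_of_notMem h2]
          rw [ENNReal.zero_rpow_of_pos (by norm_num)]
          simp
      · rw [indicator_of_notMem h1]
        rw [ENNReal.zero_rpow_of_pos (by norm_num)]
        simp)
  rw [lintegral_indicator_one (hS y), lintegral_indicator_one (hS (-y)),
    lintegral_indicator_one (hS 0), ← e1, ← e1, ← e1, e2] at hpl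
  have e0 : {z : E | (0 : E) + z ∈ K} = K := by ext z; simp
  rw [e0] at hpl
  refine le_trans (le_of_eq ?_) hpl
  rw [← ENNReal.rpow_add_of_nonneg _ _ (by norm_num) (by norm_num)]
  norm_num

/-- Anderson: a smaller covariance gives more mass to symmetric convex sets. -/
theorem gau_mono_sym {S : F →L[ℝ] E} {C : G →L[ℝ] E} (h : ∀ t, ‖S.adjoint t‖ ≤ ‖C.adjoint t‖)
    {K : Set E} (hK : MeasurableSet K) (cK : Convex ℝ K) (sK : ∀ x ∈ K, -x ∈ K) :
    gau C K ≤ gau S K := by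
  obtain ⟨D, hD⟩ := exists_complement S C h
  rw [gau_mix' (A := D) (B := S) (C := C) (fun t => by rw [← hD t]; ring) hK]
  calc ∫⁻ x, gau S {z | x + z ∈ K} ∂(gau D) ≤ ∫⁻ _, gau S K ∂(gau D) :=
        lintegral_mono fun x => gau_shift_le S hK cK sK x
    _ = gau S K := by simp

/-- scaling by `c` along the unit vector `n` -/
noncomputable def Sc (n : E) (c : ℝ) : E →L[ℝ] E :=
  ContinuousLinearMap.id ℝ E + (c - 1) • ((ContinuousLinearMap.toSpanSingleton ℝ n) ∘L (innerSL ℝ n))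

lemma Sc_apply (n : E) (c : ℝ) (x : E) : Sc n c x = x + ((c - 1) * ⟪n, x⟫) • n := by
  simp [Sc, ContinuousLinearMap.toSpanSingleton_apply, smul_smul, innerSL_apply_apply]

lemma inner_Sc_comm (n : E) (c : ℝ) (x y : E) : ⟪Sc n c x, y⟫ = ⟪x, Sc n c y⟫ := by
  rw [Sc_apply, Sc_apply, inner_add_left, inner_add_right, inner_smul_left, inner_smul_right]
  simp only [conj_trivial]
  have : ⟪x, n⟫ = ⟪n, x⟫ := real_inner_comm _ _
  rw [this]
  ring

lemma norm_Sc_sq {n : E} (hn : ‖n‖ = 1) (c : ℝ) (x : E) :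
    ‖Sc n c x‖ ^ 2 = ‖x‖ ^ 2 + (c ^ 2 - 1) * ⟪n, x⟫ ^ 2 := by
  rw [Sc_apply, norm_add_sq_real, norm_smul, inner_smul_right, hn, real_inner_comm n x,
    Real.norm_eq_abs, mul_one, sq_abs]
  ring

lemma inner_n_Sc {n : E} (hn : ‖n‖ = 1) (c : ℝ) (x : E) : ⟪n, Sc n c x⟫ = c * ⟪n, x⟫ := by
  rw [Sc_apply, inner_add_right, inner_smul_right, real_inner_self_eq_norm_sq, hn]
  ring

lemma Sc_line {n : E} (hn : ‖n‖ = 1) (c s : ℝ) (y : E) :
    Sc n c (s • n + proj n y) = (c * s) • n + proj n y := by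
  rw [Sc_apply, inner_add_right, inner_smul_right, real_inner_self_eq_norm_sq, hn,
    inner_proj hn]
  module

/-- one dimensional scaling identity -/
lemma scale_1d {c τ : ℝ} (hc : 0 < c) (hτ : c ^ 2 * (1 + τ) = 1) {f : ℝ → ℝ≥0∞}
    (hf : Measurable f) :
    ∫⁻ s, f (c * s) ∂(gaussianReal 0 1)
      = ENNReal.ofReal c⁻¹ * ∫⁻ t, f t * ENNReal.ofReal (Real.exp (-(τ * t ^ 2 / 2)))
          ∂(gaussianReal 0 1) := by
  have h1 : ∫⁻ s, f (c * s) ∂(gaussianReal 0 1)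
      = ∫⁻ t, f t ∂(gaussianReal 0 (NNReal.mk (c ^ 2) (sq_nonneg c) * 1)) := by
    have := gaussianReal_map_const_mul (μ := 0) (v := 1) c
    rw [mul_zero] at this
    rw [← this, lintegral_map hf (by fun_prop)]
  have hv : (NNReal.mk (c ^ 2) (sq_nonneg c) * 1 : ℝ≥0) ≠ 0 := by
    rw [mul_one]
    intro h
    have := congrArg NNReal.toReal h
    simp at this
    exact hc.ne' this
  rw [h1, gaussianReal_of_var_ne_zero 0 hv, gaussianReal_of_var_ne_zero 0 one_ne_zero,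
    lintegral_withDensity_eq_lintegral_mul _ (measurable_gaussianPDF _ _) hf,
    lintegral_withDensity_eq_lintegral_mul _ (measurable_gaussianPDF _ _) (by fun_prop),
    ← lintegral_const_mul _ (by fun_prop)]
  refine lintegral_congr fun t => ?_
  simp only [Pi.mul_apply, gaussianPDF]
  have key : gaussianPDFReal 0 (NNReal.mk (c ^ 2) (sq_nonneg c) * 1) t
      = c⁻¹ * (gaussianPDFReal 0 1 t * Real.exp (-(τ * t ^ 2 / 2))) := by
    simp only [gaussianPDFReal, NNReal.coe_one, mul_one, sub_zero, NNReal.coe_mk]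
    have e1 : Real.sqrt (2 * Real.pi * c ^ 2) = Real.sqrt (2 * Real.pi) * c := by
      rw [Real.sqrt_mul (by positivity), Real.sqrt_sq hc.le]
    rw [e1, mul_inv]
    have e2 : Real.exp (-t ^ 2 / (2 * c ^ 2))
        = Real.exp (-t ^ 2 / 2) * Real.exp (-(τ * t ^ 2 / 2)) := by
      rw [← Real.exp_add]
      congr 1
      have hc2 : c ^ 2 ≠ 0 := by positivity
      have : 1 / c ^ 2 = 1 + τ := by
        field_simp
        linarith
      have e3 : -t ^ 2 / (2 * c ^ 2) = -t ^ 2 / 2 * (1 / c ^ 2) := by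
        field_simp
      rw [e3, this]
      ring
    rw [e2]
    ring
  rw [key, ENNReal.ofReal_mul (by positivity), ENNReal.ofReal_mul (gaussianPDFReal_nonneg _ _ _)]
  ring

/-- scaling identity along a unit vector -/
theorem scale_lintegral {n : E} (hn : ‖n‖ = 1) {c τ : ℝ} (hc : 0 < c) (hτ : c ^ 2 * (1 + τ) = 1)
    {f : E → ℝ≥0∞} (hf : Measurable f) :
    ∫⁻ x, f (Sc n c x) ∂(stdGaussian E)
      = ENNReal.ofReal c⁻¹ * ∫⁻ x, f x * ENNReal.ofReal (Real.exp (-(τ * ⟪n, x⟫ ^ 2 / 2)))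
          ∂(stdGaussian E) := by
  have hm1 : Measurable fun x : E => f (Sc n c x) := hf.comp (Sc n c).continuous.measurable
  have hm2 : Measurable fun x : E =>
      f x * ENNReal.ofReal (Real.exp (-(τ * ⟪n, x⟫ ^ 2 / 2))) := by fun_prop
  rw [line_lintegral hn hm1, line_lintegral hn hm2, ← lintegral_const_mul _ ?_]
  · refine lintegral_congr fun y => ?_
    have h := scale_1d hc hτ (f := fun t => f (t • n + proj n y)) (by fun_prop)
    simp only [Sc_line hn]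
    rw [h]
    congr 1
    refine lintegral_congr fun t => ?_
    rw [inner_add_right, inner_smul_right, real_inner_self_eq_norm_sq, hn, inner_proj hn]
    ring_nf
  · exact Measurable.lintegral_prod_left'
      (f := fun p : ℝ × E => f (p.1 • n + proj n p.2) *
        ENNReal.ofReal (Real.exp (-(τ * ⟪n, p.1 • n + proj n p.2⟫ ^ 2 / 2))))
      (hm2.comp (measurable_line n))

theorem scale_measure {n : E} (hn : ‖n‖ = 1) {c τ : ℝ} (hc : 0 < c) (hτ : c ^ 2 * (1 + τ) = 1)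
    {A : Set E} (hA : MeasurableSet A) :
    stdGaussian E (Sc n c ⁻¹' A)
      = ENNReal.ofReal c⁻¹ * ∫⁻ x in A, ENNReal.ofReal (Real.exp (-(τ * ⟪n, x⟫ ^ 2 / 2)))
          ∂(stdGaussian E) := by
  have h := scale_lintegral hn hc hτ (f := A.indicator 1) (measurable_one.indicator hA)
  have e1 : (fun x => A.indicator (1 : E → ℝ≥0∞) (Sc n c x)) = (Sc n c ⁻¹' A).indicator 1 := by
    ext x
    by_cases hx : Sc n c x ∈ A
    · rw [indicator_of_mem hx, indicator_of_mem (show x ∈ Sc n c ⁻¹' A from hx)]; rfl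
    · rw [indicator_of_notMem hx, indicator_of_notMem (show x ∉ Sc n c ⁻¹' A from hx)]
  rw [e1, lintegral_indicator_one ((Sc n c).continuous.measurable hA)] at h
  rw [h, ← lintegral_indicator hA]
  congr 1
  refine lintegral_congr fun x => ?_
  by_cases hx : x ∈ A
  · simp [indicator_of_mem hx]
  · simp [indicator_of_notMem hx]

theorem scale_le {n : E} (hn : ‖n‖ = 1) {c τ : ℝ} (hc : 0 < c) (hτ0 : 0 ≤ τ)
    (hτ : c ^ 2 * (1 + τ) = 1) {A : Set E} (hA : MeasurableSet A) :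
    stdGaussian E (Sc n c ⁻¹' A) ≤ ENNReal.ofReal c⁻¹ * stdGaussian E A := by
  rw [scale_measure hn hc hτ hA]
  gcongr
  calc ∫⁻ x in A, ENNReal.ofReal (Real.exp (-(τ * ⟪n, x⟫ ^ 2 / 2))) ∂(stdGaussian E)
      ≤ ∫⁻ _ in A, 1 ∂(stdGaussian E) := by
        refine lintegral_mono fun x => ?_
        rw [← ENNReal.ofReal_one]
        apply ENNReal.ofReal_le_ofReal
        rw [Real.exp_le_one_iff]
        have : 0 ≤ τ * ⟪n, x⟫ ^ 2 / 2 := by positivity
        linarith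
    _ = stdGaussian E A := by simp

/-- `|R g| ≤ |g|` : contraction case of the comparison lemma -/
theorem cmp_contr (R : E →L[ℝ] G) (hR : ∀ g, ‖R g‖ ^ 2 ≤ ‖g‖ ^ 2) {K : Set G}
    (hK : MeasurableSet K) (cK : Convex ℝ K) (sK : ∀ x ∈ K, -x ∈ K) :
    stdGaussian G K ≤ stdGaussian E (R ⁻¹' K) := by
  have h1 : ‖R‖ ≤ 1 := ContinuousLinearMap.opNorm_le_bound _ zero_le_one fun g => by
    have := abs_le_of_sq_le_sq (hR g) (norm_nonneg g)
    rw [one_mul]
    exact (le_abs_self _).trans (by simpa using this)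
  have h2 := gau_mono_sym (S := R) (C := ContinuousLinearMap.id ℝ G) (by
    intro t
    rw [adjoint_id', ContinuousLinearMap.id_apply]
    calc ‖R.adjoint t‖ ≤ ‖R.adjoint‖ * ‖t‖ := ContinuousLinearMap.le_opNorm _ _
      _ ≤ 1 * ‖t‖ := by
          gcongr
          simpa using h1
      _ = ‖t‖ := one_mul _) hK cK sK
  rwa [gau_id, gau_apply R hK] at h2

/-- **(CMP)** pull-back comparison, quadratic excess a finite sum of squares. -/
theorem cmp_enn {ι : Type*} [DecidableEq ι] (s : Finset ι) : ∀ (u : ι → E) (R : E →L[ℝ] G)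
    (_ : ∀ g, ‖R g‖ ^ 2 ≤ ‖g‖ ^ 2 + ∑ k ∈ s, ⟪u k, g⟫ ^ 2) {K : Set G}
    (_ : MeasurableSet K) (_ : Convex ℝ K) (_ : ∀ x ∈ K, -x ∈ K),
    stdGaussian G K
      ≤ ENNReal.ofReal (Real.exp ((∑ k ∈ s, ‖u k‖ ^ 2) / 2)) * stdGaussian E (R ⁻¹' K) := by
  induction s using Finset.induction_on with
  | empty =>
    intro u R hR K hK cK sK
    simp only [Finset.sum_empty, add_zero] at hR
    simpa using cmp_contr R hR hK cK sK
  | insert a s ha ih =>
    intro u R hR K hK cK sK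
    simp only [Finset.sum_insert ha] at hR ⊢
    by_cases hu : u a = 0
    · have := ih u R (fun g => by simpa [hu] using hR g) hK cK sK
      simpa [hu] using this
    set τ : ℝ := ‖u a‖ ^ 2 with hτdef
    have hτ0 : 0 ≤ τ := by positivity
    set c : ℝ := (Real.sqrt (1 + τ))⁻¹ with hcdef
    have hsq : 0 < Real.sqrt (1 + τ) := Real.sqrt_pos.2 (by linarith)
    have hc : 0 < c := inv_pos.2 hsq
    have hc2 : c ^ 2 * (1 + τ) = 1 := by
      rw [hcdef, inv_pow, Real.sq_sqrt (by linarith)]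
      exact inv_mul_cancel₀ (by linarith)
    have hna : ‖u a‖ ≠ 0 := by simpa using hu
    set n : E := (‖u a‖)⁻¹ • u a with hndef
    have hn : ‖n‖ = 1 := by
      rw [hndef, norm_smul, norm_inv, norm_norm]
      exact inv_mul_cancel₀ hna
    have hun : u a = ‖u a‖ • n := by
      rw [hndef, smul_smul, mul_inv_cancel₀ hna, one_smul]
    have hinner : ∀ g, ⟪u a, g⟫ ^ 2 = τ * ⟪n, g⟫ ^ 2 := by
      intro g
      conv_lhs => rw [hun, inner_smul_left]
      simp only [conj_trivial]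
      rw [mul_pow]
    have hS : ∀ g, ‖Sc n c g‖ ^ 2 + ⟪u a, Sc n c g⟫ ^ 2 = ‖g‖ ^ 2 := by
      intro g
      rw [hinner, norm_Sc_sq hn, inner_n_Sc hn, mul_pow]
      linear_combination ⟪n, g⟫ ^ 2 * hc2
    have h1 := ih (fun k => Sc n c (u k)) (R ∘L Sc n c) (by
      intro g
      have h2 := hR (Sc n c g)
      have h3 : ∀ k, ⟪Sc n c (u k), g⟫ = ⟪u k, Sc n c g⟫ := fun k => inner_Sc_comm n c _ _
      simp only [ContinuousLinearMap.comp_apply, h3]
      linarith [hS g]) hK cK sK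
    have hnorm : ∑ k ∈ s, ‖Sc n c (u k)‖ ^ 2 ≤ ∑ k ∈ s, ‖u k‖ ^ 2 := by
      refine Finset.sum_le_sum fun k _ => ?_
      linarith [hS (u k), sq_nonneg ⟪u a, Sc n c (u k)⟫]
    have h4 := scale_le hn hc hτ0 hc2 (A := R ⁻¹' K) (R.continuous.measurable hK)
    have h5 : c⁻¹ ≤ Real.exp (τ / 2) := by
      rw [hcdef, inv_inv, Real.sqrt_le_left (Real.exp_pos _).le, ← Real.exp_nat_mul]
      have := Real.add_one_le_exp τ
      push_cast
      calc 1 + τ ≤ Real.exp τ := by linarith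
        _ = Real.exp (2 * (τ / 2)) := by congr 1; ring
    calc stdGaussian G K
        ≤ ENNReal.ofReal (Real.exp ((∑ k ∈ s, ‖Sc n c (u k)‖ ^ 2) / 2))
            * stdGaussian E ((R ∘L Sc n c) ⁻¹' K) := h1
      _ ≤ ENNReal.ofReal (Real.exp ((∑ k ∈ s, ‖u k‖ ^ 2) / 2))
            * (ENNReal.ofReal (Real.exp (τ / 2)) * stdGaussian E (R ⁻¹' K)) := by
          gcongr
          refine le_trans (le_of_eq ?_) (h4.trans ?_)
          · rfl
          · gcongr
      _ = ENNReal.ofReal (Real.exp ((τ + ∑ k ∈ s, ‖u k‖ ^ 2) / 2))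
            * stdGaussian E (R ⁻¹' K) := by
          rw [← mul_assoc, ← ENNReal.ofReal_mul (Real.exp_pos _).le, ← Real.exp_add]
          congr 3
          ring

theorem cmp {ι : Type*} (s : Finset ι) (u : ι → E) (R : E →L[ℝ] G)
    (hR : ∀ g, ‖R g‖ ^ 2 ≤ ‖g‖ ^ 2 + ∑ k ∈ s, ⟪u k, g⟫ ^ 2) {K : Set G}
    (hK : MeasurableSet K) (cK : Convex ℝ K) (sK : ∀ x ∈ K, -x ∈ K) :
    Real.exp (-((∑ k ∈ s, ‖u k‖ ^ 2) / 2)) * (stdGaussian G).real K
      ≤ (stdGaussian E).real (R ⁻¹' K) := by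
  classical
  have h := cmp_enn s u R hR hK cK sK
  have h2 := ENNReal.toReal_mono (by finiteness) h
  rw [ENNReal.toReal_mul, ENNReal.toReal_ofReal (Real.exp_pos _).le] at h2
  change (stdGaussian G).real K ≤ _ * (stdGaussian E).real (R ⁻¹' K) at h2
  rw [Real.exp_neg, inv_mul_le_iff₀ (Real.exp_pos _)]
  exact h2



end Crest.Agent.R239.CmpR174
end

-- ▼ part R239/Rem_603
section

/-! helper603, R239 leaf REM: the three 1-D Gaussian slab bounds (r1)-(r3).

`slab v t := P(|ξ| ≤ t)`, `ξ ~ N(0,v)`, `v ≤ 1`. -/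

set_option autoImplicit false
open MeasureTheory ProbabilityTheory Set Filter Topology
open scoped RealInnerProductSpace ENNReal NNReal

namespace Crest.Agent.R239.Rem603

open Crest.Agent.Lib.Ehrhard (phi Phi Psi)

/-- `P(|ξ| ≤ t)` for `ξ ~ N(0,v)`. -/
noncomputable def slab (v : ℝ≥0) (t : ℝ) : ℝ := (gaussianReal 0 v).real (Icc (-t) t)



lemma slab_mono (v : ℝ≥0) {s t : ℝ} (h : s ≤ t) : slab v s ≤ slab v t :=
  measureReal_mono (Icc_subset_Icc (by linarith) h)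

lemma gaussian_scale (v : ℝ≥0) :
    gaussianReal 0 v = (gaussianReal 0 1).map (fun x => Real.sqrt v * x) := by
  rw [gaussianReal_map_const_mul]
  congr 1
  · simp
  · ext
    simp

lemma slab_eq (v : ℝ≥0) (t : ℝ) :
    slab v t = (gaussianReal 0 1).real {x | |Real.sqrt v * x| ≤ t} := by
  unfold slab
  rw [gaussian_scale, Measure.real, Measure.map_apply (by fun_prop) measurableSet_Icc]
  congr 2
  ext x
  simp only [mem_preimage, mem_Icc, mem_ofPred_eq, abs_le]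


lemma slab_anti {v w : ℝ≥0} (h : v ≤ w) (t : ℝ) : slab w t ≤ slab v t := by
  rw [slab_eq, slab_eq]
  refine measureReal_mono fun x hx => ?_
  simp only [mem_ofPred_eq] at hx ⊢
  refine le_trans ?_ hx
  rw [abs_mul, abs_mul, abs_of_nonneg (Real.sqrt_nonneg _), abs_of_nonneg (Real.sqrt_nonneg _)]
  exact mul_le_mul_of_nonneg_right (Real.sqrt_le_sqrt (by exact_mod_cast h)) (abs_nonneg _)

/-- small ball: `P(|g| ≤ t) ≥ t / e` for `0 ≤ t ≤ 1`. -/
lemma slab_small {t : ℝ} (h0 : 0 ≤ t) (h1 : t ≤ 1) : t * Real.exp (-1) ≤ slab 1 t := by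
  unfold slab
  have hval : (gaussianReal 0 1).real (Icc (-t) t) = ∫ x in Icc (-t) t, phi x := by
    rw [Measure.real, gaussianReal_apply_eq_integral _ one_ne_zero, ENNReal.toReal_ofReal]
    · rw [← Crest.Agent.Lib.Ehrhard.phi_eq]
    · exact integral_nonneg fun x => gaussianPDFReal_nonneg _ _ _
  rw [hval]
  have hc : Real.exp (-1) ≤ 2 * ((Real.sqrt (2 * Real.pi))⁻¹ * Real.exp (-(1/2))) := by
    have h2 : Real.sqrt (2 * Real.pi) ≤ 2 * Real.exp (1/2) := by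
      have h3 : Real.sqrt (2 * Real.pi) ≤ 3 := by
        rw [Real.sqrt_le_left (by norm_num)]
        have := Real.pi_lt_four
        linarith
      have h4 : (1/2 : ℝ) + 1 ≤ Real.exp (1/2) := Real.add_one_le_exp _
      linarith
    have hs : 0 < Real.sqrt (2 * Real.pi) := Real.sqrt_pos.2 (by positivity)
    have e1 : Real.exp (-1) = Real.exp (-(1/2)) * (Real.exp (1/2))⁻¹ := by
      rw [← Real.exp_neg, ← Real.exp_add]; norm_num
    rw [e1]
    have h5 : (Real.exp (1/2))⁻¹ ≤ 2 * (Real.sqrt (2 * Real.pi))⁻¹ := by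
      rw [inv_le_iff_one_le_mul₀ (Real.exp_pos _)]
      rw [← div_eq_mul_inv, ← mul_div_right_comm, le_div_iff₀ hs]
      linarith
    calc Real.exp (-(1/2)) * (Real.exp (1/2))⁻¹
        ≤ Real.exp (-(1/2)) * (2 * (Real.sqrt (2 * Real.pi))⁻¹) :=
          mul_le_mul_of_nonneg_left h5 (Real.exp_pos _).le
      _ = _ := by ring
  have hlow : ∫ _x in Icc (-t) t, (Real.sqrt (2 * Real.pi))⁻¹ * Real.exp (-(1/2))
      ≤ ∫ x in Icc (-t) t, phi x := by
    refine setIntegral_mono_on ?_ ?_ measurableSet_Icc ?_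
    · exact integrableOn_const (by simp)
    · exact Crest.Agent.Lib.Ehrhard.integrable_phi.integrableOn
    · intro x hx
      unfold Crest.Agent.Lib.Ehrhard.phi
      refine mul_le_mul_of_nonneg_left (Real.exp_le_exp.2 ?_) (by positivity)
      have : x ^ 2 ≤ 1 := by
        rw [mem_Icc] at hx
        nlinarith [hx.1, hx.2]
      linarith
  rw [setIntegral_const] at hlow
  simp only [Measure.real, Real.volume_Icc, smul_eq_mul] at hlow
  rw [ENNReal.toReal_ofReal (by linarith)] at hlow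
  refine le_trans ?_ hlow
  calc t * Real.exp (-1) ≤ t * (2 * ((Real.sqrt (2 * Real.pi))⁻¹ * Real.exp (-(1/2)))) :=
        mul_le_mul_of_nonneg_left hc h0
    _ = _ := by ring


lemma slab_pos {v : ℝ≥0} (hv : v ≤ 1) {t : ℝ} (ht : 0 < t) : 0 < slab v t := by
  have h1 : 0 < slab 1 (min t 1) := by
    refine lt_of_lt_of_le ?_ (slab_small (t := min t 1) (by positivity) (min_le_right _ _))
    positivity
  exact lt_of_lt_of_le h1 ((slab_mono 1 (min_le_left _ _)).trans (slab_anti hv t))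






section Std

variable {E : Type*} [NormedAddCommGroup E] [InnerProductSpace ℝ E] [FiniteDimensional ℝ E]
  [MeasurableSpace E] [BorelSpace E]

/-- The slab in the standard Gaussian of `E`. -/
theorem slab_std (w : E) (t : ℝ) :
    (stdGaussian E).real {g : E | |⟪w, g⟫| ≤ t} = slab (‖w‖₊ ^ 2) t := by
  have h := gau_map_inner (ContinuousLinearMap.id ℝ E) w
  rw [gau_id, adjoint_id'] at h
  unfold slab
  simp only [ContinuousLinearMap.coe_id', id_eq] at h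
  rw [← h, Measure.real, Measure.real, Measure.map_apply (by fun_prop) measurableSet_Icc]
  congr 2
  ext x
  simp only [mem_preimage, mem_Icc, mem_ofPred_eq, abs_le]



end Std

end Crest.Agent.R239.Rem603
end

-- ▼ part R239/LevUa_772
section

/-! R239, block F6 (helper772): the flag free part of the uniform one-level comparison
(all cuts after the comparison, under the stretched law). -/

set_option autoImplicit false
set_option linter.unusedSectionVars false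

open MeasureTheory ProbabilityTheory Set Filter Topology
open scoped RealInnerProductSpace

namespace Crest.Agent.R239.LevU772

open Crest.Agent.R239
open Crest.Agent.R239.Mix1_614 (scl mix1)
open Crest.Agent.R239.CmpR174 (Sc Sc_apply inner_Sc_comm norm_Sc_sq inner_n_Sc)
open Crest.Agent.R239.Dom640

variable {E : Type*} [NormedAddCommGroup E] [InnerProductSpace ℝ E] [FiniteDimensional ℝ E]
  [MeasurableSpace E] [BorelSpace E]
variable {G : Type*} [NormedAddCommGroup G] [InnerProductSpace ℝ G] [FiniteDimensional ℝ G]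
  [MeasurableSpace G] [BorelSpace G]

/-! ### radial cut -/

/-- `∫ ‖B x‖² = 0` only for `B = 0` -/
lemma eq_zero_of_integral (B : E →L[ℝ] G) (h : ∫ x, ‖B x‖ ^ 2 ∂(stdGaussian E) ≤ 0) (x : E) :
    B x = 0 := by
  rw [integral_norm_sq] at h
  have h1 : ∀ i, B.adjoint (stdOrthonormalBasis ℝ G i) = 0 := by
    intro i
    have h2 := Finset.single_le_sum (f := fun i => ‖B.adjoint (stdOrthonormalBasis ℝ G i)‖ ^ 2)
      (fun i _ => sq_nonneg _) (Finset.mem_univ i)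
    have h3 : ‖B.adjoint (stdOrthonormalBasis ℝ G i)‖ ^ 2 ≤ 0 := h2.trans h
    have h4 : ‖B.adjoint (stdOrthonormalBasis ℝ G i)‖ = 0 := by
      nlinarith [norm_nonneg (B.adjoint (stdOrthonormalBasis ℝ G i))]
    exact norm_eq_zero.1 h4
  have h2 : ‖B x‖ ^ 2 = 0 := by
    rw [norm_sq_eq_sum]
    refine Finset.sum_eq_zero fun i _ => ?_
    rw [h1 i, inner_zero_left]; ring
  exact norm_eq_zero.1 (pow_eq_zero_iff two_ne_zero |>.1 h2)

/-- the cap cut: the cost is `(1 - 4e)^(min 1 (2h))` -/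
theorem rad_cut {Q : Set E} (hQ : MeasurableSet Q) (cQ : Convex ℝ Q) (sQ : ∀ x ∈ Q, -x ∈ Q)
    (B : E →L[ℝ] G) {R0 e h : ℝ} (hR0 : 0 ≤ R0) (he0 : 0 ≤ e) (he : e ≤ 1 / 8)
    (hB : ∫ x, ‖B x‖ ^ 2 ∂(stdGaussian E) ≤ e * R0 ^ 2) (hh : 0 ≤ h)
    (hcap : ∀ x ∈ Q, (1 - h) * ‖B x‖ ^ 2 ≤ R0 ^ 2) :
    Real.exp (-(16 * e * min (1 / 2) h)) * (stdGaussian E).real Q
      ≤ (stdGaussian E).real (Q ∩ {x | ‖B x‖ ≤ R0}) := by
  have hQ0 : 0 ≤ (stdGaussian E).real Q := measureReal_nonneg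
  have hmin : 0 ≤ min (1 / 2) h := le_min (by norm_num) hh
  rcases eq_or_lt_of_le hR0 with h0 | hpos
  · -- degenerate
    have hz : ∀ x, B x = 0 := eq_zero_of_integral B (by rw [← h0] at hB; simpa using hB)
    have : Q ∩ {x | ‖B x‖ ≤ R0} = Q := by
      ext x
      simp only [mem_inter_iff, mem_ofPred_eq, hz x, norm_zero, hR0, and_true]
    rw [this]
    have h1 : Real.exp (-(16 * e * min (1 / 2) h)) ≤ 1 := by
      rw [Real.exp_le_one_iff]
      have : 0 ≤ 16 * e * min (1 / 2) h := by positivity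
      linarith
    nlinarith
  have hm : ∀ r : ℝ, MeasurableSet {x : E | ‖B x‖ ≤ r} := fun r =>
    measurableSet_le B.continuous.norm.measurable measurable_const
  -- the half cut
  have hK := cut hQ cQ sQ B (r := R0 / 2) (by positivity)
  have h4e : (∫ x, ‖B x‖ ^ 2 ∂(stdGaussian E)) / (R0 / 2) ^ 2 ≤ 4 * e := by
    rw [div_le_iff₀ (by positivity)]
    nlinarith
  have hK' : (1 - 4 * e) * (stdGaussian E).real Q
      ≤ (stdGaussian E).real (Q ∩ {x | ‖B x‖ ≤ R0 / 2}) :=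
    le_trans (mul_le_mul_of_nonneg_right (by linarith) hQ0) hK
  have hlog : Real.exp (-(8 * e)) ≤ 1 - 4 * e := by
    have h1 : Real.exp (-(8 * e)) = (Real.exp (8 * e))⁻¹ := Real.exp_neg _
    rw [h1]
    have h2 : 1 + 8 * e ≤ Real.exp (8 * e) := by
      have := Real.add_one_le_exp (8 * e); linarith
    rw [inv_le_comm₀ (Real.exp_pos _) (by linarith)]
    refine le_trans ?_ h2
    rw [inv_le_iff_one_le_mul₀ (by linarith)]
    nlinarith
  have hK2 : Real.exp (-(8 * e)) * (stdGaussian E).real Q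
      ≤ (stdGaussian E).real (Q ∩ {x | ‖B x‖ ≤ R0 / 2}) :=
    le_trans (mul_le_mul_of_nonneg_right hlog hQ0) hK'
  rcases le_or_gt (1 / 2) h with hbig | hsmall
  · rw [min_eq_left hbig]
    have e1 : -(16 * e * (1 / 2)) = -(8 * e) := by ring
    rw [e1]
    refine hK2.trans (measureReal_mono ?_)
    intro x hx
    have h2 : ‖B x‖ ≤ R0 / 2 := hx.2
    exact ⟨hx.1, show ‖B x‖ ≤ R0 by linarith⟩
  rw [min_eq_right hsmall.le]
  rcases eq_or_lt_of_le hh with h00 | hhpos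
  · -- h = 0
    have : Q ∩ {x | ‖B x‖ ≤ R0} = Q := by
      ext x
      simp only [mem_inter_iff, mem_ofPred_eq, and_iff_left_iff_imp]
      intro hx
      have h1 := hcap x hx
      rw [← h00, sub_zero, one_mul] at h1
      exact (pow_le_pow_iff_left₀ (norm_nonneg _) hR0 two_ne_zero).1 h1
    rw [this, ← h00]
    simp
  -- main case `0 < h < 1/2`, exponent `2h`
  rcases eq_or_lt_of_le hQ0 with hQz | hQpos
  · rw [← hQz, mul_zero]; exact measureReal_nonneg
  have hpr := pr_real (E := E) (t := 1 - 2 * h) (by linarith) (by linarith)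
    (A := Q ∩ {x | ‖B x‖ ≤ R0 / 2}) (B := Q) (C := Q ∩ {x | ‖B x‖ ≤ R0})
    (hQ.inter (hm _)) hQ (hQ.inter (hm _)) (by
      intro x hx y hy
      have e1 : 1 - (1 - 2 * h) = 2 * h := by ring
      rw [e1]
      refine ⟨cQ hx.1 hy (by linarith) (by linarith) (by ring), ?_⟩
      simp only [mem_ofPred_eq]
      have hy2 : ‖B y‖ ≤ (1 - h) / (1 - 2 * h) * R0 := by
        have h1 := hcap y hy
        have h3 : ‖B y‖ ^ 2 ≤ ((1 - h) / (1 - 2 * h) * R0) ^ 2 := by
          have h4 : ‖B y‖ ^ 2 ≤ R0 ^ 2 / (1 - h) := by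
            rw [le_div_iff₀ (by linarith)]; linarith
          refine h4.trans ?_
          rw [mul_pow, div_pow, div_le_iff₀ (by linarith)]
          have h5' : 0 < 1 - 2 * h := by linarith
          have h5 : 0 < (1 - 2 * h) ^ 2 := by positivity
          have h6 : (1 - 2 * h) ^ 2 ≤ (1 - h) ^ 2 * (1 - h) := by nlinarith [mul_pos hhpos hhpos]
          have h7 : (1:ℝ) ≤ (1 - h) ^ 2 / (1 - 2 * h) ^ 2 * (1 - h) := by
            rw [div_mul_eq_mul_div, le_div_iff₀ h5]; linarith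
          have hR2 : 0 ≤ R0 ^ 2 := sq_nonneg _
          nlinarith
        have h5 : 0 ≤ (1 - h) / (1 - 2 * h) * R0 := by
          have : 0 < 1 - 2 * h := by linarith
          have : 0 < 1 - h := by linarith
          positivity
        exact (pow_le_pow_iff_left₀ (norm_nonneg _) h5 two_ne_zero).1 h3
      calc ‖B ((2 * h) • x + (1 - 2 * h) • y)‖ ≤ 2 * h * ‖B x‖ + (1 - 2 * h) * ‖B y‖ := by
            rw [map_add, map_smul, map_smul]
            refine (norm_add_le _ _).trans ?_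
            rw [norm_smul, norm_smul, Real.norm_of_nonneg (by linarith : (0:ℝ) ≤ 2 * h),
              Real.norm_of_nonneg (by linarith : (0:ℝ) ≤ 1 - 2 * h)]
        _ ≤ 2 * h * (R0 / 2) + (1 - 2 * h) * ((1 - h) / (1 - 2 * h) * R0) := by
            have h1 : 0 ≤ 2 * h := by linarith
            have h2 : 0 ≤ 1 - 2 * h := by linarith
            exact add_le_add (mul_le_mul_of_nonneg_left hx.2 h1) (mul_le_mul_of_nonneg_left hy2 h2)
        _ = R0 := by
            have : 1 - 2 * h ≠ 0 := by linarith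
            field_simp
            ring)
  have e2 : 1 - (1 - 2 * h) = 2 * h := by ring
  rw [e2] at hpr
  refine le_trans ?_ hpr
  have h1 : (Real.exp (-(8 * e)) * (stdGaussian E).real Q) ^ (2 * h)
      ≤ ((stdGaussian E).real (Q ∩ {x | ‖B x‖ ≤ R0 / 2})) ^ (2 * h) :=
    Real.rpow_le_rpow (by positivity) hK2 (by linarith)
  refine le_trans ?_ (mul_le_mul_of_nonneg_right h1 (Real.rpow_nonneg hQ0 _))
  rw [Real.mul_rpow (Real.exp_pos _).le hQ0, mul_assoc (Real.exp (-(8 * e)) ^ (2 * h)),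
    ← Real.rpow_add hQpos]
  have e3 : 2 * h + (1 - 2 * h) = 1 := by ring
  rw [e3, Real.rpow_one, ← Real.exp_mul]
  have e4 : -(8 * e) * (2 * h) = -(16 * e * h) := by ring
  rw [e4]

/-! ### the stretched law -/

lemma scl_eq (n : E) (c : ℝ) (x : E) : scl n c x = Sc n c x := by
  rw [Sc_apply]; rfl

lemma norm_Sc_le {n : E} (hn : ‖n‖ = 1) {c : ℝ} (hc : 1 ≤ c ^ 2) (x : E) :
    ‖Sc n c x‖ ^ 2 ≤ c ^ 2 * ‖x‖ ^ 2 := by
  rw [norm_Sc_sq hn]
  have h1 : ⟪n, x⟫ ^ 2 ≤ ‖x‖ ^ 2 := by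
    have := abs_real_inner_le_norm n x
    rw [hn, one_mul] at this
    rw [← sq_abs ⟪n, x⟫]
    exact pow_le_pow_left₀ (abs_nonneg _) this 2
  nlinarith

lemma adjoint_Sc (n : E) (c : ℝ) (x : E) : (Sc n c).adjoint x = Sc n c x := by
  apply ext_inner_right ℝ
  intro y
  rw [ContinuousLinearMap.adjoint_inner_left, inner_Sc_comm]

/-- second moments grow by at most `c²` -/
lemma integral_Sc {n : E} (hn : ‖n‖ = 1) {c : ℝ} (hc : 1 ≤ c ^ 2) (B : E →L[ℝ] G) :
    ∫ x, ‖(B ∘L Sc n c) x‖ ^ 2 ∂(stdGaussian E) ≤ c ^ 2 * ∫ x, ‖B x‖ ^ 2 ∂(stdGaussian E) := by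
  rw [integral_norm_sq, integral_norm_sq, Finset.mul_sum]
  refine Finset.sum_le_sum fun i _ => ?_
  rw [ContinuousLinearMap.adjoint_comp, ContinuousLinearMap.comp_apply, adjoint_Sc]
  exact norm_Sc_le hn hc _

/-- slabs have positive mass -/
lemma slab_pos' (w : E) {t : ℝ} (ht : 0 < t) : 0 < (stdGaussian E).real {x | |⟪w, x⟫| ≤ t} := by
  have hw : 0 < 1 + ‖w‖ := by positivity
  have e1 : {x : E | |⟪w, x⟫| ≤ t} = {x : E | |⟪(1 + ‖w‖)⁻¹ • w, x⟫| ≤ t / (1 + ‖w‖)} := by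
    ext x
    simp only [mem_ofPred_eq, inner_smul_left, conj_trivial, abs_mul, abs_inv, abs_of_pos hw]
    rw [inv_mul_le_iff₀ hw, mul_div_cancel₀ _ hw.ne']
  rw [e1, Rem603.slab_std]
  apply Rem603.slab_pos _ (by positivity)
  rw [← NNReal.coe_le_coe]
  push_cast
  have h1 : ‖(1 + ‖w‖)⁻¹ • w‖ ≤ 1 := by
    rw [norm_smul, norm_inv, Real.norm_of_nonneg hw.le, inv_mul_le_iff₀ hw]
    linarith
  exact pow_le_one₀ (norm_nonneg _) h1

lemma convex_slab (w : E) (t : ℝ) : Convex ℝ {x : E | |⟪w, x⟫| ≤ t} := by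
  intro x hx y hy a b ha hb hab
  simp only [mem_ofPred_eq] at hx hy ⊢
  rw [inner_add_right, inner_smul_right, inner_smul_right]
  calc |a * ⟪w, x⟫ + b * ⟪w, y⟫| ≤ |a * ⟪w, x⟫| + |b * ⟪w, y⟫| := abs_add_le _ _
    _ = a * |⟪w, x⟫| + b * |⟪w, y⟫| := by
        rw [abs_mul, abs_mul, abs_of_nonneg ha, abs_of_nonneg hb]
    _ ≤ a * t + b * t := add_le_add (mul_le_mul_of_nonneg_left hx ha)
        (mul_le_mul_of_nonneg_left hy hb)
    _ = t := by rw [← add_mul, hab, one_mul]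

/-- comparison, slab, cap, one after the other -/
lemma chain {L : E →L[ℝ] E} {ι : Type*} {J : Finset ι} {u : ι → E}
    (hL : ∀ g, ‖L g‖ ^ 2 ≤ ‖g‖ ^ 2 + ∑ k ∈ J, ⟪u k, g⟫ ^ 2)
    {B : Set E} (hBc : IsClosed B) (hBv : Convex ℝ B) (hBs : ∀ x ∈ B, -x ∈ B) (w : E) (t : ℝ)
    (Y : E →L[ℝ] G) {R0 e h : ℝ} (hR0 : 0 ≤ R0) (he0 : 0 ≤ e) (he : e ≤ 1 / 8)
    (hY : ∫ x, ‖Y x‖ ^ 2 ∂(stdGaussian E) ≤ e * R0 ^ 2) (hh : 0 ≤ h)
    (hcap : ∀ g, L g ∈ B → (1 - h) * ‖Y g‖ ^ 2 ≤ R0 ^ 2) :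
    Real.exp (-(16 * e * min (1 / 2) h)) * (Real.exp (-((∑ k ∈ J, ‖u k‖ ^ 2) / 2)) *
      (stdGaussian E).real B * (stdGaussian E).real {x | |⟪w, x⟫| ≤ t})
      ≤ (stdGaussian E).real (L ⁻¹' B ∩ {x | |⟪w, x⟫| ≤ t} ∩ {x | ‖Y x‖ ≤ R0}) := by
  have hBm : MeasurableSet B := hBc.measurableSet
  have hcmp := CmpR174.cmp J u L hL hBm hBv hBs
  have m1 : MeasurableSet (L ⁻¹' B) := L.continuous.measurable hBm
  have c1 : Convex ℝ (L ⁻¹' B) := hBv.linear_preimage (L : E →ₗ[ℝ] E)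
  have s1 : ∀ x ∈ L ⁻¹' B, -x ∈ L ⁻¹' B := by
    intro x hx
    simp only [mem_preimage, map_neg]
    exact hBs _ hx
  have hsl := slab_real m1 c1 s1 w t
  have m2 : MeasurableSet (L ⁻¹' B ∩ {x | |⟪w, x⟫| ≤ t}) := m1.inter (measurableSet_slab _ _)
  have c2 : Convex ℝ (L ⁻¹' B ∩ {x | |⟪w, x⟫| ≤ t}) := c1.inter (convex_slab w t)
  have s2 : ∀ x ∈ L ⁻¹' B ∩ {x | |⟪w, x⟫| ≤ t}, -x ∈ L ⁻¹' B ∩ {x | |⟪w, x⟫| ≤ t} := by
    intro x hx
    refine ⟨s1 x hx.1, ?_⟩
    simp only [mem_ofPred_eq, inner_neg_right, abs_neg]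
    exact hx.2
  have hcut := rad_cut m2 c2 s2 Y hR0 he0 he hY hh (fun x hx => hcap x hx.1)
  refine le_trans ?_ hcut
  refine mul_le_mul_of_nonneg_left ?_ (Real.exp_pos _).le
  exact le_trans (mul_le_mul_of_nonneg_right hcmp measureReal_nonneg) hsl

/-- **one-body inequality** of the uniform comparison: `R` the comparison map, `B` the competitor
(in the Gaussian coordinates of the tilted level), then the slab `|⟪a0, ·⟫| ≤ t` and the cap
`‖Y ·‖ ≤ R0`. -/
theorem one_body {R : E →L[ℝ] E} {n : E} (hn : ‖n‖ = 1) {τ : ℝ} (hτ0 : 0 ≤ τ) (hτ : τ ≤ 1 / 4)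
    {ι : Type*} {J : Finset ι} {u : ι → E}
    (hN : ∀ g, ‖R g‖ ^ 2 + τ * ⟪n, g⟫ ^ 2 ≤ ‖g‖ ^ 2 + ∑ k ∈ J, ⟪u k, g⟫ ^ 2)
    {B : Set E} (hBc : IsClosed B) (hBv : Convex ℝ B) (hBs : ∀ x ∈ B, -x ∈ B)
    (hBp : 0 < (stdGaussian E).real B)
    (a0 : E) {t : ℝ} (ht : 0 < t)
    (Y : E →L[ℝ] G) {R0 e h : ℝ} (hR0 : 0 ≤ R0) (he0 : 0 ≤ e) (he : e ≤ 3 / 32)
    (hY : ∫ x, ‖Y x‖ ^ 2 ∂(stdGaussian E) ≤ e * R0 ^ 2) (hh : 0 ≤ h)
    (hcap : ∀ g, R g ∈ B → (1 - h) * ‖Y g‖ ^ 2 ≤ R0 ^ 2) :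
    0 < (stdGaussian E).real ({g | R g ∈ B} ∩ {g | |⟪a0, g⟫| ≤ t} ∩ {g | ‖Y g‖ ≤ R0}) ∧
    ∀ K : Set E, MeasurableSet K → 0 < (stdGaussian E).real K → ∀ W : Set E, IsClosed W →
      (∀ x ∈ K, ∀ y ∈ ({g | R g ∈ B} ∩ {g | |⟪a0, g⟫| ≤ t} ∩ {g | ‖Y g‖ ≤ R0}),
        (1 / 2 : ℝ) • x + (1 / 2 : ℝ) • y ∈ W) →
      Real.log ((stdGaussian E).real K)
        + (Real.log ((stdGaussian E).real B) - ∑ k ∈ J, ‖u k‖ ^ 2
          + Real.log ((stdGaussian E).real {x | |⟪Sc n (1 / Real.sqrt (1 - τ)) a0, x⟫| ≤ t})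
          - 64 / 3 * e * min (1 / 2) h
          + τ / 2 * (1 - (1 + 4 * τ) *
            ((∫ x in K, ⟪n, x⟫ ^ 2 ∂(stdGaussian E)) / (stdGaussian E).real K)))
        ≤ 2 * Real.log ((stdGaussian E).real W) := by
  set c : ℝ := 1 / Real.sqrt (1 - τ) with hc
  set A : E →L[ℝ] E := Sc n c with hA
  set Q : Set E := {g | R g ∈ B} ∩ {g | |⟪a0, g⟫| ≤ t} ∩ {g | ‖Y g‖ ≤ R0} with hQ
  have h1τ : 0 < 1 - τ := by linarith
  have hc2 : c ^ 2 * (1 - τ) = 1 := by
    rw [hc, div_pow, one_pow, Real.sq_sqrt h1τ.le]; field_simp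
  have hc1 : 1 ≤ c ^ 2 := by nlinarith [sq_nonneg c]
  have hc43 : c ^ 2 ≤ 4 / 3 := by nlinarith [sq_nonneg c]
  have hBm : MeasurableSet B := hBc.measurableSet
  have htp : 0 < (stdGaussian E).real {x | |⟪A a0, x⟫| ≤ t} := slab_pos' _ ht
  have hchain := chain (L := R ∘L A) (J := J) (u := fun k => A (u k)) (by
    intro g
    have h1 := hN (A g)
    rw [norm_Sc_sq hn, inner_n_Sc hn] at h1
    have h2 : ∀ k, ⟪u k, A g⟫ = ⟪A (u k), g⟫ := fun k => by rw [hA, inner_Sc_comm]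
    simp only [h2] at h1
    have h3 : ‖g‖ ^ 2 + (c ^ 2 - 1) * ⟪n, g⟫ ^ 2 - τ * (c * ⟪n, g⟫) ^ 2 = ‖g‖ ^ 2 := by
      linear_combination ⟪n, g⟫ ^ 2 * hc2
    rw [ContinuousLinearMap.comp_apply]
    linarith) hBc hBv hBs (A a0) t (Y ∘L A) (R0 := R0) (e := 4 / 3 * e) (h := h) hR0
    (by positivity) (by linarith) (by
      refine (integral_Sc hn hc1 Y).trans ?_
      have h0 : 0 ≤ ∫ x, ‖Y x‖ ^ 2 ∂(stdGaussian E) := integral_nonneg fun x => sq_nonneg _
      calc c ^ 2 * ∫ x, ‖Y x‖ ^ 2 ∂(stdGaussian E) ≤ 4 / 3 * ∫ x, ‖Y x‖ ^ 2 ∂(stdGaussian E) :=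
            mul_le_mul_of_nonneg_right hc43 h0
        _ ≤ 4 / 3 * (e * R0 ^ 2) := mul_le_mul_of_nonneg_left hY (by norm_num)
        _ = 4 / 3 * e * R0 ^ 2 := by ring) hh (fun g hg => hcap _ hg)
  have hsum : (∑ k ∈ J, ‖A (u k)‖ ^ 2) / 2 ≤ ∑ k ∈ J, ‖u k‖ ^ 2 := by
    have h1 : ∑ k ∈ J, ‖A (u k)‖ ^ 2 ≤ ∑ k ∈ J, 4 / 3 * ‖u k‖ ^ 2 := by
      refine Finset.sum_le_sum fun k _ => (norm_Sc_le hn hc1 _).trans ?_
      exact mul_le_mul_of_nonneg_right hc43 (sq_nonneg _)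
    rw [← Finset.mul_sum] at h1
    have h2 : 0 ≤ ∑ k ∈ J, ‖u k‖ ^ 2 := Finset.sum_nonneg fun k _ => sq_nonneg _
    linarith
  -- identification of the cut body
  have hid : {x | scl n c x ∈ Q}
      = (R ∘L A) ⁻¹' B ∩ {x | |⟪A a0, x⟫| ≤ t} ∩ {x | ‖(Y ∘L A) x‖ ≤ R0} := by
    ext x
    simp only [hQ, mem_ofPred_eq, mem_inter_iff, scl_eq, mem_preimage,
      ContinuousLinearMap.comp_apply]
    rw [← hA, ← inner_Sc_comm, ← hA]
  set b0 := (stdGaussian E).real B with hb0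
  set sl := (stdGaussian E).real {x | |⟪A a0, x⟫| ≤ t} with hsl0
  set cc := 64 / 3 * e * min (1 / 2) h with hcc
  have hlow : Real.exp (-cc) * ((Real.exp (-∑ k ∈ J, ‖u k‖ ^ 2) * b0) * sl)
      ≤ (stdGaussian E).real {x | scl n c x ∈ Q} := by
    rw [hid]
    refine le_trans ?_ hchain
    have e1 : 16 * (4 / 3 * e) * min (1 / 2) h = cc := by rw [hcc]; ring
    rw [e1]
    refine mul_le_mul_of_nonneg_left ?_ (Real.exp_pos _).le
    refine mul_le_mul_of_nonneg_right ?_ htp.le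
    exact mul_le_mul_of_nonneg_right (Real.exp_le_exp.2 (by linarith)) hBp.le
  have hlowpos : 0 < Real.exp (-cc) * ((Real.exp (-∑ k ∈ J, ‖u k‖ ^ 2) * b0) * sl) := by
    positivity
  have hQm : MeasurableSet Q := by
    refine ((R.continuous.measurable hBm).inter (measurableSet_slab _ _)).inter ?_
    exact measurableSet_le Y.continuous.norm.measurable measurable_const
  have hlogQ : -cc + (-∑ k ∈ J, ‖u k‖ ^ 2 + Real.log b0 + Real.log sl)
      ≤ Real.log ((stdGaussian E).real {x | scl n c x ∈ Q}) := by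
    have h1 := Real.log_le_log hlowpos hlow
    rwa [Real.log_mul (Real.exp_ne_zero _) (by positivity), Real.log_exp,
      Real.log_mul (by positivity) htp.ne', Real.log_mul (Real.exp_ne_zero _) hBp.ne',
      Real.log_exp] at h1
  constructor
  · have h2 := chain (L := R) (J := J) (u := u) (by
      intro g
      have h1 := hN g
      have h2 : 0 ≤ τ * ⟪n, g⟫ ^ 2 := by positivity
      linarith) hBc hBv hBs a0 t Y hR0 he0 (by linarith) hY hh hcap
    refine lt_of_lt_of_le ?_ h2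
    have := slab_pos' a0 ht
    positivity
  intro K hKm hKp W hWc hW
  have hmix := mix1 hKm hQm hWc.measurableSet hW hn hτ0 hτ hKp
  rw [← hc] at hmix
  have hq1 := lt_of_lt_of_le hlowpos hlow
  have hlog2 := Real.log_le_log (mul_pos (mul_pos hKp hq1) (Real.exp_pos _)) hmix
  rw [Real.log_mul (mul_pos hKp hq1).ne' (Real.exp_ne_zero _), Real.log_exp,
    Real.log_mul hKp.ne' hq1.ne', Real.log_pow] at hlog2
  push_cast at hlog2
  have e5 : τ / 2 - (τ + 4 * τ ^ 2) / 2 *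
      ((∫ x in K, ⟪n, x⟫ ^ 2 ∂(stdGaussian E)) / (stdGaussian E).real K)
      = τ / 2 * (1 - (1 + 4 * τ) *
            ((∫ x in K, ⟪n, x⟫ ^ 2 ∂(stdGaussian E)) / (stdGaussian E).real K)) := by ring
  rw [e5] at hlog2
  linarith

end Crest.Agent.R239.LevU772
end

-- ▼ part R239/QPlus_711
section

/-! R239 / F5 (helper711): flag sums, precision identity, the forms `q`, `q+` of 583's C1,
representation independent: `M : ℕ → Submodule ℝ E` antitone, `M n = ⊥`.

`Pj M j` = projection on `M j`, `Qj M j = Pj M j - Pj M (j+1)`,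
`Hm M n i t = ∑_{j ∈ Ico i n} t^(j-i) • Qj M j` (`H i` for `t = θ`, `Hi i` for `t = θ⁻¹`). -/

set_option autoImplicit false
set_option linter.unusedSectionVars false
open scoped RealInnerProductSpace
open Finset

namespace Crest.Agent.R239.QPlus711

variable {E : Type*} [NormedAddCommGroup E] [InnerProductSpace ℝ E] [FiniteDimensional ℝ E]

noncomputable def Pj (M : ℕ → Submodule ℝ E) (j : ℕ) : E →L[ℝ] E := (M j).starProjection

noncomputable def Qj (M : ℕ → Submodule ℝ E) (j : ℕ) : E →L[ℝ] E := Pj M j - Pj M (j + 1)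

noncomputable def Hm (M : ℕ → Submodule ℝ E) (n i : ℕ) (t : ℝ) : E →L[ℝ] E :=
  ∑ j ∈ Ico i n, t ^ (j - i) • Qj M j

section basic
variable {M : ℕ → Submodule ℝ E}

lemma Pj_mem (j : ℕ) (x : E) : Pj M j x ∈ M j := Submodule.starProjection_apply_mem _ _

lemma Pj_of_mem {j : ℕ} {x : E} (hx : x ∈ M j) : Pj M j x = x :=
  Submodule.starProjection_eq_self_iff.mpr hx

lemma inner_Pj_left (j : ℕ) (x y : E) : ⟪Pj M j x, y⟫ = ⟪x, Pj M j y⟫ :=
  Submodule.inner_starProjection_left_eq_right _ _ _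

lemma Pj_Pj_of_le (hM : Antitone M) {j l : ℕ} (h : j ≤ l) (x : E) :
    Pj M j (Pj M l x) = Pj M l x := Pj_of_mem (hM h (Pj_mem l x))

lemma Pj_Pj_of_ge (hM : Antitone M) {j l : ℕ} (h : j ≤ l) (x : E) :
    Pj M l (Pj M j x) = Pj M l x := by
  refine ext_inner_right ℝ fun y => ?_
  rw [inner_Pj_left, inner_Pj_left, Pj_Pj_of_le hM h, ← inner_Pj_left]

lemma Pj_Pj (hM : Antitone M) (j l : ℕ) (x : E) : Pj M j (Pj M l x) = Pj M (max j l) x := by
  rcases le_total j l with h | h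
  · rw [max_eq_right h, Pj_Pj_of_le hM h]
  · rw [max_eq_left h, Pj_Pj_of_ge hM h]

lemma norm_Pj_sq (j : ℕ) (x : E) : ‖Pj M j x‖ ^ 2 = ⟪Pj M j x, x⟫ := by
  rw [← real_inner_self_eq_norm_sq, inner_Pj_left, Pj_of_mem (Pj_mem j x), ← inner_Pj_left]

lemma Qj_apply (j : ℕ) (x : E) : Qj M j x = Pj M j x - Pj M (j + 1) x := rfl

lemma inner_Qj_left (j : ℕ) (x y : E) : ⟪Qj M j x, y⟫ = ⟪x, Qj M j y⟫ := by
  simp only [Qj_apply, inner_sub_left, inner_sub_right, inner_Pj_left]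

lemma Qj_Qj_self (hM : Antitone M) (j : ℕ) (x : E) : Qj M j (Qj M j x) = Qj M j x := by
  simp only [Qj_apply, map_sub, Pj_Pj hM]
  rw [max_self, max_self, max_eq_right (Nat.le_succ j), max_eq_left (Nat.le_succ j)]
  abel



lemma norm_Qj_sq (hM : Antitone M) (j : ℕ) (x : E) :
    ‖Qj M j x‖ ^ 2 = ‖Pj M j x‖ ^ 2 - ‖Pj M (j + 1) x‖ ^ 2 := by
  rw [← real_inner_self_eq_norm_sq, inner_Qj_left, Qj_Qj_self hM, norm_Pj_sq, norm_Pj_sq,
    Qj_apply, inner_sub_right, real_inner_comm x, real_inner_comm x]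









lemma Pj_bot {n : ℕ} (hn : M n = ⊥) (x : E) : Pj M n x = 0 := by
  have := Pj_mem (M := M) n x
  rwa [hn, Submodule.mem_bot] at this







/-- Abel summation. -/
lemma abel_sum (r : ℝ) (p : ℕ → ℝ) (i m : ℕ) :
    ∑ j ∈ Ico i (i + m + 1), r ^ (j - i) * (p j - p (j + 1))
      = p i + ∑ j ∈ Ico (i + 1) (i + m + 1), (r ^ (j - i) - r ^ (j - i - 1)) * p j
        - r ^ m * p (i + m + 1) := by
  induction m with
  | zero => simp
  | succ m ih =>
    have e1 := Finset.sum_Ico_succ_top (show i ≤ i + m + 1 by omega)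
      (fun j => r ^ (j - i) * (p j - p (j + 1)))
    have e2 := Finset.sum_Ico_succ_top (show i + 1 ≤ i + m + 1 by omega)
      (fun j => (r ^ (j - i) - r ^ (j - i - 1)) * p j)
    have h1 : i + m + 1 - i = m + 1 := by omega
    rw [show i + (m + 1) + 1 = (i + m + 1) + 1 from by ring, e1, ih, e2, h1,
      Nat.add_sub_cancel]
    ring





end basic

/-! ### the vectors `wxi, wze, wa` -/
section vecs
variable (M : ℕ → Submodule ℝ E) (n i : ℕ) (th : ℝ) (v : E)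

/-- `⟪wxi, g⟫ = ξ = ⟪v, H_i g⟫`. -/
noncomputable def wxi : E := Hm M n i th v
/-- `⟪wze j, g⟫ = ζ_j = ⟪P_j v, H_i g⟫`. -/
noncomputable def wze (j : ℕ) : E := Hm M n i th (Pj M j v)
/-- `⟪wa j, g⟫ = a_j = ξ - ζ_j`. -/
noncomputable def wa (j : ℕ) : E := Hm M n i th (v - Pj M j v)

variable {M n i th v}









end vecs

/-! ### the forms `q`, `q+` and `exc` -/
section forms
variable (M : ℕ → Submodule ℝ E) (n i : ℕ) (th sb : ℝ) (v : E)

/-- `ω_m = θ^{-2m} - θ^{-2(m-1)}`. -/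
noncomputable def om (m : ℕ) : ℝ := (th⁻¹ ^ 2) ^ m - (th⁻¹ ^ 2) ^ (m - 1)


/-- `e_j = √Z_j/√A_j`. -/
noncomputable def ej (j : ℕ) : ℝ := ‖wze M n i th v j‖ / ‖wa M n i th v j‖
/-- `1/e_j = √A_j/√Z_j`. -/
noncomputable def ije (j : ℕ) : ℝ := ‖wa M n i th v j‖ / ‖wze M n i th v j‖

/-- the majorant `q+`. -/
noncomputable def qp (g : E) : ℝ :=
  sb * ⟪wxi M n i th v, g⟫ ^ 2 + sb * ∑ j ∈ Ico (i + 1) n, om th (j - i) *
    ((1 + ije M n i th v j) * ⟪wze M n i th v j, g⟫ ^ 2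
      + ej M n i th v j * ⟪wa M n i th v j, g⟫ ^ 2)




variable {M n i th sb v}












end forms

end Crest.Agent.R239.QPlus711
end

-- ▼ part R239/PRot_711
section

/-! R239 F5 over `FDef`: rotation formula `P_ROT` (helper711), with dictionary `FDef` ↔ `QPlus_711`. -/

set_option autoImplicit false
set_option linter.unusedSectionVars false
open MeasureTheory ProbabilityTheory Finset
open scoped RealInnerProductSpace

namespace Crest.Agent.R239.PRot711

open Crest.Agent.R239.FD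
open Crest.Agent.R239 (gau)

variable {E : Type*} [NormedAddCommGroup E] [InnerProductSpace ℝ E] [FiniteDimensional ℝ E]

lemma th_pos : 0 < th := by unfold th; norm_num
lemma th_ne : th ≠ 0 := th_pos.ne'
lemma thi_pos : 0 < th⁻¹ := inv_pos.2 th_pos

lemma P_eq (V : Flag E) (j : ℕ) : V.P j = QPlus711.Pj V.M j := rfl
lemma Q_eq (V : Flag E) (j : ℕ) : V.Q j = QPlus711.Qj V.M j := rfl
lemma H_eq (V : Flag E) (i : ℕ) : V.H i = QPlus711.Hm V.M V.n i th := rfl
lemma bot_n (V : Flag E) : V.M V.n = ⊥ := V.bot V.n le_rfl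

lemma Ts_eq (v : E) (s : ℝ) : (Ts v s).toLinearMap = Rot203.Ts s v := by
  ext x
  simp only [ContinuousLinearMap.coe_coe, FD.Ts_apply, Rot203.Ts_apply]

lemma Ts_eq_apply (v : E) (s : ℝ) (x : E) : Ts v s x = Rot203.Ts s v x := by
  rw [FD.Ts_apply, Rot203.Ts_apply]


lemma rot_n (V : Flag E) (v : E) (s : ℝ) : (V.rot v s).n = V.n := rfl




lemma sbar_pos {s : ℝ} (h0 : 0 < s) (h1 : s < 1) : 0 < 2 * s - s ^ 2 := by nlinarith
lemma sbar_lt_one {s : ℝ} (h1 : s < 1) : 2 * s - s ^ 2 < 1 := by nlinarith [sq_pos_of_pos (sub_pos.2 h1)]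

lemma b_le_one (V : Flag E) {v : E} (hv : ‖v‖ = 1) (j : ℕ) : V.b v j ≤ 1 := by
  have h := (V.M j).norm_starProjection_apply_le v
  rw [hv] at h
  unfold Flag.b Flag.P
  nlinarith [norm_nonneg ((V.M j).starProjection v)]

lemma b_nonneg (V : Flag E) (v : E) (j : ℕ) : 0 ≤ V.b v j := by unfold Flag.b; positivity

lemma one_sub_sb_pos (V : Flag E) {v : E} (hv : ‖v‖ = 1) {s : ℝ} (h0 : 0 < s) (h1 : s < 1) (j : ℕ) :
    0 < 1 - (2 * s - s ^ 2) * V.b v j := by
  have h2 := b_le_one V hv j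
  have h3 := b_nonneg V v j
  nlinarith [sbar_pos h0 h1, sbar_lt_one h1]

/-- C1 for one index of the flag -/
theorem norm_P_rot_sq (V : Flag E) {v : E} (hv : ‖v‖ = 1) {s : ℝ} (h0 : 0 < s) (h1 : s < 1)
    (j : ℕ) (x : E) :
    ‖(V.rot v s).P j (Ts v s x)‖ ^ 2 = ‖V.P j x‖ ^ 2 - (2 * s - s ^ 2) * ⟪v, x⟫ ^ 2
      + (2 * s - s ^ 2) * ⟪v - V.P j v, x⟫ ^ 2 / (1 - (2 * s - s ^ 2) * V.b v j) := by
  have h := Rot203.norm_proj_Ts_sq hv (V.M j) s x (one_sub_sb_pos V hv h0 h1 j).ne'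
  have e : (V.rot v s).P j = ((V.M j).map (Rot203.Ts s v)).starProjection := by
    unfold Flag.P
    congr 1
  rw [e, Ts_eq_apply, h, inner_sub_left]
  rfl


/-! ### the cap gauge `N` -/

lemma omN_eq {m : ℕ} (hm : 1 ≤ m) : omN m = th⁻¹ ^ m - th⁻¹ ^ (m - 1) := by
  obtain ⟨k, rfl⟩ : ∃ k, m = k + 1 := ⟨m - 1, by omega⟩
  rw [omN, Nat.add_sub_cancel, pow_succ th⁻¹ k]
  have h : th⁻¹ * th = 1 := inv_mul_cancel₀ th_ne
  linear_combination (-th⁻¹ ^ k) * h

lemma omN_pos (m : ℕ) : 0 < omN m := by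
  unfold omN
  have : (0:ℝ) < 1 - th := by unfold th; norm_num
  have := thi_pos
  positivity

/-- the gauge as a sum over the `M_j` -/
theorem N_eq (V : Flag E) {i : ℕ} (h : i < V.n) (x : E) :
    V.N i x = ‖V.P i x‖ ^ 2 + ∑ j ∈ Ico (i + 1) V.n, omN (j - i) * ‖V.P j x‖ ^ 2 := by
  obtain ⟨m, hm⟩ : ∃ m, V.n = i + m + 1 := ⟨V.n - i - 1, by omega⟩
  unfold Flag.N
  simp only [Q_eq, P_eq, QPlus711.norm_Qj_sq V.anti]
  rw [hm, QPlus711.abel_sum th⁻¹ (fun j => ‖QPlus711.Pj V.M j x‖ ^ 2) i m]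
  have h0 : ‖QPlus711.Pj V.M (i + m + 1) x‖ ^ 2 = 0 := by
    rw [QPlus711.Pj_bot (by rw [← hm]; exact bot_n V)]; simp
  simp only [h0]
  have : ∀ j ∈ Ico (i + 1) (i + m + 1), omN (j - i) * ‖QPlus711.Pj V.M j x‖ ^ 2
      = (th⁻¹ ^ (j - i) - th⁻¹ ^ (j - i - 1)) * ‖QPlus711.Pj V.M j x‖ ^ 2 := by
    intro j hj
    rw [omN_eq (by have := mem_Ico.mp hj; omega)]
  rw [sum_congr rfl this]
  ring


/-! ### the majorant `qp` -/






end Crest.Agent.R239.PRot711
end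

-- ▼ part R239/CapH_171
section

/-! # CAPH (F7, ellipsoid cap, pointwise): `(1 - sb (2 b_i + BB_i)) N_i(x) ≤ N^s_i(T_s x)` on `M_i`,
and `rr` is invariant under the tilt (helper171). -/

set_option autoImplicit false
set_option linter.unusedSectionVars false
open Finset
open scoped RealInnerProductSpace

namespace Crest.Agent.R239.CapH171
open Crest.Agent.R239.FD Crest.Agent.R239.PRot711

variable {E : Type*} [NormedAddCommGroup E] [InnerProductSpace ℝ E] [FiniteDimensional ℝ E]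

lemma two_mul_le_of_sq {x z a b c d : ℝ} (ha : 0 ≤ a) (hb : 0 ≤ b) (hc : 0 ≤ c) (hd : 0 ≤ d)
    (h1 : x ^ 2 ≤ a * b) (h2 : z ^ 2 ≤ c * d) : 2 * (x * z) ≤ c * b + a * d := by
  have h3 : (2 * (x * z)) ^ 2 ≤ (c * b + a * d) ^ 2 := by
    have h4 : x ^ 2 * z ^ 2 ≤ (a * b) * (c * d) := mul_le_mul h1 h2 (sq_nonneg _) (by positivity)
    nlinarith [sq_nonneg (c * b - a * d)]
  exact (le_abs_self _).trans (abs_le_of_sq_le_sq h3 (by positivity))

lemma omN_le (m : ℕ) : omN m ≤ (25 / 8 : ℝ) ^ m := by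
  unfold omN
  have h1 : (th⁻¹ : ℝ) ^ m ≤ (25 / 8 : ℝ) ^ m :=
    pow_le_pow_left₀ thi_pos.le (by unfold th; norm_num) m
  have h2 : (1 : ℝ) - th ≤ 1 := by unfold th; norm_num
  have h3 : (0 : ℝ) ≤ 1 - th := by unfold th; norm_num
  calc th⁻¹ ^ m * (1 - th) ≤ (25 / 8 : ℝ) ^ m * 1 := by gcongr
    _ = _ := mul_one _

theorem N_v_le (V : Flag E) (v : E) {i : ℕ} (h : i < V.n) : V.N i v ≤ V.b v i + BB V v i := by
  rw [N_eq V h]
  unfold BB Flag.b
  gcongr with j hj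
  exact omN_le _

lemma inner_P (V : Flag E) (j : ℕ) (v x : E) : ⟪V.P j v, x⟫ = ⟪V.P j v, V.P j x⟫ := by
  unfold Flag.P
  have h : ⟪x - (V.M j).starProjection x, (V.M j).starProjection v⟫ = 0 :=
    Submodule.starProjection_inner_eq_zero _ _ (Submodule.starProjection_apply_mem _ _)
  rw [inner_sub_left] at h
  have h1 := real_inner_comm x ((V.M j).starProjection v)
  have h2 := real_inner_comm ((V.M j).starProjection x) ((V.M j).starProjection v)
  linarith

lemma inner_P_sq_le (V : Flag E) (j : ℕ) (v x : E) :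
    ⟪V.P j v, x⟫ ^ 2 ≤ V.b v j * ‖V.P j x‖ ^ 2 := by
  rw [inner_P, Flag.b, ← mul_pow, ← sq_abs]
  exact pow_le_pow_left₀ (abs_nonneg _) (abs_real_inner_le_norm _ _) 2

theorem capH (V : Flag E) {v : E} (hv : ‖v‖ = 1) {s : ℝ} (h0 : 0 < s) (h1 : s < 1) {i : ℕ} {x : E}
    (hx : x ∈ V.M i) :
    (1 - (2 * s - s ^ 2) * (2 * V.b v i + BB V v i)) * V.N i x
      ≤ (V.rot v s).N i (Ts v s x) := by
  have hPx : V.P i x = x := Submodule.starProjection_eq_self_iff.2 hx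
  rcases lt_or_ge i V.n with hi | hi
  · have hsb0 := sbar_pos h0 h1
    have hsb1 := sbar_lt_one h1
    set sb := 2 * s - s ^ 2 with hsb
    rw [N_eq (V.rot v s) (by rw [rot_n]; exact hi), rot_n]
    simp only [norm_P_rot_sq V hv h0 h1]
    rw [← hsb]
    set ξ := ⟪v, x⟫ with hξ
    have hNx := N_eq V hi x
    have hNv := N_v_le V v hi
    set Nx := V.N i x with hNxd
    set Nv := V.N i v with hNvd
    have hP0 : ∀ j, 0 ≤ ‖V.P j x‖ ^ 2 := fun j => by positivity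
    have hsum0 : 0 ≤ ∑ j ∈ Ico (i + 1) V.n, omN (j - i) * ‖V.P j x‖ ^ 2 :=
      Finset.sum_nonneg fun j _ => mul_nonneg (omN_pos _).le (hP0 j)
    have hxN : ‖V.P i x‖ ^ 2 ≤ Nx := by rw [hNx]; linarith
    have hNx0 : 0 ≤ Nx := (hP0 i).trans hxN
    have hbi0 := b_nonneg V v i
    -- `ξ = <P_i v, x>`
    have hξi : ξ = ⟪V.P i v, x⟫ := by
      rw [hξ]
      have h : ⟪v - (V.M i).starProjection v, x⟫ = 0 :=
        Submodule.starProjection_inner_eq_zero _ _ hx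
      rw [inner_sub_left] at h
      show ⟪v, x⟫ = ⟪(V.M i).starProjection v, x⟫
      linarith
    have hξ2 : ξ ^ 2 ≤ V.b v i * Nx := by
      rw [hξi]
      exact (inner_P_sq_le V i v x).trans (mul_le_mul_of_nonneg_left hxN hbi0)
    -- termwise bound
    have hterm : ∀ j, -(sb * (V.b v j * Nx + V.b v i * ‖V.P j x‖ ^ 2)) ≤
        - sb * ξ ^ 2 + sb * ⟪v - V.P j v, x⟫ ^ 2 / (1 - sb * V.b v j) := by
      intro j
      have hbj0 := b_nonneg V v j
      have hpos := one_sub_sb_pos V hv h0 h1 j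
      rw [← hsb] at hpos
      have e1 : sb * ⟪v - V.P j v, x⟫ ^ 2 ≤ sb * ⟪v - V.P j v, x⟫ ^ 2 / (1 - sb * V.b v j) := by
        rw [le_div_iff₀ hpos]
        have : 0 ≤ sb * ⟪v - V.P j v, x⟫ ^ 2 := by positivity
        nlinarith [mul_nonneg this (mul_nonneg hsb0.le hbj0)]
      have e2 : ⟪v - V.P j v, x⟫ = ξ - ⟪V.P j v, x⟫ := by rw [inner_sub_left]
      have e3 := two_mul_le_of_sq hbi0 hNx0 hbj0 (hP0 j) hξ2 (inner_P_sq_le V j v x)
      rw [e2] at e1
      rw [e2]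
      have e4 : sb * (2 * (ξ * ⟪V.P j v, x⟫)) ≤ sb * (V.b v j * Nx + V.b v i * ‖V.P j x‖ ^ 2) :=
        mul_le_mul_of_nonneg_left e3 hsb0.le
      have e5 : 0 ≤ sb * ⟪V.P j v, x⟫ ^ 2 := by positivity
      nlinarith
    -- the first term
    have hfirst : ‖V.P i x‖ ^ 2 - sb * (V.b v i * Nx + V.b v i * ‖V.P i x‖ ^ 2) ≤
        ‖V.P i x‖ ^ 2 - sb * ξ ^ 2 + sb * ⟪v - V.P i v, x⟫ ^ 2 / (1 - sb * V.b v i) := by
      have := hterm i
      linarith
    have hrest : ∑ j ∈ Ico (i + 1) V.n, omN (j - i) * ‖V.P j x‖ ^ 2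
        - sb * (Nx * ∑ j ∈ Ico (i + 1) V.n, omN (j - i) * V.b v j
          + V.b v i * ∑ j ∈ Ico (i + 1) V.n, omN (j - i) * ‖V.P j x‖ ^ 2) ≤
        ∑ j ∈ Ico (i + 1) V.n, omN (j - i) * (‖V.P j x‖ ^ 2 - sb * ξ ^ 2
          + sb * ⟪v - V.P j v, x⟫ ^ 2 / (1 - sb * V.b v j)) := by
      have h2 : ∑ j ∈ Ico (i + 1) V.n, omN (j - i) * ‖V.P j x‖ ^ 2
        - sb * (Nx * ∑ j ∈ Ico (i + 1) V.n, omN (j - i) * V.b v j
          + V.b v i * ∑ j ∈ Ico (i + 1) V.n, omN (j - i) * ‖V.P j x‖ ^ 2)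
          = ∑ j ∈ Ico (i + 1) V.n, omN (j - i) * (‖V.P j x‖ ^ 2
            - sb * (V.b v j * Nx + V.b v i * ‖V.P j x‖ ^ 2)) := by
        rw [Finset.mul_sum, Finset.mul_sum, ← Finset.sum_add_distrib, Finset.mul_sum,
          ← Finset.sum_sub_distrib]
        exact Finset.sum_congr rfl fun j _ => by ring
      rw [h2]
      refine Finset.sum_le_sum fun j _ => mul_le_mul_of_nonneg_left ?_ (omN_pos _).le
      have := hterm j
      linarith
    have hNv2 : Nv = V.b v i + ∑ j ∈ Ico (i + 1) V.n, omN (j - i) * V.b v j := N_eq V hi v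
    have htot := add_le_add hfirst hrest
    refine le_trans ?_ htot
    have h3 : sb * Nx * Nv ≤ sb * Nx * (V.b v i + BB V v i) :=
      mul_le_mul_of_nonneg_left hNv (by positivity)
    rw [hNv2] at h3
    set S1 := ∑ j ∈ Ico (i + 1) V.n, omN (j - i) * ‖V.P j x‖ ^ 2 with hS1
    set S2 := ∑ j ∈ Ico (i + 1) V.n, omN (j - i) * V.b v j with hS2
    have h4 : Nx = ‖V.P i x‖ ^ 2 + S1 := hNx
    have h5 : (1 - sb * (2 * V.b v i + BB V v i)) * Nx
        = Nx - sb * V.b v i * Nx - sb * Nx * (V.b v i + BB V v i) := by ring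
    rw [h5]
    have h6 : sb * V.b v i * Nx = sb * V.b v i * (‖V.P i x‖ ^ 2 + S1) := by rw [← h4]
    nlinarith
  · have hx0 : x = 0 := by
      have := V.bot i hi
      rw [this, Submodule.mem_bot] at hx
      exact hx
    subst hx0
    simp [Flag.N]

theorem rot_k (V : Flag E) {v : E} (hv : ‖v‖ = 1) {s : ℝ} (h1 : s < 1) (i : ℕ) :
    (V.rot v s).k i = V.k i := by
  have hinj : Function.Injective (Ts v s).toLinearMap := by
    rw [Ts_eq]
    intro x y hxy
    have h1' : ⟪v, v⟫ = (1 : ℝ) := by rw [real_inner_self_eq_norm_sq, hv]; norm_num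
    have hs' : (1 - s) ≠ 0 := by linarith
    rw [Rot203.Ts_apply, Rot203.Ts_apply] at hxy
    have h2 : (1 - s) * ⟪v, x⟫ = (1 - s) * ⟪v, y⟫ := by
      have := congrArg (fun z => ⟪v, z⟫) hxy
      simp only [inner_sub_right, inner_smul_right, h1', mul_one] at this
      linarith
    have h3 : ⟪v, x⟫ = ⟪v, y⟫ := mul_left_cancel₀ hs' h2
    rw [h3] at hxy
    exact sub_left_injective hxy
  have h2 : ∀ j, Module.finrank ℝ ((V.rot v s).M j) = Module.finrank ℝ (V.M j) := fun j =>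
    ((Submodule.equivMapOfInjective (Ts v s).toLinearMap hinj (V.M j)).finrank_eq).symm
  unfold Flag.k
  rw [h2, h2]

theorem rot_rr (V : Flag E) {v : E} (hv : ‖v‖ = 1) {s : ℝ} (h1 : s < 1) (i : ℕ) :
    (V.rot v s).rr i = V.rr i := by
  unfold Flag.rr
  rw [rot_n]
  exact Finset.sum_congr rfl fun j _ => by rw [rot_k V hv h1]

end Crest.Agent.R239.CapH171
end

-- ▼ part R239/Cap_526
section

/-! # R239 (helper526): the ellipsoid cap: second moment, Markov cut, admissible bodies -/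

set_option autoImplicit false
set_option linter.unusedSectionVars false
open MeasureTheory ProbabilityTheory Set
open scoped RealInnerProductSpace ENNReal

namespace Crest.Agent.R239.Cap526

open Crest.Agent.R239 Crest.Agent.R239.FD

variable {E : Type*} [NormedAddCommGroup E] [InnerProductSpace ℝ E] [FiniteDimensional ℝ E]
  [MeasurableSpace E] [BorelSpace E]

lemma th_pos : (0 : ℝ) < th := by norm_num [th]

lemma Q_eq (V : Flag E) (j : ℕ) : V.Q j = Mom764.Q V.M j := rfl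
lemma H_eq (V : Flag E) (i : ℕ) : V.H i = Mom764.H th V.M V.n i := rfl

lemma k_cast (V : Flag E) (j : ℕ) : (V.k j : ℝ)
    = (Module.finrank ℝ (V.M j) : ℝ) - Module.finrank ℝ (V.M (j + 1)) := by
  unfold Flag.k
  rw [Nat.cast_sub (Submodule.finrank_mono (V.anti (Nat.le_succ j)))]

lemma rr_nonneg (V : Flag E) (i : ℕ) : 0 ≤ V.rr i :=
  Finset.sum_nonneg fun j _ => mul_nonneg (pow_nonneg th_pos.le _) (Nat.cast_nonneg _)

/-- the root of the cap gauge -/
noncomputable def Bc (V : Flag E) (i : ℕ) : E →L[ℝ] E :=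
  ∑ j ∈ Finset.Ico i V.n, (Real.sqrt th⁻¹) ^ (j - i) • V.Q j

lemma norm_Bc_sq (V : Flag E) (i : ℕ) (x : E) : ‖Bc V i x‖ ^ 2 = V.N i x := by
  have h : Bc V i x = ∑ j ∈ Finset.Ico i V.n, (Real.sqrt th⁻¹) ^ (j - i) • Mom764.Q V.M j x := by
    simp [Bc, Q_eq]
  rw [h, Mom764.norm_sum_Q_sq V.anti]
  unfold Flag.N
  refine Finset.sum_congr rfl fun j _ => ?_
  rw [← pow_mul, mul_comm (j - i) 2, pow_mul, Real.sq_sqrt (inv_nonneg.2 th_pos.le)]
  rfl

lemma N_H (V : Flag E) (i : ℕ) (g : E) :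
    V.N i (V.H i g) = ∑ j ∈ Finset.Ico i V.n, th ^ (j - i) * ‖V.Q j g‖ ^ 2 := by
  unfold Flag.N
  refine Finset.sum_congr rfl fun j hj => ?_
  rw [Finset.mem_Ico] at hj
  have h : V.Q j (V.H i g) = th ^ (j - i) • V.Q j g := Mom764.Q_H V.anti hj.1 hj.2 g
  rw [h, norm_smul, mul_pow, Real.norm_of_nonneg (pow_nonneg th_pos.le _)]
  have h2 : (th⁻¹) ^ (j - i) * th ^ (j - i) = 1 := by
    rw [← mul_pow, inv_mul_cancel₀ th_pos.ne', one_pow]
  calc (th⁻¹) ^ (j - i) * ((th ^ (j - i)) ^ 2 * ‖V.Q j g‖ ^ 2)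
      = ((th⁻¹) ^ (j - i) * th ^ (j - i)) * th ^ (j - i) * ‖V.Q j g‖ ^ 2 := by ring
    _ = th ^ (j - i) * ‖V.Q j g‖ ^ 2 := by rw [h2, one_mul]

/-- second moment of the cap gauge -/
theorem integral_N (V : Flag E) (i : ℕ) : ∫ x, ‖Bc V i x‖ ^ 2 ∂(gau (V.H i)) = V.rr i := by
  rw [Mom764.integral_gau _ (by fun_prop)]
  have h : (fun g => ‖Bc V i (V.H i g)‖ ^ 2)
      = fun g => ∑ j ∈ Finset.Ico i V.n, th ^ (j - i) * ‖V.Q j g‖ ^ 2 := by
    funext g
    rw [norm_Bc_sq, N_H]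
  rw [h, integral_finsetSum _ fun j _ => (Mom764.integrable_norm_sq (V.Q j)).const_mul _]
  unfold Flag.rr
  refine Finset.sum_congr rfl fun j _ => ?_
  rw [integral_const_mul, Q_eq, Mom764.integral_norm_Q_std_sq V.anti, k_cast]


instance (H : E →L[ℝ] E) : IsProbabilityMeasure (gau H) := F6b696.gau_isProb H





end Crest.Agent.R239.Cap526
end

-- ▼ part R239/TLev_746
section

/-! R239 / S0370, Target_LEV, numeric end (helper746): from 772's uniform one-level inequality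
(LEVU) to `Target_LEV`. -/

set_option autoImplicit false
set_option linter.unusedSectionVars false
open MeasureTheory ProbabilityTheory Set
open scoped RealInnerProductSpace

namespace Crest.Agent.R239.TLev746

open Crest.Agent.R239 Crest.Agent.R239.FD

/-- 772's (LEVU) -/
def LEVU (E : Type*) [NormedAddCommGroup E] [InnerProductSpace ℝ E] [FiniteDimensional ℝ E]
    [MeasurableSpace E] [BorelSpace E] : Prop :=
  ∀ (p : Par), p.Ok → ∀ (V : Flag E) (v : E) (s : ℝ) (i : ℕ) (a : ℝ), ‖v‖ = 1 → 0 < s → s < 1 →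
    2 * s - s ^ 2 ≤ 1 / 2 → i < V.n → 0 ≤ a → a ≤ 1 →
    ∃ w : E, ‖w‖ ^ 2 ≤ (1 + a / 3) * V.b v i ∧
      ∀ (μ : Multiset E) (sl : ℝ) (K : Set E), NearOpt p V i μ K sl →
      ∀ K' : Set E, Adm p (V.rot v s) i K' → ∀ t : ℝ, 0 < t →
        D p V i μ ≤ val p (V.rot v s) i μ K' + s * t * S μ v
          + p.lam i * ((2 * s - s ^ 2) * BB V v i
            - Real.log ((stdGaussian E).real {g : E | |⟪w, g⟫| ≤ t})
            + 22 / p.rho ^ 2 * min (1 / 2) ((2 * s - s ^ 2) * (2 * V.b v i + BB V v i))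
            - a * (2 * s - s ^ 2) / 4 * (‖V.Q i v‖ ^ 2
              - (1 + 2 * a * (2 * s - s ^ 2) * ‖V.Q i v‖ ^ 2)
                * ((∫ x in K, ⟪V.Q i v, x⟫ ^ 2 ∂(gau (V.H i))) / (gau (V.H i)).real K)))
          + sl

variable {E : Type*} [NormedAddCommGroup E] [InnerProductSpace ℝ E] [FiniteDimensional ℝ E]
  [MeasurableSpace E] [BorelSpace E]

/-! ### elementary facts -/

lemma b_nonneg (V : Flag E) (v : E) (i : ℕ) : 0 ≤ V.b v i := by
  unfold Flag.b; positivity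

lemma norm_P_le (V : Flag E) (i : ℕ) (x : E) : ‖V.P i x‖ ≤ ‖x‖ :=
  Submodule.norm_starProjection_apply_le _ _

lemma b_le_one (V : Flag E) {v : E} (hv : ‖v‖ = 1) (i : ℕ) : V.b v i ≤ 1 := by
  unfold Flag.b
  have h : ‖V.P i v‖ ≤ 1 := by rw [← hv]; exact norm_P_le V i v
  nlinarith [norm_nonneg (V.P i v)]

lemma BB_nonneg (V : Flag E) (v : E) (i : ℕ) : 0 ≤ BB V v i := by
  unfold BB
  exact Finset.sum_nonneg fun j _ => mul_nonneg (by positivity) (b_nonneg V v j)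

lemma b_succ_le_BB (V : Flag E) (v : E) (i : ℕ) : V.b v (i + 1) ≤ BB V v i := by
  by_cases h : i + 1 < V.n
  · unfold BB
    have h1 : (25 / 8 : ℝ) ^ (i + 1 - i) * V.b v (i + 1)
        ≤ ∑ j ∈ Finset.Ico (i + 1) V.n, (25 / 8 : ℝ) ^ (j - i) * V.b v j := by
      apply Finset.single_le_sum (f := fun j => (25 / 8 : ℝ) ^ (j - i) * V.b v j)
      · intro j _
        exact mul_nonneg (by positivity) (b_nonneg V v j)
      · simp [h]
    have h2 : i + 1 - i = 1 := by omega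
    rw [h2] at h1
    have := b_nonneg V v (i + 1)
    linarith
  · have h1 : V.b v (i + 1) = 0 := by
      have h2 : V.P (i + 1) v ∈ V.M (i + 1) := Submodule.starProjection_apply_mem _ _
      rw [V.bot (i + 1) (by omega)] at h2
      have h3 : V.P (i + 1) v = 0 := (Submodule.mem_bot ℝ).1 h2
      unfold Flag.b
      rw [h3]
      simp
    rw [h1]
    exact BB_nonneg V v i

lemma norm_Q_sq (V : Flag E) (v : E) (i : ℕ) : ‖V.Q i v‖ ^ 2 = V.b v i - V.b v (i + 1) := by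
  have h : V.M (i + 1) ≤ V.M i := V.anti (Nat.le_succ i)
  have h1 : V.P (i + 1) v ∈ V.M (i + 1) := Submodule.starProjection_apply_mem _ _
  have h2 : ⟪V.P i v, V.P (i + 1) v⟫ = ‖V.P (i + 1) v‖ ^ 2 := by
    have e1 : ⟪v - V.P i v, V.P (i + 1) v⟫ = 0 := (V.M i).starProjection_inner_eq_zero v _ (h h1)
    have e2 : ⟪v - V.P (i + 1) v, V.P (i + 1) v⟫ = 0 :=
      (V.M (i + 1)).starProjection_inner_eq_zero v _ h1
    rw [inner_sub_left] at e1 e2
    rw [real_inner_self_eq_norm_sq] at e2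
    linarith
  have h3 : V.Q i v = V.P i v - V.P (i + 1) v := rfl
  rw [h3, norm_sub_sq_real, h2]
  unfold Flag.b
  ring

lemma Q_Q (V : Flag E) (v : E) (i : ℕ) : V.Q i (V.Q i v) = V.Q i v := by
  have h : V.M (i + 1) ≤ V.M i := V.anti (Nat.le_succ i)
  have a1 : V.P i (V.P i v) = V.P i v :=
    Submodule.starProjection_eq_self_iff.2 (Submodule.starProjection_apply_mem _ _)
  have a2 : V.P (i + 1) (V.P (i + 1) v) = V.P (i + 1) v :=
    Submodule.starProjection_eq_self_iff.2 (Submodule.starProjection_apply_mem _ _)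
  have a3 : V.P i (V.P (i + 1) v) = V.P (i + 1) v :=
    Submodule.starProjection_eq_self_iff.2 (h (Submodule.starProjection_apply_mem _ _))
  have a4 : V.P (i + 1) (V.P i v) = V.P (i + 1) v :=
    DFunLike.congr_fun (Submodule.starProjection_comp_starProjection_of_le h) v
  have h3 : ∀ x, V.Q i x = V.P i x - V.P (i + 1) x := fun x => rfl
  rw [h3 (V.Q i v), h3 v, map_sub, map_sub, a1, a2, a3, a4]
  abel

lemma S_nonneg (μ : Multiset E) (v : E) : 0 ≤ S μ v := by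
  unfold S
  apply Multiset.sum_nonneg
  intro y hy
  obtain ⟨z, _, rfl⟩ := Multiset.mem_map.1 hy
  exact abs_nonneg _

/-- thinness controls the energy in the direction `Q_i v` -/
lemma thin_Q {p : Par} {V : Flag E} {μ : Multiset E} {i : ℕ} {c' dl : ℝ}
    (hthin : ThinAt p V μ i c' dl) {K : Set E} (hK : NearOpt p V i μ K (dl * p.lam i)) (v : E) :
    (∫ x in K, ⟪V.Q i v, x⟫ ^ 2 ∂(gau (V.H i))) / (gau (V.H i)).real K
      ≤ (1 - c') * ‖V.Q i v‖ ^ 2 := by
  have hKp : 0 < (gau (V.H i)).real K := hK.1.2.2.2.2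
  by_cases hq : V.Q i v = 0
  · rw [hq]; simp
  have hqn : 0 < ‖V.Q i v‖ := norm_pos_iff.2 hq
  set n : E := ‖V.Q i v‖⁻¹ • V.Q i v with hn
  have hn1 : ‖n‖ = 1 := by
    rw [hn, norm_smul, norm_inv, norm_norm]
    exact inv_mul_cancel₀ hqn.ne'
  have hnQ : V.Q i n = n := by rw [hn, map_smul, Q_Q]
  have h := hthin K hK n hn1 hnQ
  have e : ∀ x : E, ⟪V.Q i v, x⟫ ^ 2 = ‖V.Q i v‖ ^ 2 * ⟪n, x⟫ ^ 2 := by
    intro x
    rw [hn, inner_smul_left]
    simp only [map_inv₀, RCLike.conj_to_real]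
    field_simp
  rw [div_le_iff₀ hKp]
  simp only [e]
  rw [integral_const_mul]
  nlinarith [sq_nonneg ‖V.Q i v‖, mul_le_mul_of_nonneg_left h (sq_nonneg ‖V.Q i v‖)]

lemma adjoint_id' : (ContinuousLinearMap.id ℝ E).adjoint = ContinuousLinearMap.id ℝ E := by
  symm
  rw [ContinuousLinearMap.eq_adjoint_iff]
  intro x y
  simp

/-! ### real inequalities -/

lemma gain_real {sb c' q EK : ℝ} (hsb0 : 0 < sb) (hc0 : 0 < c') (hc1 : c' < 1)
    (hsb : sb ≤ c' / 8) (hq0 : 0 ≤ q) (hq1 : q ≤ 1) (hE : EK ≤ (1 - c') * q) :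
    sb * c' / 8 * q ≤ 1 * sb / 4 * (q - (1 + 2 * 1 * sb * q) * EK) := by
  have h0 : 0 ≤ sb * q := mul_nonneg hsb0.le hq0
  have h1 : (1 + 2 * 1 * sb * q) * EK ≤ (1 + 2 * 1 * sb * q) * ((1 - c') * q) :=
    mul_le_mul_of_nonneg_left hE (by linarith)
  have h4 : sb * q ≤ c' / 8 := by
    calc sb * q ≤ sb * 1 := mul_le_mul_of_nonneg_left hq1 hsb0.le
      _ ≤ c' / 8 := by linarith
  have h3 : (1 + 2 * 1 * sb * q) * (1 - c') ≤ 1 - c' / 2 := by
    have h5 : 0 ≤ 2 * (sb * q) * c' := by positivity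
    linarith
  have h2 : (1 + 2 * 1 * sb * q) * ((1 - c') * q) ≤ (1 - c' / 2) * q := by
    have h6 := mul_le_mul_of_nonneg_right h3 hq0
    linarith
  have h7 : c' / 2 * q ≤ q - (1 + 2 * 1 * sb * q) * EK := by linarith
  have h8 := mul_le_mul_of_nonneg_left h7 (show 0 ≤ 1 * sb / 4 by linarith)
  linarith

lemma cap_real {sb c' b B r : ℝ} (hsb0 : 0 < sb) (hsb : sb ≤ 1 / 2) (hc0 : 0 < c') (hc1 : c' < 1)
    (hb : 0 ≤ b) (hB : 0 ≤ B) (hr : 0 < r) (hrho : 22 * 64 * 2 ≤ c' * r) :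
    22 / r * min (1 / 2) (sb * (2 * b + B)) ≤ sb * c' / 32 * b + 1 / 4 * B := by
  have h1 : 22 / r ≤ c' / 128 := by
    rw [div_le_iff₀ hr]; linarith
  have h2 : 0 ≤ sb * (2 * b + B) := by positivity
  have h5 : c' * sb ≤ 1 := by
    calc c' * sb ≤ 1 * 1 := mul_le_mul hc1.le (by linarith) hsb0.le zero_le_one
      _ = 1 := one_mul 1
  have h6 : c' * sb * B ≤ 1 * B := mul_le_mul_of_nonneg_right h5 hB
  have h7 : 0 ≤ sb * c' * b := by positivity
  calc 22 / r * min (1 / 2) (sb * (2 * b + B))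
      ≤ 22 / r * (sb * (2 * b + B)) :=
        mul_le_mul_of_nonneg_left (min_le_right _ _) (by positivity)
    _ ≤ c' / 128 * (sb * (2 * b + B)) := mul_le_mul_of_nonneg_right h1 h2
    _ ≤ _ := by linarith

lemma coef_real {sb c' q b B X G : ℝ} (hsb0 : 0 < sb) (hsb : sb ≤ 1 / 2) (hc0 : 0 < c')
    (hc1 : c' < 1) (hb : 0 ≤ b) (hB : 0 ≤ B) (hq : b - B ≤ q)
    (hX : X ≤ sb * c' / 32 * b + 1 / 4 * B) (hG : sb * c' / 8 * q ≤ G) :
    sb * B + X - G + sb * c' / 48 * b ≤ -(sb * c' / 16 * b) + 2 * B := by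
  have h2 : sb * c' / 8 * (b - B) ≤ sb * c' / 8 * q :=
    mul_le_mul_of_nonneg_left hq (by positivity)
  have h3 : sb * B ≤ 1 / 2 * B := mul_le_mul_of_nonneg_right hsb hB
  have h5 : sb * c' ≤ 1 := by
    calc sb * c' ≤ 1 * 1 := mul_le_mul (by linarith) hc1.le hc0.le zero_le_one
      _ = 1 := one_mul 1
  have h4 : sb * c' * B ≤ 1 * B := mul_le_mul_of_nonneg_right h5 hB
  have h7 : 0 ≤ sb * c' * b := by positivity
  linarith

/-! ### high levels -/

theorem lev_hi (hL : LEVU E) {p : Par} (hp : p.Ok) {V : Flag E} {μ : Multiset E} {v : E}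
    {I i : ℕ} (hv : ‖v‖ = 1) (hS : S μ v ≤ p.lam I) (hI : I < i) (hi : i < V.n) {c' dl s : ℝ}
    (hc0 : 0 < c') (hc1 : c' < 1) (hdl : 0 < dl) (hs0 : 0 < s) (hs1 : s < 1)
    (hsb : 2 * s - s ^ 2 ≤ c' / 8) (hrho : 22 * 64 * 2 ≤ c' * p.rho ^ 2)
    (hthin : ThinAt p V μ i c' dl) :
    D p V i μ + p.lam i * ((2 * s - s ^ 2) * c' / 16 * V.b v i - 2 * BB V v i)
      - (7 * 64 / ((2 * s - s ^ 2) * c')) * p.lam I * (1 / 2) ^ (i - I) ≤ D p (V.rot v s) i μ := by
  set sb : ℝ := 2 * s - s ^ 2 with hsbd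
  have hsb0 : 0 < sb := by rw [hsbd]; nlinarith
  have hsb2 : sb ≤ 1 / 2 := by linarith
  have hlam := Rem864.lam_pos hp i
  have hlamI := Rem864.lam_pos hp I
  obtain ⟨w, hw, hLw⟩ := hL p hp V v s i 1 hv hs0 hs1 hsb2 hi zero_le_one le_rfl
  set e : ℝ := sb * c' / 64 with he
  have he0 : 0 < e := by positivity
  have he1 : e ≤ 1 := by
    rw [he]
    have : sb * c' ≤ 1 * 1 := mul_le_mul (by linarith) hc1.le hc0.le zero_le_one
    linarith
  obtain ⟨t, ht0, htp, hrem⟩ := Rem864.rem_hi hp hI (S_nonneg μ v) hS hs0.le hs1.le he0 he1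
    (ContinuousLinearMap.id ℝ E) w
  rw [gau_id, adjoint_id'] at hrem
  have hw' : ‖(ContinuousLinearMap.id ℝ E) w‖ ^ 2 ≤ 4 / 3 * V.b v i := by
    simpa using hw.trans (by have := b_nonneg V v i; nlinarith)
  have hb0 := b_nonneg V v i
  have hBB0 := BB_nonneg V v i
  have hbs := b_succ_le_BB V v i
  have hQ := norm_Q_sq V v i
  have hQ0 : 0 ≤ ‖V.Q i v‖ ^ 2 := sq_nonneg _
  have hQ1 : ‖V.Q i v‖ ^ 2 ≤ 1 := by
    have := b_le_one V hv i
    have := b_nonneg V v (i + 1)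
    linarith
  have hrho0 : 0 < p.rho ^ 2 := by
    have := hp.rho_ge
    positivity
  apply le_of_forall_pos_le_add
  intro ε hε
  obtain ⟨K, hKa, hKv⟩ := Fl597.exists_near hp V i μ (e := min ε (dl * p.lam i))
    (lt_min hε (by positivity))
  have hKn1 : NearOpt p V i μ K (dl * p.lam i) := ⟨hKa, hKv.trans (by
    have := min_le_right ε (dl * p.lam i); linarith)⟩
  have hKn2 : NearOpt p V i μ K ε := ⟨hKa, hKv.trans (by
    have := min_le_left ε (dl * p.lam i); linarith)⟩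
  have hth := thin_Q hthin hKn1 v
  have key : ∀ K', Adm p (V.rot v s) i K' →
      D p V i μ + p.lam i * (sb * c' / 16 * V.b v i - 2 * BB V v i)
        - (7 * 64 / (sb * c')) * p.lam I * (1 / 2) ^ (i - I) - ε ≤ val p (V.rot v s) i μ K' := by
    intro K' hK'
    have h := hLw μ ε K hKn2 K' hK' t ht0
    have hgain := gain_real hsb0 hc0 hc1 hsb hQ0 hQ1 hth
    have hcap := cap_real hsb0 hsb2 hc0 hc1 hb0 hBB0 hrho0 hrho
    -- the slab
    have hslab : s * t * S μ v - p.lam i * Real.log ((stdGaussian E).real {g : E | |⟪w, g⟫| ≤ t})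
        ≤ p.lam i * (sb * c' / 48 * V.b v i)
          + (7 * 64 / (sb * c')) * p.lam I * (1 / 2) ^ (i - I) := by
      refine hrem.trans ?_
      have h1 : e * p.lam i * ‖(ContinuousLinearMap.id ℝ E) w‖ ^ 2
          ≤ p.lam i * (sb * c' / 48 * V.b v i) := by
        calc e * p.lam i * ‖(ContinuousLinearMap.id ℝ E) w‖ ^ 2
            ≤ e * p.lam i * (4 / 3 * V.b v i) :=
              mul_le_mul_of_nonneg_left hw' (by positivity)
          _ = _ := by rw [he]; ring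
      have h2 : 7 / e = 7 * 64 / (sb * c') := by
        rw [he]; field_simp
      rw [h2]
      linarith
    have hsum : D p V i μ ≤ val p (V.rot v s) i μ K' + (s * t * S μ v
        - p.lam i * Real.log ((stdGaussian E).real {g : E | |⟪w, g⟫| ≤ t}))
        + p.lam i * (sb * BB V v i
          + 22 / p.rho ^ 2 * min (1 / 2) (sb * (2 * V.b v i + BB V v i))
          - 1 * sb / 4 * (‖V.Q i v‖ ^ 2 - (1 + 2 * 1 * sb * ‖V.Q i v‖ ^ 2)
            * ((∫ x in K, ⟪V.Q i v, x⟫ ^ 2 ∂(gau (V.H i))) / (gau (V.H i)).real K))) + ε := by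
      refine h.trans (le_of_eq ?_)
      ring
    have hcoef := coef_real (q := ‖V.Q i v‖ ^ 2) hsb0 hsb2 hc0 hc1 hb0 hBB0
      (by rw [hQ]; linarith) hcap hgain
    have hm := mul_le_mul_of_nonneg_left hcoef hlam.le
    linarith
  have hfin := Fl597.le_D (V := V.rot v s) (i := i) (μ := μ) hp key
  linarith

/-! ### low levels -/

theorem lev_lo (hL : LEVU E) {p : Par} (hp : p.Ok) {V : Flag E} {μ : Multiset E} {v : E}
    {I i : ℕ} (hv : ‖v‖ = 1) (hS : S μ v ≤ p.lam I) (hI : i ≤ I) (hi : i < V.n) {s : ℝ}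
    (hs0 : 0 < s) (hs1 : s < 1) (hsb : 2 * s - s ^ 2 ≤ 1 / 2) :
    D p V i μ - p.lam i * 9 * BB V v i - 9 * p.lam I * (1 / 2) ^ (I - i)
      ≤ D p (V.rot v s) i μ := by
  set sb : ℝ := 2 * s - s ^ 2 with hsbd
  have hsb0 : 0 < sb := by rw [hsbd]; nlinarith
  have hlam := Rem864.lam_pos hp i
  have hlamI := Rem864.lam_pos hp I
  obtain ⟨w, hw, hLw⟩ := hL p hp V v s i 0 hv hs0 hs1 hsb hi le_rfl zero_le_one
  have hw4 : ‖(ContinuousLinearMap.id ℝ E).adjoint w‖ ^ 2 ≤ 4 := by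
    rw [adjoint_id']
    have h1 := b_le_one V hv i
    have h2 : ‖w‖ ^ 2 ≤ 1 := by
      refine hw.trans ?_
      linarith
    simpa using h2.trans (by norm_num)
  obtain ⟨t, ht0, htp, hrem⟩ := Rem864.rem_lo hp hI (S_nonneg μ v) hS hs0.le hs1.le
    (ContinuousLinearMap.id ℝ E) w hw4
  rw [gau_id] at hrem
  have hBB0 := BB_nonneg V v i
  have hrho0 : 0 < p.rho ^ 2 := by
    have := hp.rho_ge
    positivity
  have hlamle : p.lam i ≤ p.lam I * (1 / 2) ^ (I - i) := by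
    obtain ⟨m, rfl⟩ : ∃ m, I = i + m := ⟨I - i, by omega⟩
    have hm : i + m - i = m := by omega
    rw [hm, Rem864.lam_add, mul_assoc, ← mul_pow]
    have hA := hp.A_ge
    have h1 : (1 : ℝ) ≤ (p.A * (1 / 2)) ^ m := one_le_pow₀ (by linarith)
    nlinarith
  apply le_of_forall_pos_le_add
  intro ε hε
  obtain ⟨K, hKa, hKv⟩ := Fl597.exists_near hp V i μ (e := ε) hε
  have hKn : NearOpt p V i μ K ε := ⟨hKa, hKv⟩
  have key : ∀ K', Adm p (V.rot v s) i K' →
      D p V i μ - p.lam i * 9 * BB V v i - 9 * p.lam I * (1 / 2) ^ (I - i) - ε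
        ≤ val p (V.rot v s) i μ K' := by
    intro K' hK'
    have h := hLw μ ε K hKn K' hK' t ht0
    have hcap : 22 / p.rho ^ 2 * min (1 / 2) (sb * (2 * V.b v i + BB V v i)) ≤ 1 := by
      have h1 : 22 / p.rho ^ 2 ≤ 1 := by
        rw [div_le_one hrho0]
        have := hp.rho_ge
        nlinarith
      have h2 : 0 ≤ 22 / p.rho ^ 2 := by positivity
      calc 22 / p.rho ^ 2 * min (1 / 2) (sb * (2 * V.b v i + BB V v i))
          ≤ 22 / p.rho ^ 2 * (1 / 2) := mul_le_mul_of_nonneg_left (min_le_left _ _) h2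
        _ ≤ 1 := by linarith
    have h3 : sb * BB V v i ≤ 1 / 2 * BB V v i := mul_le_mul_of_nonneg_right hsb hBB0
    have hsum : D p V i μ ≤ val p (V.rot v s) i μ K' + (s * t * S μ v
        - p.lam i * Real.log ((stdGaussian E).real {g : E | |⟪w, g⟫| ≤ t}))
        + p.lam i * (sb * BB V v i
          + 22 / p.rho ^ 2 * min (1 / 2) (sb * (2 * V.b v i + BB V v i))) + ε := by
      refine h.trans (le_of_eq ?_)
      ring
    have hm : p.lam i * (sb * BB V v i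
          + 22 / p.rho ^ 2 * min (1 / 2) (sb * (2 * V.b v i + BB V v i)))
        ≤ p.lam i * (1 / 2 * BB V v i + 1) := mul_le_mul_of_nonneg_left (by linarith) hlam.le
    have hBl : 0 ≤ p.lam i * BB V v i := by positivity
    nlinarith
  have hfin := Fl597.le_D (V := V.rot v s) (i := i) (μ := μ) hp key
  linarith

/-! ### the target -/

theorem target_lev (hL : ∀ d : ℕ, LEVU (EuclideanSpace ℝ (Fin d))) : Target_LEV := by
  intro c' dl hc0 hc1 hdl
  -- `s = c' / 16`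
  set s : ℝ := c' / 16 with hs
  have hs0 : 0 < s := by positivity
  have hs1 : s < 1 := by rw [hs]; linarith
  set sb : ℝ := 2 * s - s ^ 2 with hsb
  have hsb0 : 0 < sb := by rw [hsb]; nlinarith
  have hsb8 : sb ≤ c' / 8 := by rw [hsb, hs]; nlinarith
  set C9 : ℝ := 9 + 7 * 64 / (sb * c') with hC9
  have hC9a : 9 ≤ C9 := by rw [hC9]; have : 0 < 7 * 64 / (sb * c') := by positivity
                           linarith
  have hC9b : 7 * 64 / (sb * c') ≤ C9 := by rw [hC9]; linarith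
  refine ⟨s, sb * c' / 16, C9, 22 * 64 * 2 / c' + 1, hs0, hs1, by positivity, by linarith, ?_⟩
  intro d p hp hrho
  have hrho2 : 22 * 64 * 2 ≤ c' * p.rho ^ 2 := by
    have h1 : 22 * 64 * 2 / c' ≤ p.rho := by linarith
    have h2 : 22 * 64 * 2 ≤ c' * p.rho := by
      rw [div_le_iff₀ hc0] at h1; linarith
    have h3 := hp.rho_ge
    have h4 : p.rho ≤ p.rho ^ 2 := by nlinarith
    nlinarith
  refine ⟨?_, ?_⟩
  · intro V μ v I i hv hS hI hi hthin
    have h := lev_hi (hL d) hp hv hS hI hi hc0 hc1 hdl hs0 hs1 hsb8 hrho2 hthin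
    rw [← hsb] at h
    have hlam := Rem864.lam_pos hp i
    have hlamI := Rem864.lam_pos hp I
    have hBB := BB_nonneg V v i
    have h1 : p.lam i * (2 * BB V v i) ≤ p.lam i * (C9 * BB V v i) := by
      apply mul_le_mul_of_nonneg_left _ hlam.le
      exact mul_le_mul_of_nonneg_right (by linarith) hBB
    have h2 : 7 * 64 / (sb * c') * p.lam I * (1 / 2) ^ (i - I)
        ≤ C9 * p.lam I * (1 / 2) ^ (i - I) := by
      apply mul_le_mul_of_nonneg_right _ (by positivity)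
      exact mul_le_mul_of_nonneg_right hC9b hlamI.le
    linarith
  · intro V μ v I i hv hS hI hi
    have h := lev_lo (hL d) hp hv hS hI hi hs0 hs1 (by rw [← hsb]; linarith)
    have hlam := Rem864.lam_pos hp i
    have hlamI := Rem864.lam_pos hp I
    have hBB := BB_nonneg V v i
    have h1 : p.lam i * 9 * BB V v i ≤ p.lam i * C9 * BB V v i := by
      apply mul_le_mul_of_nonneg_right _ hBB
      exact mul_le_mul_of_nonneg_left hC9a hlam.le
    have h2 : 9 * p.lam I * (1 / 2) ^ (I - i) ≤ C9 * p.lam I * (1 / 2) ^ (I - i) := by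
      apply mul_le_mul_of_nonneg_right _ (by positivity)
      exact mul_le_mul_of_nonneg_right hC9a hlamI.le
    linarith

end Crest.Agent.R239.TLev746
end

-- ▼ part R239/LevU_696

/-! R239, block F6 (helper696): assembly of 772's uniform one-level inequality (LEVU) over FDef and
`target_LEV`. -/

set_option autoImplicit false
set_option linter.unusedSectionVars false
open MeasureTheory ProbabilityTheory Set Filter Topology Pointwise
open scoped RealInnerProductSpace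

namespace Crest.Agent.R239.LevU696

open Crest.Agent.R239 (gau gau_real_apply)
open Crest.Agent.R239.FD
open Crest.Agent.R239.F6b696
open Crest.Agent.R239.F6core696 (mix mem_mix mix_preimage_subset Eh_mix)
open Crest.Agent.R239.CmpR174 (Sc norm_Sc_sq inner_n_Sc)

variable {E : Type*} [NormedAddCommGroup E] [InnerProductSpace ℝ E] [FiniteDimensional ℝ E]
  [MeasurableSpace E] [BorelSpace E]

/-- half sum inequality with a body `Q` given on the side of `V` -/
theorem lev_halfQ {p : Par} (hlam : ∀ i, 0 ≤ p.lam i) {V : Flag E} {i : ℕ} {s t : ℝ} {v : E}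
    (h0 : 0 ≤ s) {K K' Q : Set E} {sl : ℝ} {μ : Multiset E} (hK : NearOpt p V i μ K sl)
    (hK' : IsCompact K') (hQ : Adm p V i Q) (hQK : ∀ x ∈ Q, Ts v s x ∈ K')
    (hQt : ∀ x ∈ Q, |⟪v, x⟫| ≤ t) {L : ℝ}
    (hone : ∀ W : Set E, IsClosed W → (∀ x ∈ V.H i ⁻¹' K, ∀ y ∈ V.H i ⁻¹' Q,
      (1 / 2 : ℝ) • x + (1 / 2 : ℝ) • y ∈ W) →
      Real.log ((stdGaussian E).real (V.H i ⁻¹' K)) + L ≤ 2 * Real.log ((stdGaussian E).real W)) :
    D p V i μ ≤ Eh K' μ + s * t * S μ v - p.lam i * L + sl := by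
  have hcapC := AdmHalf606.cap_compact V i p.rho
  have hcapV := AdmHalf606.cap_convex V i p.rho
  have hE : Eh Q μ ≤ Eh K' μ + s * t * S μ v :=
    F6core696.Eh_pullback hK' ⟨0, zero_mem_of_adm hQ⟩ h0 (fun x => Ts_apply v s x) hQK hQt μ
  have hW := Adm_mix hcapC hcapV hK.1 hQ
  have hKc : IsCompact K := hcapC.of_isClosed_subset hK.1.1 hK.1.2.2.2.1
  have hQc : IsCompact Q := hcapC.of_isClosed_subset hQ.1 hQ.2.2.2.1
  have h1 := D_le_val (μ := μ) hlam hW
  have hEm : Eh (mix (1 / 2) K Q) μ = (1 - 1 / 2) * Eh K μ + 1 / 2 * Eh Q μ :=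
    Eh_mix (by norm_num) (by norm_num) hKc hQc ⟨0, zero_mem_of_adm hK.1⟩ ⟨0, zero_mem_of_adm hQ⟩ μ
  have hWcl : IsClosed (mix (1 / 2) K Q) := hW.1
  have h3 := hone (V.H i ⁻¹' mix (1 / 2) K Q) (hWcl.preimage (V.H i).continuous)
    (fun x hx y hy => by
      apply mix_preimage_subset (V.H i) K Q
      exact mem_mix.2 ⟨x, hx, y, hy, by norm_num⟩)
  rw [← gau_real_apply _ hKc.measurableSet, ← gau_real_apply _ hWcl.measurableSet] at h3
  have h4 := hK.2
  unfold val at h1 h4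
  rw [hEm] at h1
  have h5 : p.lam i * (Real.log ((gau (V.H i)).real K) + L)
      ≤ p.lam i * (2 * Real.log ((gau (V.H i)).real (mix (1 / 2) K Q))) :=
    mul_le_mul_of_nonneg_left h3 (hlam i)
  linarith

lemma H_Q_self (V : Flag E) {i : ℕ} (hi : i < V.n) (x : E) : V.H i (V.Q i x) = V.Q i x := by
  rw [H_apply, Finset.sum_eq_single_of_mem i (Finset.mem_Ico.2 ⟨le_rfl, hi⟩)]
  · rw [Q_Q_self]; simp
  · intro j _ hj
    rw [Q_Q_ne V hj, smul_zero]

lemma inner_H (V : Flag E) (i : ℕ) (x y : E) : ⟪V.H i x, y⟫ = ⟪x, V.H i y⟫ := by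
  rw [MomF764.H_eq]
  exact Mom764.inner_H_left th V.n i x y

lemma inner_Q_H (V : Flag E) {i : ℕ} (hi : i < V.n) (v g : E) :
    ⟪V.Q i v, V.H i g⟫ = ⟪V.Q i v, g⟫ := by
  rw [← inner_H, H_Q_self V hi]

theorem levu : TLev746.LEVU E := by
  intro p hp V v s i a hv h0 h1 hsb hin ha0 ha1
  set sb := 2 * s - s ^ 2 with hsbd
  have hsb0 : 0 < sb := by rw [hsbd]; nlinarith
  have hlam := LevLo696.lam_nonneg hp
  have hr := hp.rho_ge
  -- the direction
  obtain ⟨n, hn, hnQ⟩ : ∃ n : E, ‖n‖ = 1 ∧ V.Q i v = ‖V.Q i v‖ • n := by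
    by_cases hq : V.Q i v = 0
    · exact ⟨v, hv, by rw [hq]; simp⟩
    · refine ⟨‖V.Q i v‖⁻¹ • V.Q i v, ?_, ?_⟩
      · rw [norm_smul, norm_inv, norm_norm, inv_mul_cancel₀ (norm_ne_zero_iff.2 hq)]
      · rw [smul_smul, mul_inv_cancel₀ (norm_ne_zero_iff.2 hq), one_smul]
  set al := ‖V.Q i v‖ with hal
  have hal0 : 0 ≤ al := norm_nonneg _
  have hQle : al ^ 2 ≤ 1 := by
    have h2 := TLev746.norm_Q_sq V v i
    have h3 := TLev746.b_le_one V hv i
    have h4 := TLev746.b_nonneg V v (i + 1)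
    rw [hal]; linarith
  set τ := a * sb * al ^ 2 / 2 with hτd
  have hτ0 : 0 ≤ τ := by positivity
  have hasb : a * sb ≤ 1 / 2 := by nlinarith
  have hτa : τ ≤ a / 4 := by
    rw [hτd]
    have : a * sb * al ^ 2 ≤ a * sb * 1 := mul_le_mul_of_nonneg_left hQle (by positivity)
    nlinarith
  have hτ : τ ≤ 1 / 4 := by linarith
  -- the map
  obtain ⟨J, u, hN, hu⟩ := F5336.f5_N V hv h0 h1 hsb i
  have hN' : ∀ g, ‖Rm V v s i g‖ ^ 2 + τ * ⟪n, g⟫ ^ 2 ≤ ‖g‖ ^ 2 + ∑ k ∈ J, ⟪u k, g⟫ ^ 2 := by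
    intro g
    have h2 := hN g
    rw [Rm_apply]
    have h3 : τ * ⟪n, g⟫ ^ 2 = a * (sb / 2 * ⟪V.Q i v, g⟫ ^ 2) := by
      have : ⟪V.Q i v, g⟫ = al * ⟪n, g⟫ := by
        rw [hnQ, real_inner_smul_left]
      rw [this, hτd]; ring
    have h4 : 0 ≤ sb / 2 * ⟪V.Q i v, g⟫ ^ 2 := by positivity
    rw [h3]
    nlinarith
  set w := Sc n (1 / Real.sqrt (1 - τ)) ((V.H i).adjoint v) with hw
  have h1τ : 0 < 1 - τ := by linarith
  have hc2 : (1 / Real.sqrt (1 - τ)) ^ 2 = 1 / (1 - τ) := by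
    rw [div_pow, one_pow, Real.sq_sqrt h1τ.le]
  refine ⟨w, ?_, ?_⟩
  · rw [hw, norm_Sc_sq hn, hc2]
    have h2 : ⟪n, (V.H i).adjoint v⟫ ^ 2 ≤ ‖(V.H i).adjoint v‖ ^ 2 := by
      have h3 := abs_real_inner_le_norm n ((V.H i).adjoint v)
      rw [hn, one_mul] at h3
      rw [← sq_abs]
      exact pow_le_pow_left₀ (abs_nonneg _) h3 2
    have h3 : 0 ≤ 1 / (1 - τ) - 1 := by
      rw [sub_nonneg, le_div_iff₀ h1τ]; linarith
    have h4 : 1 / (1 - τ) ≤ 1 + a / 3 := by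
      rw [div_le_iff₀ h1τ]
      nlinarith
    have h5 := LevLo696.var_v_le V v i
    have h6 : 0 ≤ ‖(V.H i).adjoint v‖ ^ 2 := sq_nonneg _
    calc ‖(V.H i).adjoint v‖ ^ 2 + (1 / (1 - τ) - 1) * ⟪n, (V.H i).adjoint v⟫ ^ 2
        ≤ ‖(V.H i).adjoint v‖ ^ 2 + (1 / (1 - τ) - 1) * ‖(V.H i).adjoint v‖ ^ 2 := by gcongr
      _ = 1 / (1 - τ) * ‖(V.H i).adjoint v‖ ^ 2 := by ring
      _ ≤ (1 + a / 3) * V.b v i := mul_le_mul h4 h5 h6 (by positivity)
  intro μ sl K hK K' hK' t ht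
  have hK'c : IsCompact K' := AdmHalf606.adm_compact hK'
  -- the one-body inequality
  set Hs := (V.rot v s).H i with hHs
  have hBc : IsClosed (Hs ⁻¹' K') := hK'.1.preimage Hs.continuous
  have hBp : 0 < (stdGaussian E).real (Hs ⁻¹' K') := by
    rw [← gau_real_apply _ hK'.1.measurableSet]; exact hK'.2.2.2.2
  have hrr0 : 0 ≤ V.rr i := Cap526.rr_nonneg V i
  set R0 := p.rho * Real.sqrt (V.rr i) with hR0
  have hR0sq : R0 ^ 2 = p.rho ^ 2 * V.rr i := by rw [hR0, mul_pow, Real.sq_sqrt hrr0]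
  have hR0n : 0 ≤ R0 := by positivity
  set Y : E →L[ℝ] E := Cap526.Bc V i ∘L V.H i with hY
  have hYn : ∀ g, ‖Y g‖ ^ 2 = V.N i (V.H i g) := fun g => by
    rw [hY, ContinuousLinearMap.comp_apply, Cap526.norm_Bc_sq]
  have hYint : ∫ x, ‖Y x‖ ^ 2 ∂(stdGaussian E) = V.rr i := by
    have h2 := Cap526.integral_N V i
    rw [Mom764.integral_gau _ (by fun_prop)] at h2
    exact h2
  have he : 1 / p.rho ^ 2 ≤ 3 / 32 := by
    rw [div_le_div_iff₀ (by positivity) (by norm_num)]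
    nlinarith
  obtain ⟨hpos, hone⟩ := LevU772.one_body (R := Rm V v s i) hn hτ0 hτ hN' (B := Hs ⁻¹' K') hBc
    (Dom640.pre_conv _ hK'.2.1) (Dom640.pre_symm _ hK'.2.2.1) hBp ((V.H i).adjoint v) ht Y
    (R0 := R0) (e := 1 / p.rho ^ 2) (h := sb * (2 * V.b v i + BB V v i)) hR0n (by positivity) he
    (by
      rw [hYint, hR0sq]
      apply le_of_eq
      have : p.rho ≠ 0 := by linarith
      field_simp)
    (by
      have := TLev746.b_nonneg V v i
      have := TLev746.BB_nonneg V v i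
      positivity)
    (by
      intro g hg
      have h2 : Ts v s (V.H i g) ∈ K' := by rw [Ts_H]; exact hg
      have h3 := (hK'.2.2.2.1 h2).2
      have h4 := CapH171.capH V hv h0 h1 (H_mem V i g)
      rw [hYn, hR0sq]
      rw [CapH171.rot_rr V hv h1 i] at h3
      exact h4.trans h3)
  -- the body
  set Q : Set E := Qb V v s i K' ∩ {x | |⟪v, x⟫| ≤ t} ∩ V.cap p.rho i with hQ
  have hQpre : V.H i ⁻¹' Q = {g | Rm V v s i g ∈ Hs ⁻¹' K'}
      ∩ {g | |⟪(V.H i).adjoint v, g⟫| ≤ t} ∩ {g | ‖Y g‖ ≤ R0} := by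
    ext g
    simp only [hQ, mem_preimage, mem_inter_iff, mem_ofPred_eq, Qb, SetLike.mem_coe, H_mem V i g,
      and_true, Flag.cap, true_and]
    rw [Ts_H V i g, ContinuousLinearMap.adjoint_inner_left]
    have h2 : V.N i (V.H i g) ≤ p.rho ^ 2 * V.rr i ↔ ‖Y g‖ ≤ R0 := by
      rw [← hYn, ← hR0sq]
      exact sq_le_sq₀ (norm_nonneg _) hR0n
    rw [h2]
  have hMc : IsClosed (V.M i : Set E) := Submodule.closed_of_finiteDimensional _
  have hQ0cl : IsClosed (Qb V v s i K') := (hK'.1.preimage (Ts v s).continuous).inter hMc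
  have hQ0v : Convex ℝ (Qb V v s i K') :=
    (hK'.2.1.linear_preimage (Ts v s).toLinearMap).inter (V.M i).convex
  have hSlcl : IsClosed {x : E | |⟪v, x⟫| ≤ t} := isClosed_le (by fun_prop) continuous_const
  have hSlv : Convex ℝ {x : E | |⟪v, x⟫| ≤ t} := by
    intro x hx y hy c d hc hd hcd
    simp only [mem_ofPred_eq] at hx hy ⊢
    rw [inner_add_right, inner_smul_right, inner_smul_right]
    calc |c * ⟪v, x⟫ + d * ⟪v, y⟫| ≤ |c * ⟪v, x⟫| + |d * ⟪v, y⟫| := abs_add_le _ _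
      _ = c * |⟪v, x⟫| + d * |⟪v, y⟫| := by
          rw [abs_mul, abs_mul, abs_of_nonneg hc, abs_of_nonneg hd]
      _ ≤ c * t + d * t := by gcongr
      _ = t := by rw [← add_mul, hcd, one_mul]
  have hQcl : IsClosed Q := (hQ0cl.inter hSlcl).inter (AdmHalf606.cap_closed V i _)
  have hQadm : Adm p V i Q := by
    refine ⟨hQcl, (hQ0v.inter hSlv).inter (AdmHalf606.cap_convex V i _), ?_, fun x hx => hx.2, ?_⟩
    · rintro x ⟨⟨⟨hx1, hx2⟩, hx3⟩, hx4⟩
      refine ⟨⟨⟨?_, (V.M i).neg_mem hx2⟩, ?_⟩, AdmHalf606.cap_neg V i _ hx4⟩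
      · simp only [mem_preimage, map_neg]
        exact hK'.2.2.1 _ hx1
      · simp only [mem_ofPred_eq, inner_neg_right, abs_neg] at hx3 ⊢
        exact hx3
    · rw [gau_real_apply _ hQcl.measurableSet, hQpre]
      exact hpos
  have hKp : 0 < (stdGaussian E).real (V.H i ⁻¹' K) := by
    rw [← gau_real_apply _ hK.1.1.measurableSet]; exact hK.1.2.2.2.2
  have hmain := lev_halfQ hlam h0.le hK hK'c hQadm (fun x hx => hx.1.1.1) (fun x hx => hx.1.2)
    (L := _) (fun W hW hWm => hone (V.H i ⁻¹' K) ((V.H i).continuous.measurable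
      hK.1.1.measurableSet) hKp W hW (fun x hx y hy => hWm x hx y (by rw [hQpre]; exact hy)))
  -- the integral over `K`
  have hint : (∫ x in K, ⟪V.Q i v, x⟫ ^ 2 ∂(gau (V.H i))) / (gau (V.H i)).real K
      = al ^ 2 * ((∫ x in V.H i ⁻¹' K, ⟪n, x⟫ ^ 2 ∂(stdGaussian E))
          / (stdGaussian E).real (V.H i ⁻¹' K)) := by
    rw [gau_real_apply _ hK.1.1.measurableSet, ← mul_div_assoc]
    congr 1
    unfold gau
    rw [setIntegral_map hK.1.1.measurableSet (by fun_prop) (V.H i).continuous.aemeasurable,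
      ← integral_const_mul]
    refine setIntegral_congr_fun ((V.H i).continuous.measurable hK.1.1.measurableSet) ?_
    intro g _
    simp only []
    rw [inner_Q_H V hin, hnQ, real_inner_smul_left]
    ring
  rw [hint]
  set X := (∫ x in V.H i ⁻¹' K, ⟪n, x⟫ ^ 2 ∂(stdGaussian E))
          / (stdGaussian E).real (V.H i ⁻¹' K) with hX
  rw [← gau_real_apply _ hK'.1.measurableSet] at hmain
  unfold val
  have e1 : 64 / 3 * (1 / p.rho ^ 2) * min (1 / 2) (sb * (2 * V.b v i + BB V v i))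
      ≤ 22 / p.rho ^ 2 * min (1 / 2) (sb * (2 * V.b v i + BB V v i)) := by
    apply mul_le_mul_of_nonneg_right
    · rw [mul_one_div]
      exact div_le_div_of_nonneg_right (by norm_num) (by positivity)
    · have := TLev746.b_nonneg V v i
      have := TLev746.BB_nonneg V v i
      exact le_min (by norm_num) (by positivity)
  have e2 : τ / 2 * (1 - (1 + 4 * τ) * X)
      = a * sb / 4 * (al ^ 2 - (1 + 2 * a * sb * al ^ 2) * (al ^ 2 * X)) := by
    rw [hτd]; ring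
  rw [e2] at hmain
  have e3 : p.lam i * (sb * BB V v i
            - Real.log ((stdGaussian E).real {g : E | |⟪w, g⟫| ≤ t})
            + 22 / p.rho ^ 2 * min (1 / 2) (sb * (2 * V.b v i + BB V v i))
            - a * sb / 4 * (al ^ 2 - (1 + 2 * a * sb * al ^ 2) * (al ^ 2 * X)))
      ≥ p.lam i * (∑ k ∈ J, ‖u k‖ ^ 2
            - Real.log ((stdGaussian E).real {g : E | |⟪w, g⟫| ≤ t})
            + 64 / 3 * (1 / p.rho ^ 2) * min (1 / 2) (sb * (2 * V.b v i + BB V v i))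
            - a * sb / 4 * (al ^ 2 - (1 + 2 * a * sb * al ^ 2) * (al ^ 2 * X))) :=
    mul_le_mul_of_nonneg_left (by linarith) (hlam i)
  linarith

/-- **Target_LEV** -/
theorem target_LEV : Target_LEV := TLev746.target_lev fun _ => levu

end Crest.Agent.R239.LevU696
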