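import Mathlib
import Crest.Agent.R239.FDef
import Crest.Agent.R239.Ins_556b
import Crest.Agent.R239.L0_942
import Crest.Agent.R239.Gau6
import Crest.Agent.R239.LineGauss
import Crest.Agent.R239.Fl_597

-- ▼ part R239/Fin504a
section

/-!
# R239 (S0370), block F10, part a (helper504): the real-number part of the final step (U3)

One grid `lam i = lam0 * A ^ i` (301's form, no `tau`):

* `exists_level` : the level `I` with `lam I ≤ x < lam (I + 1)`;
* `c3_sum`, `c4_sum` : the absolute constants `C3 = 3`, `C4 = 4` from the tilt estimate at the level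
  `I + 2` (`θ = 4/5`);
* `tilt_of_sum` : from the sum form of the tilt estimate to single levels;
* `grow_real` : insertion + growth ⟹ `(3/10) lam I / C1`;
* `U3_real` : conclusion with `c = 3 η / (10 A)`, `dl = c lam0 / (C1 η)`.
-/

set_option autoImplicit false

open Finset

namespace Crest.Agent.R239.Fin504

/-- the level of a letter -/
theorem exists_level {A lam0 x : ℝ} (hA : 1 < A) (h0 : 0 < lam0) (hx : lam0 ≤ x) :
    ∃ I : ℕ, lam0 * A ^ I ≤ x ∧ x < lam0 * A ^ (I + 1) := by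
  obtain ⟨n, h1, h2⟩ := exists_nat_pow_near (x := x / lam0) (y := A)
    (by rw [le_div_iff₀ h0]; linarith) hA
  refine ⟨n, ?_, ?_⟩
  · rw [le_div_iff₀ h0] at h1
    linarith
  · rw [div_lt_iff₀ h0] at h2
    linarith

/-- sum form of the tilt estimate ⟹ single levels -/
theorem tilt_of_sum {lam0 A C8 : ℝ} {b : ℕ → ℝ} {I n : ℕ} (h0 : 0 < lam0) (hA : 0 < A)
    (hb0 : ∀ i, 0 ≤ b i) (hn : ∀ i, n ≤ i → b i = 0) (hC8 : 0 ≤ C8)
    (hT : ∑ i ∈ Ico (I + 1) n, lam0 * A ^ i * b i ≤ C8 * (lam0 * A ^ I)) {i : ℕ} (hi : I < i) :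
    b i ≤ C8 * (A⁻¹) ^ (i - I) := by
  have hp : 0 < A⁻¹ := inv_pos.2 hA
  rcases le_or_gt n i with h | h
  · rw [hn i h]
    positivity
  · have h1 : lam0 * A ^ i * b i ≤ C8 * (lam0 * A ^ I) := by
      refine le_trans ?_ hT
      refine single_le_sum (f := fun i => lam0 * A ^ i * b i) (fun j _ => ?_)
        (mem_Ico.2 ⟨hi, h⟩)
      have := hb0 j
      positivity
    obtain ⟨k, rfl⟩ := Nat.exists_eq_add_of_lt hi
    have e : I + k + 1 - I = k + 1 := by omega
    rw [e]
    have e2 : lam0 * A ^ (I + k + 1) * b (I + k + 1) =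
        (lam0 * A ^ I) * (A ^ (k + 1) * b (I + k + 1)) := by
      rw [show I + k + 1 = I + (k + 1) by ring, pow_add]; ring
    rw [e2, mul_comm C8] at h1
    have h2 : A ^ (k + 1) * b (I + k + 1) ≤ C8 := le_of_mul_le_mul_left h1 (by positivity)
    rw [inv_pow]
    have hA1 : 0 < A ^ (k + 1) := pow_pos hA _
    rw [← div_eq_mul_inv, le_div_iff₀ hA1]
    linarith

section sums

variable {b c : ℕ → ℝ} {I n : ℕ} {C8 A : ℝ}

/-- the constant `C3` -/
theorem c3_sum (hb0 : ∀ i, 0 ≤ b i) (hb1 : b I ≤ 1) (hanti : ∀ i, b (i + 1) ≤ b i)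
    (hT : ∀ i, I + 2 < i → b i ≤ C8 * (A⁻¹) ^ (i - (I + 2))) (hC8 : 1 ≤ C8)
    (hA : 40000 * C8 ≤ A) :
    ∑ j ∈ Ico I n, (5 / 4 : ℝ) ^ (2 * (j - I)) * (b j - b (j + 1)) ≤ 3 := by
  have hA0 : 0 < A := by linarith
  rw [sum_Ico_eq_sum_range]
  have key : ∀ N : ℕ, ∑ m ∈ range N, (5 / 4 : ℝ) ^ (2 * (I + m - I)) *
      (b (I + m) - b (I + m + 1)) ≤ 625 / 256 * (b I - b (I + N)) +
        1 / 2 * (1 - (1 / 2 : ℝ) ^ N) := by
    intro N
    induction N with
    | zero => simp
    | succ N ih =>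
      rw [sum_range_succ]
      have e : I + N - I = N := by omega
      rw [e]
      have hd : 0 ≤ b (I + N) - b (I + N + 1) := by linarith [hanti (I + N)]
      have hd2 : b (I + N) - b (I + N + 1) ≤ b (I + N) := by linarith [hb0 (I + N + 1)]
      have step : (5 / 4 : ℝ) ^ (2 * N) * (b (I + N) - b (I + N + 1)) ≤
          625 / 256 * (b (I + N) - b (I + N + 1)) + 1 / 2 * ((1 / 2 : ℝ) ^ (N + 1)) := by
        rcases Nat.lt_or_ge N 3 with h | h
        · have h1 : (5 / 4 : ℝ) ^ (2 * N) ≤ 625 / 256 := by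
            calc (5 / 4 : ℝ) ^ (2 * N) ≤ (5 / 4) ^ 4 :=
                  pow_le_pow_right₀ (by norm_num) (by omega)
              _ = 625 / 256 := by norm_num
          have := mul_le_mul_of_nonneg_right h1 hd
          have h2 : 0 ≤ (1 / 2 : ℝ) ^ (N + 1) := by positivity
          linarith
        · obtain ⟨k, rfl⟩ := Nat.exists_eq_add_of_le h
          have h1 := hT (I + (3 + k)) (by omega)
          have e1 : I + (3 + k) - (I + 2) = k + 1 := by omega
          rw [e1] at h1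
          have h2 : (5 / 4 : ℝ) ^ (2 * (3 + k)) * (b (I + (3 + k)) - b (I + (3 + k) + 1)) ≤
              (5 / 4 : ℝ) ^ (2 * (3 + k)) * (C8 * (A⁻¹) ^ (k + 1)) :=
            mul_le_mul_of_nonneg_left (hd2.trans h1) (by positivity)
          have h3 : (5 / 4 : ℝ) ^ (2 * (3 + k)) * (C8 * (A⁻¹) ^ (k + 1)) ≤
              1 / 2 * ((1 / 2 : ℝ) ^ (3 + k + 1)) := by
            have q1 : (25 / 16 * A⁻¹) ≤ 1 / 2 := by
              rw [← div_eq_mul_inv, div_le_iff₀ hA0]; linarith
            have q0 : 0 ≤ 25 / 16 * A⁻¹ := by positivity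
            have e3 : (5 / 4 : ℝ) ^ (2 * (3 + k)) * (C8 * (A⁻¹) ^ (k + 1)) =
                (25 / 16) ^ 2 * (C8 * (25 / 16 * A⁻¹)) * (25 / 16 * A⁻¹) ^ k := by
              rw [mul_pow (25 / 16 : ℝ) A⁻¹ k, pow_mul]
              ring
            rw [e3]
            have q2 : C8 * (25 / 16 * A⁻¹) ≤ 1 / 100 := by
              have : C8 * A⁻¹ ≤ 1 / 40000 := by
                rw [← div_eq_mul_inv, div_le_iff₀ hA0]; linarith
              linarith
            have q3 : (25 / 16 * A⁻¹) ^ k ≤ (1 / 2 : ℝ) ^ k := pow_le_pow_left₀ q0 q1 k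
            have q4 : 0 ≤ C8 * (25 / 16 * A⁻¹) := by positivity
            have q5 : 0 ≤ (1 / 2 : ℝ) ^ k := by positivity
            calc (25 / 16 : ℝ) ^ 2 * (C8 * (25 / 16 * A⁻¹)) * (25 / 16 * A⁻¹) ^ k
                ≤ (25 / 16 : ℝ) ^ 2 * (1 / 100) * (1 / 2) ^ k := by
                  refine mul_le_mul ?_ q3 (pow_nonneg q0 k) (by norm_num)
                  exact mul_le_mul_of_nonneg_left q2 (by norm_num)
              _ ≤ 1 / 2 * ((1 / 2 : ℝ) ^ (3 + k + 1)) := by
                  have : (1 / 2 : ℝ) ^ (3 + k + 1) = 1 / 16 * (1 / 2) ^ k := by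
                    rw [show 3 + k + 1 = k + 4 by ring, pow_add]; norm_num; ring
                  rw [this]
                  nlinarith
          have h4 : 0 ≤ b (I + (3 + k)) - b (I + (3 + k) + 1) := hd
          linarith
      have e2 : (1 / 2 : ℝ) ^ (N + 1) = 1 / 2 * (1 / 2) ^ N := by rw [pow_succ]; ring
      have e3 : I + (N + 1) = I + N + 1 := by ring
      rw [e3]
      rw [e2] at step ⊢
      linarith
  have h := key (n - I)
  have h1 : 0 ≤ (1 / 2 : ℝ) ^ (n - I) := by positivity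
  have h2 := hb0 (I + (n - I))
  linarith


end sums

/-- insertion + growth at one level -/
theorem grow_real {C1 lamI kin U U' J J1 J2 e0 : ℝ} (hC1 : 0 < C1) (hlam : 0 < lamI)
    (hkin : kin ≤ 9 / (100 * C1)) (hNM : U - e0 ≤ J) (he0 : e0 ≤ lamI / (100 * C1))
    (hins : J - lamI * kin ≤ J1) (hgr : J1 + 2 / 5 * (lamI / C1) ≤ J2) (hsup : J2 ≤ U') :
    U + 3 / 10 * (lamI / C1) ≤ U' := by
  have h1 : lamI * kin ≤ lamI * (9 / (100 * C1)) := mul_le_mul_of_nonneg_left hkin hlam.le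
  have e1 : lamI * (9 / (100 * C1)) = 9 / 100 * (lamI / C1) := by field_simp
  have e2 : lamI / (100 * C1) = 1 / 100 * (lamI / C1) := by field_simp
  rw [e1] at h1
  rw [e2] at he0
  linarith


/-- the level `I + 2` dominates `S` -/
theorem S_le_level {A lam0 C1 η S S' : ℝ} {I : ℕ} (h0 : 0 < lam0) (hC1 : 0 < C1)
    (hη : 0 < η) (hA : 1 ≤ 2 * C1 * η * A) (hA0 : 0 < A) (hS : 2 * S ≤ S')
    (h : C1 * η * S' < lam0 * A ^ (I + 1)) : S ≤ lam0 * A ^ (I + 2) := by
  have h1 : C1 * η * (2 * S) ≤ lam0 * A ^ (I + 1) :=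
    (mul_le_mul_of_nonneg_left hS (by positivity)).trans h.le
  have h2 : 0 < lam0 * A ^ (I + 1) := by positivity
  have e : lam0 * A ^ (I + 2) = A * (lam0 * A ^ (I + 1)) := by rw [pow_succ]; ring
  rw [e]
  have hp : 0 < 2 * (C1 * η) := by positivity
  rw [← mul_le_mul_iff_right₀ hp]
  calc 2 * (C1 * η) * S ≤ lam0 * A ^ (I + 1) := by linarith
    _ = 1 * (lam0 * A ^ (I + 1)) := (one_mul _).symm
    _ ≤ (2 * C1 * η * A) * (lam0 * A ^ (I + 1)) := mul_le_mul_of_nonneg_right hA h2.le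
    _ = 2 * (C1 * η) * (A * (lam0 * A ^ (I + 1))) := by ring

end Crest.Agent.R239.Fin504
end

-- ▼ part R239/Fin504
section

/-!
# R239 (S0370), block F10 (helper504): final step (U3) over `FDef` (ellipsoid cap, one grid), wiring

* `Ut` : `J_le_Ut`, `Ut_nonneg`, `Ut_near`, `Ut_mono`, `Ut_cons` (from `P_U2`, `P_J0`, `P_D_mono`);
* `k_pos`, `rr_ge` : the trace `V.rr I` is at least `th ^ 2` from the tilt estimate;
* `U3t` : `P_INS`, `P_GROWTH`, `P_T1`, `P_D_mono` ⟹ `P_U3t`;
* `target_U3 : Target_GROWTH → Target_T1 → Target_INS → Target_U2 → Target_U3`;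
* `S0370_of_targets : Target_U3 → Target_U2 → ` the statement of S0370.
-/

set_option autoImplicit false
set_option linter.unusedSectionVars false

open MeasureTheory ProbabilityTheory Finset
open scoped RealInnerProductSpace

namespace Crest.Agent.R239.Fin504

open Crest.Agent.R239.FD
open Crest.Agent.R239.Ins556 (Qp Hc norm_sq_Qp norm_sq_Hc)

variable {E : Type*} [NormedAddCommGroup E] [InnerProductSpace ℝ E] [FiniteDimensional ℝ E]
  [MeasurableSpace E] [BorelSpace E]

/-! ### the functional `Ut` -/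

section Ut

variable {p : Par} {C : ℝ}

theorem J_bdd (h2 : P_U2 E p C) (h0 : P_J0 E p) (V : Flag E) (μ : Multiset E) :
    J p V μ ≤ C * Real.sqrt (Module.finrank ℝ E) * (μ.map fun z => ‖z‖).sum := by
  induction μ using Multiset.induction with
  | empty => simpa using h0 V
  | cons z μ ih =>
    rw [Multiset.map_cons, Multiset.sum_cons]
    have := h2 V z μ
    nlinarith

theorem bdd_J (h2 : P_U2 E p C) (h0 : P_J0 E p) (μ : Multiset E) :
    BddAbove (Set.range fun V : Flag E => J p V μ) := by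
  refine ⟨C * Real.sqrt (Module.finrank ℝ E) * (μ.map fun z => ‖z‖).sum, ?_⟩
  rintro _ ⟨V, rfl⟩
  exact J_bdd h2 h0 V μ

theorem J_le_Ut {μ : Multiset E} (hb : BddAbove (Set.range fun V : Flag E => J p V μ))
    (V : Flag E) : J p V μ ≤ Ut p μ := le_csSup hb ⟨V, rfl⟩

/-- the zero flag -/
def triv : Flag E := ⟨0, fun _ => ⊥, fun _ _ _ => le_rfl, fun _ _ => rfl⟩

theorem J_triv (p : Par) (μ : Multiset E) : J p (triv : Flag E) μ = 0 := by
  unfold J triv
  simp

theorem Ut_nonneg {μ : Multiset E} (hb : BddAbove (Set.range fun V : Flag E => J p V μ)) :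
    0 ≤ Ut p μ := by
  have := J_le_Ut hb (triv : Flag E)
  rwa [J_triv] at this

theorem range_ne (p : Par) (μ : Multiset E) : (Set.range fun V : Flag E => J p V μ).Nonempty :=
  ⟨_, triv, rfl⟩

theorem Ut_near {μ : Multiset E} (hb : BddAbove (Set.range fun V : Flag E => J p V μ)) {e : ℝ}
    (he : 0 < e) : ∃ V : Flag E, Ut p μ - e ≤ J p V μ ∧ NearMax p V μ e := by
  obtain ⟨_, ⟨V, rfl⟩, hV⟩ := exists_lt_of_lt_csSup (range_ne p μ)
    (show Ut p μ - e < sSup (Set.range fun V : Flag E => J p V μ) by unfold Ut; linarith)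
  refine ⟨V, hV.le, fun V' => ?_⟩
  have h1 := J_le_Ut hb V'
  simp only at hV
  linarith

theorem J_mono (hm : P_D_mono E p) (V : Flag E) (s : Multiset (E × E)) :
    J p V (s.map fun q => q.1 + q.2) ≤ J p V (s.map Prod.fst + s.map Prod.snd) :=
  sum_le_sum fun i _ => sub_le_sub_right (hm V i s) _

theorem Ut_mono (hm : P_D_mono E p) (s : Multiset (E × E))
    (hb : BddAbove (Set.range fun V : Flag E => J p V (s.map Prod.fst + s.map Prod.snd))) :
    Ut p (s.map fun q => q.1 + q.2) ≤ Ut p (s.map Prod.fst + s.map Prod.snd) := by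
  refine csSup_le (range_ne p _) ?_
  rintro _ ⟨V, rfl⟩
  exact (J_mono hm V s).trans (J_le_Ut hb V)

theorem Ut_cons (h2 : P_U2 E p C) (z : E) (μ : Multiset E)
    (hb : BddAbove (Set.range fun V : Flag E => J p V μ)) :
    Ut p (z ::ₘ μ) ≤ Ut p μ + C * Real.sqrt (Module.finrank ℝ E) * ‖z‖ := by
  refine csSup_le (range_ne p _) ?_
  rintro _ ⟨V, rfl⟩
  exact (h2 V z μ).trans (add_le_add_left (J_le_Ut hb V) _)

/-- growth at one level -/
theorem J_grow (hm : P_D_mono E p) {V : Flag E} {I : ℕ} (hI : I < V.n) {s : Multiset (E × E)}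
    {g : ℝ} (hD : D p V I (s.map fun q => q.1 + q.2) + g ≤
      D p V I (s.map Prod.fst + s.map Prod.snd)) :
    J p V (s.map fun q => q.1 + q.2) + g ≤ J p V (s.map Prod.fst + s.map Prod.snd) := by
  have h1 : D p V I (s.map Prod.fst + s.map Prod.snd) - D p V I (s.map fun q => q.1 + q.2) ≤
      ∑ i ∈ range V.n, (D p V i (s.map Prod.fst + s.map Prod.snd) -
        D p V i (s.map fun q => q.1 + q.2)) :=
    single_le_sum (f := fun i => D p V i (s.map Prod.fst + s.map Prod.snd) -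
      D p V i (s.map fun q => q.1 + q.2)) (fun i _ => sub_nonneg.2 (hm V i s))
      (mem_range.2 hI)
  have h2 : J p V (s.map Prod.fst + s.map Prod.snd) - J p V (s.map fun q => q.1 + q.2) =
      ∑ i ∈ range V.n, (D p V i (s.map Prod.fst + s.map Prod.snd) -
        D p V i (s.map fun q => q.1 + q.2)) := by
    unfold J
    rw [← sum_sub_distrib]
    exact sum_congr rfl fun i _ => by ring
  linarith

end Ut

/-! ### flags -/

section flag

variable (V : Flag E) (v : E)

theorem b_nonneg (i : ℕ) : 0 ≤ V.b v i := sq_nonneg _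

theorem norm_P_le (i : ℕ) : ‖V.P i v‖ ≤ ‖v‖ := Submodule.norm_starProjection_apply_le _ _

theorem b_le_one (hv : ‖v‖ = 1) (i : ℕ) : V.b v i ≤ 1 := by
  have h := norm_P_le V v i
  rw [hv] at h
  exact pow_le_one₀ (norm_nonneg _) h

theorem b_anti (i : ℕ) : V.b v (i + 1) ≤ V.b v i := by
  have h := norm_sq_Qp V.anti i v
  have h2 : 0 ≤ ‖Qp V.M i v‖ ^ 2 := sq_nonneg _
  rw [h] at h2
  unfold Flag.b Flag.P
  linarith

theorem b_zero {i : ℕ} (hi : V.n ≤ i) : V.b v i = 0 := by
  have key : ∀ (M : Submodule ℝ E), M = ⊥ → ‖M.starProjection v‖ ^ 2 = 0 := by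
    rintro M rfl; simp
  exact key _ (V.bot i hi)

theorem b_congr {V' : Flag E} {i : ℕ} (h : V'.M i = V.M i) : V'.b v i = V.b v i := by
  have key : ∀ (M M' : Submodule ℝ E), M = M' →
      ‖M.starProjection v‖ ^ 2 = ‖M'.starProjection v‖ ^ 2 := by
    rintro M _ rfl; rfl
  exact key _ _ h

/-- norm of the inverse root -/
theorem norm_Hi (I : ℕ) : ‖V.Hi I v‖ ^ 2 =
    ∑ j ∈ Ico I V.n, (5 / 4 : ℝ) ^ (2 * (j - I)) * (V.b v j - V.b v (j + 1)) := by
  have e : V.Hi I v = Hc V.M (th⁻¹) V.n I v := rfl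
  rw [e, norm_sq_Hc V.anti]
  refine sum_congr rfl fun j _ => ?_
  rw [norm_sq_Qp V.anti, pow_mul]
  have e2 : (th⁻¹ : ℝ) = 5 / 4 := by unfold th; norm_num
  rw [e2]
  rfl

/-- the cap gauge of `v` -/
theorem N_eq (I : ℕ) : V.N I v =
    ∑ j ∈ Ico I V.n, (5 / 4 : ℝ) ^ (j - I) * (V.b v j - V.b v (j + 1)) := by
  unfold Flag.N
  refine sum_congr rfl fun j _ => ?_
  have e : V.Q j v = Qp V.M j v := rfl
  rw [e, norm_sq_Qp V.anti]
  have e2 : (th⁻¹ : ℝ) = 5 / 4 := by unfold th; norm_num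
  rw [e2]
  rfl

/-- the gauge is at most `‖Hi v‖²` -/
theorem N_le_Hi (I : ℕ) : V.N I v ≤ ‖V.Hi I v‖ ^ 2 := by
  rw [N_eq, norm_Hi]
  refine sum_le_sum fun j _ => ?_
  refine mul_le_mul_of_nonneg_right ?_ (sub_nonneg.2 (b_anti V v j))
  exact pow_le_pow_right₀ (by norm_num) (by omega)

/-- a block between `I` and `I + 2` is not zero -/
theorem k_pos {I : ℕ} (h : V.b v (I + 3) < V.b v I) :
    ∃ j, I ≤ j ∧ j ≤ I + 2 ∧ j < V.n ∧ 1 ≤ V.k j := by
  have hlt : Module.finrank ℝ (V.M (I + 3)) < Module.finrank ℝ (V.M I) := by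
    apply Submodule.finrank_lt_finrank_of_lt
    refine lt_of_le_of_ne (V.anti (by omega)) fun heq => ?_
    have := b_congr V v (V' := V) (i := I + 3) rfl
    have key : ∀ (M M' : Submodule ℝ E), M = M' →
        ‖M.starProjection v‖ ^ 2 = ‖M'.starProjection v‖ ^ 2 := by
      rintro M _ rfl; rfl
    have h2 := key _ _ heq
    unfold Flag.b Flag.P at h
    rw [h2] at h
    exact lt_irrefl _ h
  have hk : 1 ≤ V.k I ∨ 1 ≤ V.k (I + 1) ∨ 1 ≤ V.k (I + 2) := by
    unfold Flag.k
    have e1 : I + 1 + 1 = I + 2 := rfl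
    have e2 : I + 2 + 1 = I + 3 := rfl
    rw [e1, e2]
    omega
  have hn : ∀ j, 1 ≤ V.k j → j < V.n := by
    intro j hj
    by_contra hcon
    have hb := V.bot j (not_lt.1 hcon)
    unfold Flag.k at hj
    rw [hb, finrank_bot] at hj
    omega
  rcases hk with h1 | h1 | h1
  · exact ⟨I, le_rfl, by omega, hn _ h1, h1⟩
  · exact ⟨I + 1, by omega, by omega, hn _ h1, h1⟩
  · exact ⟨I + 2, by omega, le_rfl, hn _ h1, h1⟩

/-- the trace of level `I` is at least `th ^ 2` -/
theorem rr_ge {I : ℕ} (h : V.b v (I + 3) < V.b v I) : th ^ 2 ≤ V.rr I := by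
  obtain ⟨j, hj1, hj2, hj3, hj4⟩ := k_pos V v h
  have ht : (th : ℝ) = 4 / 5 := rfl
  unfold Flag.rr
  have h1 : th ^ (j - I) * (V.k j : ℝ) ≤ ∑ j ∈ Ico I V.n, th ^ (j - I) * (V.k j : ℝ) := by
    refine single_le_sum (f := fun j => th ^ (j - I) * (V.k j : ℝ)) (fun i _ => ?_)
      (mem_Ico.2 ⟨hj1, hj3⟩)
    rw [ht]
    positivity
  refine le_trans ?_ h1
  have h2 : th ^ 2 ≤ th ^ (j - I) := by
    rw [ht]
    exact pow_le_pow_of_le_one (by norm_num) (by norm_num) (by omega)
  have h3 : (1 : ℝ) ≤ (V.k j : ℝ) := by exact_mod_cast hj4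
  have h4 : 0 ≤ th ^ (j - I) := by rw [ht]; positivity
  nlinarith

end flag

/-! ### the step -/

/-- **(U3) at the level of the letter** -/
theorem U3t {p : Par} (hp : p.Ok) {C1 eta C8 dl C : ℝ} (hC1 : 1 ≤ C1) (heta : 0 < eta)
    (hC8 : 1 ≤ C8) (hdl : 0 < dl) (h2 : P_U2 E p C) (h0 : P_J0 E p) (hm : P_D_mono E p)
    (hI : P_INS E p) (hG : P_GROWTH E p C1 3 3 eta) (hT : P_T1 E p C8 dl)
    (hA1 : 1 ≤ 2 * C1 * eta * p.A) (hA2 : 40000 * C8 ≤ p.A)
    (hkin : p.kap + 8 / p.rho ^ 2 + 2 / (p.A * th ^ 2) ≤ 9 / (100 * C1)) :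
    P_U3t E p C1 eta (3 * eta / (10 * p.A)) := by
  intro I v s hv hs hl1 hl2
  set mg := s.map fun q => q.1 + q.2 with hmg
  set sp := s.map Prod.fst + s.map Prod.snd with hsp
  have hC0 : 0 < C1 := by linarith
  have hA0 : 0 < p.A := by linarith [hp.A_ge]
  have hτ := hp.tau_pos
  have hlI : 0 < p.lam I := by unfold Par.lam; positivity
  have hSnn : 0 ≤ S mg v := by
    refine Multiset.sum_nonneg fun x hx => ?_
    obtain ⟨z, _, rfl⟩ := Multiset.mem_map.1 hx
    exact abs_nonneg _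
  have hSp : 0 < S sp v := by linarith
  have hb1 := bdd_J h2 h0 (E := E) mg
  have hb2 := bdd_J h2 h0 (E := E) sp
  -- near-maximiser
  set e0 : ℝ := min (dl * p.tau) (p.lam I / (100 * C1)) with he0
  have he0p : 0 < e0 := lt_min (by positivity) (by positivity)
  obtain ⟨V, hV1, hV2⟩ := Ut_near hb1 he0p
  have hV3 : NearMax p V mg (dl * p.tau) := fun V' => (hV2 V').trans (by
    have := min_le_left (dl * p.tau) (p.lam I / (100 * C1))
    linarith)
  -- tilt
  have hS2 : S mg v ≤ p.lam (I + 2) :=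
    S_le_level (A := p.A) (lam0 := p.tau) (S' := S sp v) hτ hC0 heta hA1 hA0 hs.le (by
      have e : p.tau * p.A ^ (I + 1) = p.A * p.lam I := by unfold Par.lam; ring
      rw [e]; exact hl2)
  have hT1 := hT V mg (I + 2) v hv hS2 hV3
  have htilt : ∀ i, I + 2 < i → V.b v i ≤ C8 * (p.A⁻¹) ^ (i - (I + 2)) := fun i hi =>
    tilt_of_sum (lam0 := p.tau) (n := V.n) hτ hA0 (b_nonneg V v) (fun i h => b_zero V v h)
      (by linarith) hT1 hi
  -- insertion
  obtain ⟨V', hM1, hM2, hJ⟩ := hI V mg v I hv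
  have hvI : v ∈ V'.M I := by
    rw [hM2 I le_rfl]
    exact (le_sup_right : Submodule.span ℝ {v} ≤ _) (Submodule.mem_span_singleton_self v)
  have hIn : I < V'.n := by
    by_contra hcon
    rw [V'.bot I (not_lt.1 hcon)] at hvI
    rw [Submodule.mem_bot] at hvI
    rw [hvI, norm_zero] at hv
    exact zero_ne_one hv
  have hbc : ∀ i, I < i → V'.b v i = V.b v i := fun i hi => b_congr V v (hM1 i hi)
  have htilt' : ∀ i, I + 2 < i → V'.b v i ≤ C8 * (p.A⁻¹) ^ (i - (I + 2)) := fun i hi => by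
    rw [hbc i (by omega)]; exact htilt i hi
  have h3 : ‖V'.Hi I v‖ ^ 2 ≤ 3 := by
    rw [norm_Hi]
    exact c3_sum (b_nonneg V' v) (b_le_one V' v hv I) (b_anti V' v) htilt' hC8 hA2
  have h4 : V'.N I v ≤ 3 := (N_le_Hi V' v I).trans h3
  have h5 : th ^ 2 ≤ V'.rr I := by
    refine rr_ge V' v ?_
    have e1 : V'.b v I = 1 := by
      have e : V'.P I v = v := Submodule.starProjection_eq_self_iff.2 hvI
      unfold Flag.b
      rw [e, hv, one_pow]
    rw [e1]
    refine lt_of_le_of_lt (htilt' (I + 3) (by omega)) ?_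
    have e2 : I + 3 - (I + 2) = 1 := by omega
    rw [e2, pow_one, ← div_eq_mul_inv, div_lt_one hA0]
    linarith
  -- growth
  set eta' : ℝ := p.lam I / (C1 * S sp v) with heta'
  have hCS : 0 < C1 * S sp v := by positivity
  have he1 : 0 < eta' := by positivity
  have he2 : eta' ≤ eta := by
    rw [heta', div_le_iff₀ hCS]; linarith
  have he3 : C1 * eta' * S sp v = p.lam I := by
    rw [heta']; field_simp
  have hg := hG V' I v s eta' hv hvI h3 h4 h5 hs he1 he2 he3
  have hJ2 := J_grow hm hIn hg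
  have hJ3 := J_le_Ut hb2 V'
  -- numbers
  have key := grow_real (U := Ut p mg) (U' := Ut p sp) (J := J p V mg) (J1 := J p V' mg)
    (J2 := J p V' sp) (e0 := e0) hC0 hlI hkin hV1 (min_le_right _ _) hJ hJ2 hJ3
  have h6 : 3 * eta / (10 * p.A) * S sp v ≤ 3 / 10 * (p.lam I / C1) := by
    have e : 3 * eta / (10 * p.A) * S sp v = 3 / (10 * p.A * C1) * (C1 * eta * S sp v) := by
      field_simp
    have e2 : 3 / 10 * (p.lam I / C1) = 3 / (10 * p.A * C1) * (p.A * p.lam I) := by
      field_simp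
    rw [e, e2]
    exact mul_le_mul_of_nonneg_left hl2.le (by positivity)
  linarith

/-- **F10** -/
theorem target_U3 (hG : Target_GROWTH) (hT : Target_T1) (hI : Target_INS) (hU : Target_U2) :
    Target_U3 := by
  obtain ⟨C1, hC1, hG⟩ := hG
  obtain ⟨eta, heta, heta1, hG⟩ := hG 3 3
  have hC0 : 0 < C1 := by linarith
  obtain ⟨C8, dl, rho0, A0, hC8, hdl, hT⟩ := hT (1 / (400 * C1)) (by positivity) (by
    rw [div_le_one (by positivity)]; linarith)
  set rho : ℝ := max rho0 (80 * C1) with hrho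
  have hr1 : 80 * C1 ≤ rho := le_max_right _ _
  have hr0 : 0 < rho := by linarith
  set A : ℝ := max A0 (16 + 1 / (2 * C1 * eta) + 40000 * max C8 1 + 2500 * C1) with hAdef
  have hA1 : A0 ≤ A := le_max_left _ _
  have hA2 : 16 + 1 / (2 * C1 * eta) + 40000 * max C8 1 + 2500 * C1 ≤ A := le_max_right _ _
  have hm1 : 1 ≤ max C8 1 := le_max_right _ _
  have hce : 0 < 2 * C1 * eta := by positivity
  have hce' : 0 < 1 / (2 * C1 * eta) := by positivity
  have hA16 : 16 ≤ A := by linarith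
  have hA0 : 0 < A := by linarith
  have hrr : 6400 * C1 ≤ rho ^ 2 := by
    have h1 : (80 * C1) ^ 2 ≤ rho ^ 2 := pow_le_pow_left₀ (by positivity) hr1 2
    nlinarith
  have hok : (⟨rho, 1 / (400 * C1), A, 1⟩ : Par).Ok := by
    refine ⟨one_pos, hA16, by positivity, ?_, ?_, ?_⟩
    · show 1 / (400 * C1) ≤ 1
      rw [div_le_one (by positivity)]; linarith
    · show 16 ≤ rho
      linarith
    · show 16 ≤ 1 / (400 * C1) * rho ^ 2
      rw [div_mul_eq_mul_div, one_mul, le_div_iff₀ (by positivity)]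
      linarith
  refine ⟨C1, eta, 3 * eta / (10 * A), ⟨rho, 1 / (400 * C1), A, 1⟩, hC1, heta, by positivity,
    hok, rfl, fun d => ?_⟩
  obtain ⟨C, hC, hU⟩ := hU _ hok
  obtain ⟨u1, u2, u3⟩ := hU d
  have hT' := hT d ⟨rho, 1 / (400 * C1), A, 1⟩ hok rfl (le_max_left _ _) hA1
  have hT2 : P_T1 (EuclideanSpace ℝ (Fin d)) ⟨rho, 1 / (400 * C1), A, 1⟩ (max C8 1) dl := by
    intro V μ I v hv hS hN
    refine (hT' V μ I v hv hS hN).trans ?_
    refine mul_le_mul_of_nonneg_right (le_max_left _ _) ?_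
    show 0 ≤ 1 * A ^ I
    positivity
  refine U3t hok hC1 heta hm1 hdl u1 u2 u3 (hI d _ hok) (hG d _ hok) hT2 ?_ ?_ ?_
  · show 1 ≤ 2 * C1 * eta * A
    have h1 : 1 / (2 * C1 * eta) ≤ A := by linarith
    rw [div_le_iff₀ hce] at h1
    linarith
  · show 40000 * max C8 1 ≤ A
    linarith
  · show 1 / (400 * C1) + 8 / rho ^ 2 + 2 / (A * th ^ 2) ≤ 9 / (100 * C1)
    have h1 : 8 / rho ^ 2 ≤ 1 / (800 * C1) := by
      rw [div_le_div_iff₀ (by positivity) (by positivity)]
      linarith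
    have h2 : 2 / (A * th ^ 2) ≤ 1 / (800 * C1) := by
      unfold th
      rw [div_le_div_iff₀ (by positivity) (by positivity)]
      nlinarith
    have e : 9 / (100 * C1) = 18 * (1 / (400 * C1)) + 18 * (1 / (400 * C1)) := by
      field_simp
      norm_num
    have e3 : 1 / (800 * C1) = 1 / 2 * (1 / (400 * C1)) := by
      field_simp
      norm_num
    have e4 : 0 < 1 / (400 * C1) := by positivity
    rw [e]
    rw [e3] at h1 h2
    linarith

/-! ### the end -/

/-- **S0370 from (U3) and the soft layer** -/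
theorem S0370_of_targets (h3 : Target_U3) (hU : Target_U2) :
    ∃ C : ℝ, ∀ (d N : ℕ) (v : Fin N → EuclideanSpace ℝ (Fin d)),
      (∀ i, ‖v i‖ ≤ 1) →
      ∃ ε : Fin N → ℤ, (∀ i, ε i = 1 ∨ ε i = -1) ∧
        ∀ k : ℕ, k ≤ N →
          ‖∑ i ∈ Finset.univ.filter (fun i : Fin N => (i : ℕ) < k), (ε i : ℝ) • v i‖
            ≤ C * Real.sqrt d := by
  obtain ⟨C1, eta, c, p, hC1, heta, hc, hp, htau, h3⟩ := h3
  have hC0 : 0 < C1 := by linarith
  have hA0 : 0 < p.A := by linarith [hp.A_ge]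
  have hA1 : 1 < p.A := by linarith [hp.A_ge]
  obtain ⟨C, hC, hU⟩ := hU p hp
  have hbd : ∀ (d : ℕ) (μ : Multiset (EuclideanSpace ℝ (Fin d))),
      BddAbove (Set.range fun V : Flag (EuclideanSpace ℝ (Fin d)) => J p V μ) :=
    fun d μ => bdd_J (hU d).1 (hU d).2.1 μ
  refine L0.S0370_of_U C c (c / (C1 * eta)) hc (fun d μ => Ut p μ) ?_ ?_ ?_ ?_
  · intro d μ
    exact Ut_nonneg (hbd d μ)
  · intro d s
    exact Ut_mono (hU d).2.2 s (hbd d _)
  · intro d z μ
    have := Ut_cons (hU d).1 z μ (hbd d μ)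
    rwa [finrank_euclideanSpace_fin] at this
  · intro d v s hv
    set mg := L0.mrg s with hmg
    set sp := L0.spl s with hsp
    have hmono : 0 ≤ Ut p sp - Ut p mg := sub_nonneg.2 (Ut_mono (hU d).2.2 s (hbd d _))
    have hS0 : 0 ≤ L0.S mg v := L0.S_nonneg _ _
    have hS1 : 0 ≤ L0.S sp v := L0.S_nonneg _ _
    have hce : 0 < C1 * eta := by positivity
    have hdl : 0 < c / (C1 * eta) := by positivity
    have hcS : 0 ≤ c * L0.S mg v := mul_nonneg hc.le hS0
    show c * (L0.S sp v - 2 * L0.S mg v) - c / (C1 * eta) ≤ Ut p sp - Ut p mg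
    rcases le_or_gt (L0.S sp v) (2 * L0.S mg v) with h1 | h1
    · have : c * (L0.S sp v - 2 * L0.S mg v) ≤ 0 :=
        mul_nonpos_of_nonneg_of_nonpos hc.le (by linarith)
      linarith
    · rcases lt_or_ge (C1 * eta * L0.S sp v) 1 with hx | hx
      · have h5 : c * L0.S sp v ≤ c / (C1 * eta) := by
          rw [le_div_iff₀ hce]
          have := mul_le_mul_of_nonneg_left hx.le hc.le
          linarith
        linarith
      · obtain ⟨I, hI1, hI2⟩ := exists_level (lam0 := 1) hA1 one_pos hx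
        have hlam : p.lam I = 1 * p.A ^ I := by unfold Par.lam; rw [htau]
        have key := h3 d I v s hv h1 (by rw [hlam]; exact hI1) (by
          rw [hlam]
          have e : p.A * (1 * p.A ^ I) = 1 * p.A ^ (I + 1) := by ring
          rw [e]; exact hI2)
        have h8 : Ut p mg + c * L0.S sp v ≤ Ut p sp := key
        linarith

end Crest.Agent.R239.Fin504
end

-- ▼ part R239/T1_689
section

/-!
# R239, block F9 (helper689): the tilt estimate T1 for near-maximisers, from THIN and LEV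
-/

set_option autoImplicit false
open MeasureTheory ProbabilityTheory Finset
open scoped RealInnerProductSpace

namespace Crest.Agent.R239.T1689

open Crest.Agent.R239 Crest.Agent.R239.FD

section flag

variable {E : Type*} [NormedAddCommGroup E] [InnerProductSpace ℝ E]

lemma Ts_injective {v : E} (hv : ‖v‖ = 1) {s : ℝ} (hs : s < 1) :
    Function.Injective (Ts v s) := by
  intro x y hxy
  rw [Ts_apply, Ts_apply] at hxy
  have h1 : ⟪v, x⟫ = ⟪v, y⟫ := by
    have := congrArg (fun z => ⟪v, z⟫) hxy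
    simp only [inner_sub_right, real_inner_smul_right, real_inner_self_eq_norm_sq, hv] at this
    have h2 : (1 - s) * (⟪v, x⟫ - ⟪v, y⟫) = 0 := by linarith
    rcases mul_eq_zero.mp h2 with h | h
    · linarith
    · linarith
  rw [h1] at hxy
  exact sub_left_injective hxy

lemma rot_k [FiniteDimensional ℝ E] (V : Flag E) {v : E} (hv : ‖v‖ = 1) {s : ℝ} (hs : s < 1)
    (j : ℕ) : (V.rot v s).k j = V.k j := by
  have h : ∀ i, Module.finrank ℝ ((V.rot v s).M i) = Module.finrank ℝ (V.M i) := by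
    intro i
    show Module.finrank ℝ ((V.M i).map (Ts v s).toLinearMap) = _
    exact (LinearEquiv.finrank_eq (Submodule.equivMapOfInjective _ (Ts_injective hv hs) _)).symm
  unfold Flag.k
  rw [h, h]

lemma b_nonneg [FiniteDimensional ℝ E] (V : Flag E) (v : E) (i : ℕ) : 0 ≤ V.b v i := by
  unfold Flag.b; positivity

lemma b_le_one [FiniteDimensional ℝ E] (V : Flag E) {v : E} (hv : ‖v‖ = 1) (i : ℕ) :
    V.b v i ≤ 1 := by
  unfold Flag.b Flag.P
  have : ‖(V.M i).starProjection v‖ ≤ ‖v‖ := Submodule.norm_starProjection_apply_le _ _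
  rw [hv] at this
  nlinarith [norm_nonneg ((V.M i).starProjection v)]

end flag

section num

lemma geo_A {A : ℝ} (hA : 16 ≤ A) (n : ℕ) :
    ∑ i ∈ range n, A ^ i * (25 / 8 : ℝ) ^ (n - i) ≤ 4 / A * A ^ n := by
  have hA0 : (0:ℝ) < A := by linarith
  induction n with
  | zero => simp; positivity
  | succ n ih =>
    rw [sum_range_succ]
    have e : ∑ i ∈ range n, A ^ i * (25 / 8 : ℝ) ^ (n + 1 - i)
        = (25 / 8) * ∑ i ∈ range n, A ^ i * (25 / 8 : ℝ) ^ (n - i) := by
      rw [mul_sum]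
      refine sum_congr rfl fun i hi => ?_
      rw [mem_range] at hi
      rw [Nat.sub_add_comm hi.le, pow_succ]; ring
    rw [e, Nat.add_sub_cancel_left, pow_one]
    have hp : (0:ℝ) < A ^ n := by positivity
    have h4 : 4 / A ≤ 1 / 4 := by rw [div_le_div_iff₀ hA0 (by norm_num)]; linarith
    have e2 : 4 / A * A ^ (n + 1) = 4 * A ^ n := by rw [pow_succ]; field_simp
    rw [e2]
    nlinarith

lemma sum_BB {A τ : ℝ} (hτ : 0 < τ) (hA : 16 ≤ A) {b : ℕ → ℝ} (hb : ∀ i, 0 ≤ b i) (n : ℕ) :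
    ∑ i ∈ range n, (τ * A ^ i) * (∑ j ∈ Ico (i + 1) n, (25 / 8 : ℝ) ^ (j - i) * b j)
      ≤ 4 / A * ∑ i ∈ range n, (τ * A ^ i) * b i := by
  have hA0 : (0:ℝ) < A := by linarith
  induction n with
  | zero => simp
  | succ n ih =>
    rw [sum_range_succ, sum_range_succ]
    have e1 : ∑ j ∈ Ico (n + 1) (n + 1), (25 / 8 : ℝ) ^ (j - n) * b j = 0 := by simp
    rw [e1, mul_zero, add_zero]
    have e2 : ∀ i ∈ range n, (τ * A ^ i) * (∑ j ∈ Ico (i + 1) (n + 1), (25 / 8 : ℝ) ^ (j - i) * b j)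
        = (τ * A ^ i) * (∑ j ∈ Ico (i + 1) n, (25 / 8 : ℝ) ^ (j - i) * b j)
          + τ * b n * (A ^ i * (25 / 8 : ℝ) ^ (n - i)) := by
      intro i hi
      rw [mem_range] at hi
      rw [Finset.sum_Ico_succ_top (by omega)]
      ring
    rw [sum_congr rfl e2, sum_add_distrib, ← mul_sum, mul_add]
    refine add_le_add ih ?_
    have := mul_le_mul_of_nonneg_left (geo_A hA n) (by have := hb n; positivity : 0 ≤ τ * b n)
    refine this.trans (le_of_eq ?_)
    ring

lemma sum_lam_le {A τ : ℝ} (hτ : 0 < τ) (hA : 16 ≤ A) (I : ℕ) :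
    ∑ i ∈ range (I + 1), τ * A ^ i ≤ 2 * (τ * A ^ I) := by
  have hA0 : (0:ℝ) < A := by linarith
  induction I with
  | zero => simp; linarith
  | succ I ih =>
    rw [sum_range_succ]
    have : 0 < τ * A ^ I := by positivity
    have e : τ * A ^ (I + 1) = A * (τ * A ^ I) := by ring
    rw [e]
    nlinarith

lemma sum_w_le (I n : ℕ) :
    ∑ i ∈ range n, (if i ≤ I then (1 / 2 : ℝ) ^ (I - i) else (1 / 2 : ℝ) ^ (i - I)) ≤ 4 := by
  have h1 : ∑ i ∈ range n, (if i ≤ I then (1 / 2 : ℝ) ^ (I - i) else (1 / 2 : ℝ) ^ (i - I))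
      ≤ ∑ i ∈ range (I + 1) ∪ Ico (I + 1) n,
        (if i ≤ I then (1 / 2 : ℝ) ^ (I - i) else (1 / 2 : ℝ) ^ (i - I)) := by
    refine sum_le_sum_of_subset_of_nonneg ?_ ?_
    · intro i hi
      rw [mem_range] at hi
      rw [mem_union, mem_range, mem_Ico]; omega
    · intro i _ _; split_ifs <;> positivity
  refine h1.trans ?_
  rw [sum_union (by
    rw [disjoint_left]; intro i hi; rw [mem_range] at hi; rw [mem_Ico]; omega)]
  have h2 : ∑ i ∈ range (I + 1), (if i ≤ I then (1 / 2 : ℝ) ^ (I - i) else (1 / 2 : ℝ) ^ (i - I))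
      ≤ 2 := by
    have e : ∑ i ∈ range (I + 1), (if i ≤ I then (1 / 2 : ℝ) ^ (I - i) else (1 / 2 : ℝ) ^ (i - I))
        = ∑ i ∈ range (I + 1), (1 / 2 : ℝ) ^ (I + 1 - 1 - i) := by
      refine sum_congr rfl fun i hi => ?_
      rw [mem_range] at hi
      rw [if_pos (by omega)]; simp
    rw [e, sum_range_reflect (fun i => (1 / 2 : ℝ) ^ i)]
    exact sum_geometric_two_le _
  have h3 : ∑ i ∈ Ico (I + 1) n, (if i ≤ I then (1 / 2 : ℝ) ^ (I - i) else (1 / 2 : ℝ) ^ (i - I))
      ≤ 2 := by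
    rw [sum_Ico_eq_sum_range]
    refine le_trans (sum_le_sum fun i _ => ?_) (sum_geometric_two_le (n - (I + 1)))
    rw [if_neg (by omega)]
    exact pow_le_pow_of_le_one (by norm_num) (by norm_num) (by omega)
  linarith

/-- the numerical core of T1 -/
lemma t1_num {A τ c9 C9 e0 : ℝ} (hτ : 0 < τ) (hA : 16 ≤ A) (hc9 : 0 < c9) (hC9 : 0 < C9)
    (hA2 : 8 * C9 / c9 ≤ A) (he0 : e0 ≤ τ) {b Dv Dr : ℕ → ℝ} (hb : ∀ i, 0 ≤ b i)
    (hb1 : ∀ i, b i ≤ 1) (I n : ℕ) (hsum : ∑ i ∈ range n, Dr i ≤ ∑ i ∈ range n, Dv i + e0)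
    (hhi : ∀ i, I < i → i < n → Dv i + (τ * A ^ i) * (c9 * b i
      - C9 * ∑ j ∈ Ico (i + 1) n, (25 / 8 : ℝ) ^ (j - i) * b j)
      - C9 * (τ * A ^ I) * (1 / 2) ^ (i - I) ≤ Dr i)
    (hlo : ∀ i, i ≤ I → i < n → Dv i - (τ * A ^ i) * C9 *
      (∑ j ∈ Ico (i + 1) n, (25 / 8 : ℝ) ^ (j - i) * b j)
      - C9 * (τ * A ^ I) * (1 / 2) ^ (I - i) ≤ Dr i) :
    ∑ i ∈ Ico (I + 1) n, (τ * A ^ i) * b i ≤ (2 * (1 + 5 * C9) / c9) * (τ * A ^ I) := by
  have hA0 : (0:ℝ) < A := by linarith
  set B : ℕ → ℝ := fun i => ∑ j ∈ Ico (i + 1) n, (25 / 8 : ℝ) ^ (j - i) * b j with hB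
  set w : ℕ → ℝ := fun i => if i ≤ I then (1 / 2 : ℝ) ^ (I - i) else (1 / 2 : ℝ) ^ (i - I) with hw
  set g : ℕ → ℝ := fun i => if I < i then (τ * A ^ i) * b i else 0 with hg
  have key : ∀ i ∈ range n, Dv i + c9 * g i - C9 * ((τ * A ^ i) * B i) - C9 * (τ * A ^ I) * w i
      ≤ Dr i := by
    intro i hi
    rw [mem_range] at hi
    by_cases h : I < i
    · have := hhi i h hi
      simp only [hg, hw, if_pos h, if_neg (not_le.mpr h)]
      refine le_trans (le_of_eq ?_) this
      ring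
    · have h' : i ≤ I := not_lt.mp h
      have := hlo i h' hi
      simp only [hg, hw, if_neg h, if_pos h']
      refine le_trans (le_of_eq ?_) this
      ring
  have hs := sum_le_sum key
  rw [sum_sub_distrib, sum_sub_distrib, sum_add_distrib, ← mul_sum, ← mul_sum, ← mul_sum] at hs
  have hX : ∑ i ∈ range n, g i = ∑ i ∈ Ico (I + 1) n, (τ * A ^ i) * b i := by
    rw [hg, ← sum_filter]
    refine sum_congr ?_ fun _ _ => rfl
    ext i; simp only [mem_filter, mem_range, mem_Ico]; omega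
  have hw4 : ∑ i ∈ range n, w i ≤ 4 := sum_w_le I n
  have hBB : ∑ i ∈ range n, (τ * A ^ i) * B i ≤ 4 / A * ∑ i ∈ range n, (τ * A ^ i) * b i :=
    sum_BB hτ hA hb n
  have hY : ∑ i ∈ range n, (τ * A ^ i) * b i
      ≤ 2 * (τ * A ^ I) + ∑ i ∈ Ico (I + 1) n, (τ * A ^ i) * b i := by
    have h1 : ∑ i ∈ range n, (τ * A ^ i) * b i
        ≤ ∑ i ∈ range (I + 1) ∪ Ico (I + 1) n, (τ * A ^ i) * b i := by
      refine sum_le_sum_of_subset_of_nonneg ?_ ?_
      · intro i hi
        rw [mem_range] at hi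
        rw [mem_union, mem_range, mem_Ico]; omega
      · intro i _ _
        have := hb i
        positivity
    rw [sum_union (by
      rw [disjoint_left]; intro i hi; rw [mem_range] at hi; rw [mem_Ico]; omega)] at h1
    have h2 : ∑ i ∈ range (I + 1), (τ * A ^ i) * b i ≤ ∑ i ∈ range (I + 1), τ * A ^ i := by
      refine sum_le_sum fun i _ => ?_
      have : 0 ≤ τ * A ^ i := by positivity
      nlinarith [hb1 i]
    have h3 := sum_lam_le hτ hA I
    linarith
  rw [hX] at hs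
  set X := ∑ i ∈ Ico (I + 1) n, (τ * A ^ i) * b i with hXdef
  set L := τ * A ^ I with hL
  have hL0 : 0 < L := by positivity
  have hτL : τ ≤ L := by
    rw [hL]
    have : (1:ℝ) ≤ A ^ I := one_le_pow₀ (by linarith)
    nlinarith
  have hX0 : 0 ≤ X := by
    refine sum_nonneg fun i _ => ?_
    have := hb i
    positivity
  -- c9 X ≤ e0 + C9 * (4/A) (2 L + X) + 4 C9 L
  have hAinv : C9 * (4 / A) ≤ c9 / 2 := by
    rw [div_le_iff₀ hc9] at hA2
    rw [mul_div_assoc', div_le_iff₀ hA0]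
    linarith
  have h5 : C9 * ∑ i ∈ range n, (τ * A ^ i) * B i ≤ C9 * (4 / A) * (2 * L + X) := by
    have : ∑ i ∈ range n, (τ * A ^ i) * B i ≤ 4 / A * (2 * L + X) :=
      hBB.trans (mul_le_mul_of_nonneg_left hY (by positivity))
    calc _ ≤ C9 * (4 / A * (2 * L + X)) := mul_le_mul_of_nonneg_left this hC9.le
      _ = _ := by ring
  have h6 : C9 * (4 / A) * (2 * L) ≤ C9 / 2 * L := by
    have : 4 / A ≤ 1 / 4 := by rw [div_le_div_iff₀ hA0 (by norm_num)]; linarith
    nlinarith [mul_pos hC9 hL0]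
  have h7 : C9 * (4 / A) * X ≤ c9 / 2 * X := mul_le_mul_of_nonneg_right hAinv hX0
  have h8 : C9 * L * ∑ i ∈ range n, w i ≤ C9 * L * 4 :=
    mul_le_mul_of_nonneg_left hw4 (by positivity)
  have h9 : c9 / 2 * X ≤ (1 + 5 * C9) * L := by nlinarith [mul_pos hC9 hL0]
  have : X ≤ (2 / c9) * ((1 + 5 * C9) * L) := by
    rw [div_mul_eq_mul_div, le_div_iff₀ hc9]; linarith
  refine this.trans (le_of_eq ?_)
  field_simp

end num

/-- **T1 from THIN and the level comparisons** -/
theorem target_t1 (hT : Target_THIN) (hL : Target_LEV) : Target_T1 := by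
  intro kap hk0 hk1
  obtain ⟨c', dl, rhoT, hc0, hc1, hdl, hThin⟩ := hT kap hk0 hk1
  obtain ⟨s, c9, C9, rhoL, hs0, hs1, hc9, hC9, hLev⟩ := hL c' dl hc0 hc1 hdl
  refine ⟨2 * (1 + 5 * C9) / c9, min dl 1, max rhoT rhoL, 8 * C9 / c9, by positivity,
    lt_min hdl one_pos, ?_⟩
  intro d p hp hpk hpr hpA V μ I v hv hS hN
  have hA : 16 ≤ p.A := hp.A_ge
  have hτ := hp.tau_pos
  have hA0 : (0:ℝ) < p.A := by linarith
  obtain ⟨hhi, hlo⟩ := hLev d p hp ((le_max_right _ _).trans hpr)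
  have hThin' := hThin d p hp hpk ((le_max_left _ _).trans hpr)
  have hlamτ : ∀ i, p.tau ≤ p.lam i := by
    intro i
    unfold Par.lam
    have : (1:ℝ) ≤ p.A ^ i := one_le_pow₀ (by linarith)
    nlinarith
  -- the rotated flag
  have hJ := hN (V.rot v s)
  have hn : (V.rot v s).n = V.n := rfl
  unfold J at hJ
  rw [hn] at hJ
  simp only [rot_k V hv hs1] at hJ
  rw [sum_sub_distrib, sum_sub_distrib] at hJ
  have he0 : min dl 1 * p.tau ≤ p.tau := by
    have := min_le_right dl 1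
    nlinarith
  have hthinI : ∀ i, I < i → ThinAt p V μ i c' dl := by
    intro i hi
    refine hThin' V μ i (by omega) ?_
    intro V'
    refine (hN V').trans ?_
    have h1 := min_le_left dl 1
    have h2 := hlamτ i
    nlinarith
  exact t1_num (A := p.A) (τ := p.tau) (c9 := c9) (C9 := C9) (e0 := min dl 1 * p.tau) hτ hA hc9 hC9
    hpA he0 (b := V.b v) (Dv := fun i => D p V i μ) (Dr := fun i => D p (V.rot v s) i μ)
    (b_nonneg V v) (b_le_one V hv) I V.n (by linarith)
    (fun i hi hin => hhi V μ v I i hv hS hi hin (hthinI i hi))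
    (fun i hi hin => hlo V μ v I i hv hS hi hin)

end Crest.Agent.R239.T1689
end

-- ▼ part R239/DemLin_853
section

/-! R239, block F4a (helper853): linear algebra of the demotion step. -/

set_option autoImplicit false
set_option linter.unusedSectionVars false
open Module Finset
open scoped RealInnerProductSpace InnerProduct

namespace Crest.Agent.R239.Dem853

variable {E : Type*} [NormedAddCommGroup E] [InnerProductSpace ℝ E] [FiniteDimensional ℝ E]

/-- The space `M ⊖ w`. -/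
noncomputable def cutSub (M : Submodule ℝ E) (w : E) : Submodule ℝ E := M ⊓ (ℝ ∙ w)ᗮ

lemma mem_cutSub {M : Submodule ℝ E} {w x : E} : x ∈ cutSub M w ↔ x ∈ M ∧ ⟪w, x⟫ = 0 := by
  rw [cutSub, Submodule.mem_inf, Submodule.mem_orthogonal_singleton_iff_inner_right]

lemma cutSub_le (M : Submodule ℝ E) (w : E) : cutSub M w ≤ M := inf_le_left

/-- projection on `M ⊖ w`. -/
lemma starProjection_cutSub {M : Submodule ℝ E} {w : E} (hw : w ∈ M) (hn : ‖w‖ = 1) (x : E) :
    (cutSub M w).starProjection x = M.starProjection x - ⟪w, x⟫ • w := by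
  have h1 : ⟪w, M.starProjection x⟫ = ⟪w, x⟫ := by
    rw [← Submodule.inner_starProjection_left_eq_right, Submodule.starProjection_eq_self_iff.2 hw]
  refine Submodule.eq_starProjection_of_mem_of_inner_eq_zero ?_ ?_
  · rw [mem_cutSub]
    refine ⟨M.sub_mem (M.starProjection_apply_mem x) (M.smul_mem _ hw), ?_⟩
    rw [inner_sub_right, inner_smul_right, real_inner_self_eq_norm_sq, hn, h1]
    ring
  · intro y hy
    rw [mem_cutSub] at hy
    have h2 : ⟪x - M.starProjection x, y⟫ = 0 := M.starProjection_inner_eq_zero x y hy.1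
    have h3 : x - (M.starProjection x - ⟪w, x⟫ • w) = (x - M.starProjection x) + ⟪w, x⟫ • w := by
      abel
    rw [h3, inner_add_left, h2, inner_smul_left, hy.2]
    simp

lemma finrank_cutSub {M : Submodule ℝ E} {w : E} (hw : w ∈ M) (hn : ‖w‖ = 1) :
    finrank ℝ (cutSub M w) + 1 = finrank ℝ M := by
  have hw0 : w ≠ 0 := by
    intro h; simp [h] at hn
  have h1 : finrank ℝ (ℝ ∙ w) = 1 := finrank_span_singleton hw0
  have hle : (ℝ ∙ w) ≤ M := by
    rw [Submodule.span_singleton_le_iff_mem]; exact hw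
  have h2 := Submodule.finrank_add_inf_finrank_orthogonal hle
  rw [h1] at h2
  have h3 : (ℝ ∙ w)ᗮ ⊓ M = cutSub M w := inf_comm _ _
  rw [h3] at h2
  omega

/-- `x ↦ ⟪w, x⟫ w` -/
noncomputable def rk1 (w : E) : E →L[ℝ] E := (innerSL ℝ w).smulRight w

@[simp] lemma rk1_apply (w x : E) : rk1 w x = ⟪w, x⟫ • w := rfl

/-- the demoted flag -/
noncomputable def demM (M : ℕ → Submodule ℝ E) (i : ℕ) (w : E) : ℕ → Submodule ℝ E :=
  fun j => if j = i then cutSub (M i) w else M j

@[simp] lemma demM_self (M : ℕ → Submodule ℝ E) (i : ℕ) (w : E) :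
    demM M i w i = cutSub (M i) w := by simp [demM]

lemma demM_ne (M : ℕ → Submodule ℝ E) {i j : ℕ} (w : E) (h : j ≠ i) :
    demM M i w j = M j := by simp [demM, h]

lemma demM_le (M : ℕ → Submodule ℝ E) (i : ℕ) (w : E) (j : ℕ) : demM M i w j ≤ M j := by
  by_cases h : j = i
  · subst h; rw [demM_self]; exact cutSub_le _ _
  · rw [demM_ne M w h]

lemma demM_anti {M : ℕ → Submodule ℝ E} (hM : Antitone M) {i : ℕ} {w : E}
    (hw' : w ∈ (M (i + 1))ᗮ) : Antitone (demM M i w) := by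
  refine antitone_nat_of_succ_le fun j => ?_
  by_cases h : j = i
  · subst h
    rw [demM_self, demM_ne M w (Nat.succ_ne_self j)]
    intro x hx
    rw [mem_cutSub]
    refine ⟨hM (Nat.le_succ j) hx, ?_⟩
    rw [real_inner_comm]
    exact (Submodule.mem_orthogonal _ _).1 hw' x hx
  · rw [demM_ne M w h]
    exact (demM_le M i w _).trans (hM (Nat.le_succ j))

/-- projection on the block `M j ⊖ M (j+1)` -/
noncomputable def blkP (M : ℕ → Submodule ℝ E) (j : ℕ) : E →L[ℝ] E :=
  (M j).starProjection - (M (j + 1)).starProjection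

lemma blkP_apply (M : ℕ → Submodule ℝ E) (j : ℕ) (x : E) :
    blkP M j x = (M j).starProjection x - (M (j + 1)).starProjection x := rfl

lemma starProj_congr {A B : Submodule ℝ E} (h : A = B) : A.starProjection = B.starProjection := by
  subst h; rfl

lemma blkP_dem_ne (M : ℕ → Submodule ℝ E) {i j : ℕ} (w : E) (h : j ≠ i) (h' : j + 1 ≠ i) :
    blkP (demM M i w) j = blkP M j := by
  unfold blkP
  rw [starProj_congr (demM_ne M w h), starProj_congr (demM_ne M w h')]

lemma blkP_dem_self {M : ℕ → Submodule ℝ E} {i : ℕ} {w : E} (hw : w ∈ M i) (hn : ‖w‖ = 1) :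
    blkP (demM M i w) i = blkP M i - rk1 w := by
  ext1 x
  rw [sub_apply, blkP_apply, blkP_apply, starProj_congr (demM_self M i w),
    starProj_congr (demM_ne M w (Nat.succ_ne_self i)), starProjection_cutSub hw hn, rk1_apply]
  abel

lemma blkP_dem_pred {M : ℕ → Submodule ℝ E} {i j : ℕ} {w : E} (hj : j + 1 = i) (hw : w ∈ M i)
    (hn : ‖w‖ = 1) : blkP (demM M i w) j = blkP M j + rk1 w := by
  subst hj
  ext1 x
  rw [add_apply, blkP_apply, blkP_apply, starProj_congr (demM_self M (j + 1) w),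
    starProj_congr (demM_ne M w (by omega : j ≠ j + 1)), starProjection_cutSub hw hn, rk1_apply]
  abel

/-- the map `H_i = Σ_{i ≤ j < n} θ^{j-i} Q_j`. -/
noncomputable def Hm (θ : ℝ) (n : ℕ) (M : ℕ → Submodule ℝ E) (i : ℕ) : E →L[ℝ] E :=
  ∑ j ∈ Finset.Ico i n, θ ^ (j - i) • blkP M j

lemma Hm_dem_gt (θ : ℝ) (n : ℕ) (M : ℕ → Submodule ℝ E) {i l : ℕ} (w : E) (h : i < l) :
    Hm θ n (demM M i w) l = Hm θ n M l := by
  unfold Hm
  refine Finset.sum_congr rfl fun j hj => ?_
  rw [Finset.mem_Ico] at hj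
  rw [blkP_dem_ne M w (by omega) (by omega)]

lemma Hm_dem_self (θ : ℝ) {n : ℕ} {M : ℕ → Submodule ℝ E} {i : ℕ} {w : E} (hin : i < n)
    (hw : w ∈ M i) (hn : ‖w‖ = 1) :
    Hm θ n (demM M i w) i = Hm θ n M i - rk1 w := by
  have h2 : Hm θ n M i = θ ^ (i - i) • blkP M i + ∑ j ∈ Finset.Ico (i + 1) n, θ ^ (j - i) • blkP M j := by
    unfold Hm; rw [Finset.sum_eq_sum_Ico_succ_bot hin]
  have h3 : Hm θ n (demM M i w) i
      = θ ^ (i - i) • blkP (demM M i w) i + ∑ j ∈ Finset.Ico (i + 1) n, θ ^ (j - i) • blkP M j := by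
    unfold Hm; rw [Finset.sum_eq_sum_Ico_succ_bot hin]
    congr 1
    refine Finset.sum_congr rfl fun j hj => ?_
    rw [Finset.mem_Ico] at hj
    rw [blkP_dem_ne M w (by omega) (by omega)]
  rw [h2, h3, blkP_dem_self hw hn]
  simp only [Nat.sub_self, pow_zero, one_smul]
  abel

lemma Hm_dem_lt (θ : ℝ) {n : ℕ} {M : ℕ → Submodule ℝ E} {i l : ℕ} {w : E} (hin : i < n)
    (hli : l < i) (hw : w ∈ M i) (hn : ‖w‖ = 1) :
    Hm θ n (demM M i w) l = Hm θ n M l + (θ ^ (i - 1 - l) - θ ^ (i - l)) • rk1 w := by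
  obtain ⟨m, rfl⟩ : ∃ m, i = m + 1 := ⟨i - 1, by omega⟩
  have hterm : ∀ j, θ ^ (j - l) • blkP (demM M (m + 1) w) j = θ ^ (j - l) • blkP M j
      + ((if j = m then θ ^ (m - l) • rk1 w else 0)
        - (if j = m + 1 then θ ^ (m + 1 - l) • rk1 w else 0)) := by
    intro j
    by_cases h1 : j = m
    · subst h1
      rw [blkP_dem_pred rfl hw hn]
      simp
    · by_cases h2 : j = m + 1
      · subst h2
        rw [blkP_dem_self hw hn]
        simp [smul_sub]
        abel
      · rw [blkP_dem_ne M w h2 (by omega)]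
        simp [h1, h2]
  unfold Hm
  rw [Finset.sum_congr rfl fun j _ => hterm j, Finset.sum_add_distrib, Finset.sum_sub_distrib,
    Finset.sum_ite_eq', Finset.sum_ite_eq']
  rw [if_pos (Finset.mem_Ico.2 ⟨by omega, by omega⟩), if_pos (Finset.mem_Ico.2 ⟨by omega, hin⟩)]
  rw [Nat.add_sub_cancel, sub_smul]

/-- block dimension -/
noncomputable def kd (M : ℕ → Submodule ℝ E) (j : ℕ) : ℕ := finrank ℝ (M j) - finrank ℝ (M (j + 1))

lemma kd_add {M : ℕ → Submodule ℝ E} (hM : Antitone M) (j : ℕ) :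
    kd M j + finrank ℝ (M (j + 1)) = finrank ℝ (M j) :=
  Nat.sub_add_cancel (Submodule.finrank_mono (hM (Nat.le_succ j)))

lemma kd_dem_ne (M : ℕ → Submodule ℝ E) {i j : ℕ} (w : E) (h : j ≠ i) (h' : j + 1 ≠ i) :
    kd (demM M i w) j = kd M j := by
  unfold kd; rw [demM_ne M w h, demM_ne M w h']

lemma kd_dem_self {M : ℕ → Submodule ℝ E} (hM : Antitone M) {i : ℕ} {w : E} (hw : w ∈ M i)
    (hw' : w ∈ (M (i + 1))ᗮ) (hn : ‖w‖ = 1) : kd (demM M i w) i + 1 = kd M i := by
  have h1 := kd_add (demM_anti hM hw') i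
  have h2 := kd_add hM i
  rw [demM_self, demM_ne M w (by omega : i + 1 ≠ i)] at h1
  have h3 := finrank_cutSub hw hn
  omega

lemma kd_dem_pred {M : ℕ → Submodule ℝ E} (hM : Antitone M) {i j : ℕ} {w : E} (hj : j + 1 = i)
    (hw : w ∈ M i) (hw' : w ∈ (M (i + 1))ᗮ) (hn : ‖w‖ = 1) :
    kd (demM M i w) j = kd M j + 1 := by
  have h1 := kd_add (demM_anti hM hw') j
  have h2 := kd_add hM j
  subst hj
  rw [demM_self, demM_ne M w (by omega : j ≠ j + 1)] at h1
  have h3 := finrank_cutSub hw hn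
  omega

end Crest.Agent.R239.Dem853
end

-- ▼ part R239/AnSym_853
section

/-! R239 (helper853): Anderson inequality and covariance monotonicity for symmetric convex bodies. -/

set_option autoImplicit false
set_option linter.unusedSectionVars false
open MeasureTheory ProbabilityTheory Set Filter Topology Metric
open scoped RealInnerProductSpace ENNReal NNReal InnerProduct Pointwise

namespace Crest.Agent.R239.AnSym853

open Crest.Agent.Lib.PrekopaLeindler

variable {E : Type*} [NormedAddCommGroup E] [InnerProductSpace ℝ E] [FiniteDimensional ℝ E]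
  [MeasurableSpace E] [BorelSpace E]
variable {F : Type*} [NormedAddCommGroup F] [InnerProductSpace ℝ F] [FiniteDimensional ℝ F]
  [MeasurableSpace F] [BorelSpace F]
variable {G : Type*} [NormedAddCommGroup G] [InnerProductSpace ℝ G] [FiniteDimensional ℝ G]
  [MeasurableSpace G] [BorelSpace G]

lemma std_neg {A : Set F} (hA : MeasurableSet A) :
    stdGaussian F {x | -x ∈ A} = stdGaussian F A := by
  have h := gau_ext (A := -(ContinuousLinearMap.id ℝ F)) (B := ContinuousLinearMap.id ℝ F)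
    (by intro t; simp)
  have h2 := congrArg (fun μ => μ A) h
  simp only [gau_id] at h2
  rw [gau_apply _ hA] at h2
  exact h2

/-- Anderson's inequality for the standard Gaussian. -/
lemma anderson {S : F →L[ℝ] E} {K : Set E} (hK : IsClosed K) (cK : Convex ℝ K)
    (sK : ∀ x ∈ K, -x ∈ K) (u : E) :
    gau S {z | u + z ∈ K} ≤ gau S K := by
  have hm : ∀ v : E, MeasurableSet {g : F | v + S g ∈ K} := fun v =>
    (by fun_prop : Measurable fun g : F => v + S g) hK.measurableSet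
  have e1 : ∀ v : E, gau S {z | v + z ∈ K} = stdGaussian F {g | v + S g ∈ K} := fun v =>
    gau_apply S ((by fun_prop : Measurable fun z : E => v + z) hK.measurableSet)
  have e0 : gau S K = stdGaussian F {g | S g ∈ K} := gau_apply S hK.measurableSet
  rw [e1, e0]
  have hsym : stdGaussian F {g | -u + S g ∈ K} = stdGaussian F {g | u + S g ∈ K} := by
    rw [← std_neg (hm u)]
    congr 1
    ext g
    simp only [mem_ofPred_eq, map_neg]
    constructor
    · intro h
      have := sK _ h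
      rwa [neg_add, neg_neg] at this
    · intro h
      have := sK _ h
      rwa [neg_add, neg_neg] at this
  have h := PL_std (E := F) (1/2) (by norm_num) (by norm_num)
    (indicator {g | u + S g ∈ K} 1) (indicator {g | -u + S g ∈ K} 1) (indicator {g | S g ∈ K} 1)
    (measurable_one.indicator (hm u)) (measurable_one.indicator (hm (-u)))
    (measurable_one.indicator ((by simpa using hm 0 : MeasurableSet {g | S g ∈ K}))) (by
      intro x y
      by_cases hx : u + S x ∈ K
      · by_cases hy : -u + S y ∈ K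
        · have hz : S ((1 - (1/2:ℝ)) • x + (1/2:ℝ) • y) ∈ K := by
            have := cK hx hy (a := 1/2) (b := 1/2) (by norm_num) (by norm_num) (by norm_num)
            convert this using 1
            simp only [map_add, map_smul, smul_add, smul_neg]
            norm_num
            abel
          have e1 : (indicator {g : F | u + S g ∈ K} 1 x : ℝ≥0∞) = 1 := by simp [indicator, hx]
          have e2 : (indicator {g : F | -u + S g ∈ K} 1 y : ℝ≥0∞) = 1 := by simp [indicator, hy]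
          have e3 : (indicator {g : F | S g ∈ K} 1 ((1 - (1/2:ℝ)) • x + (1/2:ℝ) • y) : ℝ≥0∞) = 1 := by
            rw [indicator, if_pos (show _ ∈ {g : F | S g ∈ K} from hz)]
            rfl
          rw [e1, e2, e3]
          simp
        · have : (indicator {g | -u + S g ∈ K} 1 y : ℝ≥0∞) = 0 := by
            simp [indicator, hy]
          rw [this, ENNReal.zero_rpow_of_pos (by norm_num)]
          simp
      · have : (indicator {g | u + S g ∈ K} 1 x : ℝ≥0∞) = 0 := by
          simp [indicator, hx]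
        rw [this, ENNReal.zero_rpow_of_pos (by norm_num)]
        simp)
  rw [lintegral_indicator_one (hm u), lintegral_indicator_one (hm (-u)),
    lintegral_indicator_one (by simpa using hm 0 : MeasurableSet {g | S g ∈ K}), hsym] at h
  rw [← ENNReal.rpow_add_of_nonneg _ _ (by norm_num) (by norm_num)] at h
  norm_num at h
  exact h

/-- **Anderson / covariance monotonicity** for symmetric closed convex bodies. -/
theorem gau_mono_symm {S : F →L[ℝ] E} {C : G →L[ℝ] E} (h : ∀ t, ‖S.adjoint t‖ ≤ ‖C.adjoint t‖)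
    {K : Set E} (hK : IsClosed K) (cK : Convex ℝ K) (sK : ∀ x ∈ K, -x ∈ K) :
    gau C K ≤ gau S K := by
  obtain ⟨D, hD⟩ := exists_complement S C h
  have h1 := gau_mix (A := D) (B := S) (C := C) (fun t => by rw [add_comm]; exact hD t)
    hK.measurableSet
  rw [h1]
  calc ∫⁻ x, gau S {z | D x + z ∈ K} ∂(stdGaussian E)
      ≤ ∫⁻ x, gau S K ∂(stdGaussian E) := lintegral_mono fun x => anderson hK cK sK _
    _ = gau S K := by simp

end Crest.Agent.R239.AnSym853
end

-- ▼ part R239/Thin_597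

/-! R239 (S0370), helper597: block F4, `Target_THIN` from `Target_BEN` (insurance, one hand).
Strong form `dem_or_thin`: every flag is thin at level `i ≥ 1` or the demotion of a block vector
increases `J` by `(kap/2) lam_i`. -/

set_option autoImplicit false
set_option linter.unusedSectionVars false
open MeasureTheory ProbabilityTheory Set Filter Topology
open scoped RealInnerProductSpace

namespace Crest.Agent.R239.Thin597

open Crest.Agent.R239 Crest.Agent.R239.FD Crest.Agent.R239.Fl597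

variable {E : Type*} [NormedAddCommGroup E] [InnerProductSpace ℝ E] [FiniteDimensional ℝ E]
  [MeasurableSpace E] [BorelSpace E]

/-- the demoted flag -/
noncomputable def dem (V : Flag E) (i : ℕ) (w : E) (hw' : w ∈ (V.M (i + 1))ᗮ) : Flag E where
  n := V.n
  M := Dem853.demM V.M i w
  anti := Dem853.demM_anti V.anti hw'
  bot := fun j hj => by
    rw [eq_bot_iff, ← V.bot j hj]; exact Dem853.demM_le V.M i w j

variable {V : Flag E} {i : ℕ} {w : E}

/-! ### block vectors -/

lemma block_mem (hw : V.Q i w = w) : w ∈ V.M i := by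
  have h1 : (V.M i).starProjection (Mom764.Q V.M i w) = Mom764.Q V.M i w :=
    Mom764.P_Q V.anti le_rfl w
  have h2 : Mom764.Q V.M i w = w := hw
  rw [h2] at h1
  exact Submodule.starProjection_eq_self_iff.1 h1

lemma block_perp (hw : V.Q i w = w) : w ∈ (V.M (i + 1))ᗮ := by
  have h1 : (V.M (i + 1)).starProjection (Mom764.Q V.M i w) = 0 :=
    Mom764.P_Q_zero V.anti (Nat.lt_succ_self i) w
  have h2 : Mom764.Q V.M i w = w := hw
  rw [h2] at h1
  exact (Submodule.starProjection_apply_eq_zero_iff _).1 h1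

lemma block_lt (hn : ‖w‖ = 1) (hw : V.Q i w = w) : i < V.n := by
  by_contra h
  have h1 := block_mem hw
  rw [V.bot i (not_lt.1 h)] at h1
  have : w = 0 := (Submodule.mem_bot ℝ).1 h1
  rw [this] at hn
  simp at hn

lemma H_block {l : ℕ} (hl : l ≤ i) (hi : i < V.n) (hw : V.Q i w = w) :
    V.H l w = th ^ (i - l) • w := by
  have h0 : V.H l w = ∑ j ∈ Finset.Ico l V.n, th ^ (j - l) • Mom764.Q V.M j w := by
    rw [H_eq, Mom764.H_apply]
  have h2 : Mom764.Q V.M i w = w := hw
  rw [h0, Finset.sum_eq_single_of_mem i (Finset.mem_Ico.2 ⟨hl, hi⟩)]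
  · rw [h2]
  · intro j _ hj
    rw [← h2, Mom764.Q_Q_ne V.anti hj, smul_zero]

lemma inner_H (l : ℕ) (x y : E) : ⟪V.H l x, y⟫ = ⟪x, V.H l y⟫ :=
  Mom764.inner_H_left (M := V.M) th V.n l x y

/-! ### the levels of the demoted flag -/

lemma dem_M_ne (hw' : w ∈ (V.M (i + 1))ᗮ) {l : ℕ} (h : l ≠ i) : (dem V i w hw').M l = V.M l :=
  Dem853.demM_ne V.M w h

lemma dem_Q_gt (hw' : w ∈ (V.M (i + 1))ᗮ) {l : ℕ} (h : i < l) : (dem V i w hw').Q l = V.Q l :=
  Dem853.blkP_dem_ne V.M w (by omega) (by omega)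

lemma dem_k_gt (hw' : w ∈ (V.M (i + 1))ᗮ) {l : ℕ} (h : i < l) : (dem V i w hw').k l = V.k l :=
  Dem853.kd_dem_ne V.M w (by omega) (by omega)

lemma dem_D_gt {p : Par} (hw' : w ∈ (V.M (i + 1))ᗮ) {l : ℕ} (h : i < l) (μ : Multiset E) :
    D p (dem V i w hw') l μ = D p V l μ := by
  have hH : (dem V i w hw').H l = V.H l := Dem853.Hm_dem_gt th V.n V.M w h
  refine D_congr hH ?_ μ
  have hN : ∀ x, (dem V i w hw').N l x = V.N l x := by
    intro x
    unfold Flag.N
    refine Finset.sum_congr rfl fun j hj => ?_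
    have := (Finset.mem_Ico.1 hj).1
    rw [dem_Q_gt hw' (by omega)]
  have hr : (dem V i w hw').rr l = V.rr l := by
    unfold Flag.rr
    refine Finset.sum_congr rfl fun j hj => ?_
    have := (Finset.mem_Ico.1 hj).1
    rw [dem_k_gt hw' (by omega)]
  unfold Flag.cap
  rw [hr, dem_M_ne hw' (by omega)]
  ext x
  simp only [mem_ofPred_eq, hN]

/-- level `i`: the covariance loses `w` -/
lemma dem_H_self (hn : ‖w‖ = 1) (hw : V.Q i w = w) (hw' : w ∈ (V.M (i + 1))ᗮ) (x : E) :
    (dem V i w hw').H i x = V.H i x - ⟪w, x⟫ • w := by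
  have h := Dem853.Hm_dem_self (M := V.M) th (block_lt hn hw) (block_mem hw) hn
  have h1 : (dem V i w hw').H i = V.H i - Dem853.rk1 w := h
  rw [h1]; rfl

lemma dem_cap_self {p : Par} (hn : ‖w‖ = 1) (hw : V.Q i w = w) (hw' : w ∈ (V.M (i + 1))ᗮ) :
    (dem V i w hw').cap p.rho i ⊆ V.cap p.rho i := by
  have hin := block_lt hn hw
  rintro x ⟨h1, h2⟩
  have h1' : x ∈ V.M i ∧ ⟪w, x⟫ = 0 := by
    have : x ∈ Dem853.cutSub (V.M i) w := by
      have := h1
      change x ∈ Dem853.demM V.M i w i at this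
      rwa [Dem853.demM_self] at this
    exact Dem853.mem_cutSub.1 this
  refine ⟨h1'.1, ?_⟩
  have hN : (dem V i w hw').N i x = V.N i x := by
    unfold Flag.N
    refine Finset.sum_congr rfl fun j hj => ?_
    have hj' := (Finset.mem_Ico.1 hj).1
    rcases hj'.eq_or_lt with h | h
    · subst h
      have h3 : (dem V i w hw').Q i = V.Q i - Dem853.rk1 w := Dem853.blkP_dem_self (block_mem hw) hn
      rw [h3]
      simp [h1'.2]
    · rw [dem_Q_gt hw' h]
  have hr : (dem V i w hw').rr i + 1 = V.rr i := by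
    unfold Flag.rr
    have e1 : (dem V i w hw').n = V.n := rfl
    rw [e1, Finset.sum_eq_sum_Ico_succ_bot hin, Finset.sum_eq_sum_Ico_succ_bot hin]
    have h4 : (dem V i w hw').k i + 1 = V.k i := Dem853.kd_dem_self V.anti (block_mem hw) hw' hn
    have h5 : ∑ j ∈ Finset.Ico (i + 1) V.n, th ^ (j - i) * ((dem V i w hw').k j : ℝ)
        = ∑ j ∈ Finset.Ico (i + 1) V.n, th ^ (j - i) * (V.k j : ℝ) := by
      refine Finset.sum_congr rfl fun j hj => ?_
      rw [dem_k_gt hw' (by have := (Finset.mem_Ico.1 hj).1; omega)]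
    rw [h5, ← h4]
    push_cast
    simp
    ring
  have h3 : p.rho ^ 2 * (dem V i w hw').rr i ≤ p.rho ^ 2 * V.rr i := by
    apply mul_le_mul_of_nonneg_left _ (sq_nonneg _)
    linarith
  rw [hN] at h2
  exact h2.trans h3

/-- level `l < i`: the covariance grows -/
lemma dem_H_lt (hn : ‖w‖ = 1) (hw : V.Q i w = w) (hw' : w ∈ (V.M (i + 1))ᗮ) {l : ℕ} (hl : l < i)
    (t : E) : ‖V.H l t‖ ≤ ‖(dem V i w hw').H l t‖ := by
  have hin := block_lt hn hw
  have h := Dem853.Hm_dem_lt (M := V.M) th hin hl (block_mem hw) hn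
  have h1 : (dem V i w hw').H l t = V.H l t + ((th ^ (i - 1 - l) - th ^ (i - l)) * ⟪w, t⟫) • w := by
    have : (dem V i w hw').H l = V.H l + (th ^ (i - 1 - l) - th ^ (i - l)) • Dem853.rk1 w := h
    rw [this]
    simp [smul_smul]
  set c : ℝ := th ^ (i - 1 - l) - th ^ (i - l) with hc
  have hc0 : 0 ≤ c := by
    rw [hc, sub_nonneg]
    exact pow_le_pow_of_le_one th_pos.le th_lt_one.le (by omega)
  have h2 : ⟪w, V.H l t⟫ = th ^ (i - l) * ⟪w, t⟫ := by
    rw [← inner_H, H_block hl.le hin hw, real_inner_smul_left]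
  rw [h1]
  apply le_of_sq_le_sq _ (norm_nonneg _)
  have h2' : ⟪V.H l t, w⟫ = th ^ (i - l) * ⟪w, t⟫ := by rw [real_inner_comm]; exact h2
  rw [norm_add_sq_real, norm_smul, hn, mul_one, Real.norm_eq_abs, sq_abs, real_inner_smul_right,
    h2']
  have h3 : 0 ≤ th ^ (i - l) := by have := th_pos; positivity
  have h4 : 0 ≤ c * th ^ (i - l) * ⟪w, t⟫ ^ 2 := by positivity
  nlinarith [sq_nonneg (c * ⟪w, t⟫)]

lemma neg_log_le {x : ℝ} (h0 : 0 ≤ x) (h1 : x ≤ 1 / 2) : -Real.log (1 - x) ≤ 2 * x := by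
  have h2 : 0 < 1 - x := by linarith
  have h3 := Real.one_sub_inv_le_log_of_pos h2
  have h4 : (1 - x)⁻¹ ≤ 1 + 2 * x := by
    rw [inv_le_comm₀ h2 (by linarith), ← one_div, div_le_iff₀ (by linarith)]
    nlinarith
  linarith

/-- level `l < i`: cost of one cut -/
lemma dem_D_lt {p : Par} (hp : p.Ok) (hn : ‖w‖ = 1) (hw : V.Q i w = w)
    (hw' : w ∈ (V.M (i + 1))ᗮ) {l : ℕ} (hl : l < i) (μ : Multiset E) :
    D p V l μ ≤ D p (dem V i w hw') l μ + p.lam l * (2 * (1 / p.rho ^ 2)) := by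
  have hlam := lam_pos hp l
  rw [← sub_le_iff_le_add]
  refine le_D hp fun K hK => ?_
  have mK := hK.1.measurableSet
  have h1 := cut V (one_lt_rho hp) l mK hK.2.1 hK.2.2.1
  have h2 : (gau ((dem V i w hw').H l)).real K ≤ (gau (V.H l)).real K := by
    have := AnSym853.gau_mono_symm (S := V.H l) (C := (dem V i w hw').H l)
      (fun t => by rw [adjoint_H, adjoint_H]; exact dem_H_lt hn hw hw' hl t) hK.1 hK.2.1 hK.2.2.1
    exact ENNReal.toReal_mono (measure_ne_top _ _) this
  have h3 := adm_pos hK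
  have hi1 := inv_rho_le hp
  have hi2 := inv_rho_nonneg p
  have h4 : (1 - 1 / p.rho ^ 2) * (gau ((dem V i w hw').H l)).real K
      ≤ (gau (V.H l)).real (K ∩ V.cap p.rho l) :=
    (mul_le_mul_of_nonneg_left h2 (by linarith)).trans h1
  have h5 : 0 < (1 - 1 / p.rho ^ 2) * (gau ((dem V i w hw').H l)).real K :=
    mul_pos (by linarith) h3
  have hadm : Adm p V l (K ∩ V.cap p.rho l) := by
    refine ⟨hK.1.inter (cap_closed V _ l), hK.2.1.inter (cap_convex V _ l), ?_,
      inter_subset_right, h5.trans_le h4⟩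
    rintro x ⟨hx1, hx2⟩
    exact ⟨hK.2.2.1 x hx1, cap_symm V _ l x hx2⟩
  have h6 := D_le hp hadm (μ := μ)
  have hne : (K ∩ V.cap p.rho l).Nonempty := ⟨0, adm_zero hK, cap_zero V _ l⟩
  have h7 : Eh (K ∩ V.cap p.rho l) μ ≤ Eh K μ :=
    Eh_mono (adm_compact hK) hne inter_subset_left μ
  have h8 := Real.log_le_log h5 h4
  rw [Real.log_mul (by linarith) h3.ne'] at h8
  have h9 := neg_log_le hi2 (by linarith)
  unfold val at h6 ⊢
  nlinarith

/-! ### the sum over levels -/

lemma lam_mul (p : Par) (l : ℕ) : p.lam (l + 1) = p.A * p.lam l := by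
  unfold Par.lam; ring

lemma sum_lam_le {p : Par} (hp : p.Ok) (i : ℕ) :
    ∑ l ∈ Finset.range i, p.lam l ≤ p.lam i / 15 := by
  induction i with
  | zero => have := lam_pos hp 0; simp; positivity
  | succ i ih =>
    rw [Finset.sum_range_succ, lam_mul]
    have := lam_pos hp i
    have := hp.A_ge
    nlinarith

/-- the demotion of `w` either increases `J` or `D_i` drops -/
lemma dem_J {p : Par} (hp : p.Ok) (hi : 1 ≤ i) (hn : ‖w‖ = 1) (hw : V.Q i w = w)
    (hw' : w ∈ (V.M (i + 1))ᗮ) (μ : Multiset E) :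
    J p V μ + (9 / 10 * (p.kap * p.lam i) - (D p V i μ - D p (dem V i w hw') i μ))
      ≤ J p (dem V i w hw') μ := by
  have hin := block_lt hn hw
  obtain ⟨m, rfl⟩ : ∃ m, i = m + 1 := ⟨i - 1, by omega⟩
  set V' := dem V (m + 1) w hw' with hV'
  have hk1 : V'.k (m + 1) + 1 = V.k (m + 1) := Dem853.kd_dem_self V.anti (block_mem hw) hw' hn
  have hk2 : V'.k m = V.k m + 1 := Dem853.kd_dem_pred V.anti rfl (block_mem hw) hw' hn
  have hk3 : ∀ l, l ≠ m → l ≠ m + 1 → V'.k l = V.k l := fun l h1 h2 =>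
    Dem853.kd_dem_ne V.M w h2 (by omega)
  -- termwise bound
  have hterm : ∀ l ∈ Finset.range V.n,
      (D p V l μ - p.kap * p.lam l * V.k l)
        + ((if l = m + 1 then p.kap * p.lam (m + 1) - (D p V (m + 1) μ - D p V' (m + 1) μ) else 0)
          - (if l = m then p.kap * p.lam m else 0)
          - (if l < m + 1 then p.lam l * (2 * (1 / p.rho ^ 2)) else 0))
      ≤ D p V' l μ - p.kap * p.lam l * V'.k l := by
    intro l _
    rcases lt_trichotomy l (m + 1) with h | h | h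
    · have h1 := dem_D_lt hp hn hw hw' h μ
      rw [← hV'] at h1
      rw [if_neg (by omega), if_pos h]
      by_cases h2 : l = m
      · subst h2
        rw [if_pos rfl, hk2]
        push_cast
        linarith
      · rw [if_neg h2, hk3 l h2 (by omega)]
        linarith
    · subst h
      rw [if_pos rfl, if_neg (by omega), if_neg (by omega), ← hk1]
      push_cast
      linarith
    · rw [if_neg (by omega), if_neg (by omega), if_neg (by omega), hk3 l (by omega) (by omega),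
        hV', dem_D_gt hw' h]
      simp
  have hsum := Finset.sum_le_sum hterm
  have hJ' : J p V' μ = ∑ l ∈ Finset.range V.n, (D p V' l μ - p.kap * p.lam l * V'.k l) := rfl
  have hJ : J p V μ = ∑ l ∈ Finset.range V.n, (D p V l μ - p.kap * p.lam l * V.k l) := rfl
  rw [← hJ', Finset.sum_add_distrib, ← hJ, Finset.sum_sub_distrib, Finset.sum_sub_distrib,
    Finset.sum_ite_eq', Finset.sum_ite_eq', if_pos (Finset.mem_range.2 hin),
    if_pos (Finset.mem_range.2 (by omega))] at hsum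
  have h3 : ∑ l ∈ Finset.range V.n, (if l < m + 1 then p.lam l * (2 * (1 / p.rho ^ 2)) else 0)
      ≤ p.lam (m + 1) / 15 * (2 * (1 / p.rho ^ 2)) := by
    have hi2 := inv_rho_nonneg p
    rw [← Finset.sum_filter]
    have e : (Finset.range V.n).filter (fun l => l < m + 1) = Finset.range (m + 1) := by
      ext l; simp; omega
    rw [e, ← Finset.sum_mul]
    exact mul_le_mul_of_nonneg_right (sum_lam_le hp (m + 1)) (by positivity)
  have h4 : 16 * (1 / p.rho ^ 2) ≤ p.kap := by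
    have h5 := hp.kap_rho
    have h6 : 0 < p.rho ^ 2 := by have := hp.rho_ge; positivity
    rw [mul_one_div, div_le_iff₀ h6]
    exact h5
  have h5 := lam_pos hp m
  have h6 := lam_mul p m
  have h7 := hp.A_ge
  have h8 := hp.kap_pos
  have h9 : 16 * p.lam m ≤ p.lam (m + 1) := by rw [h6]; nlinarith
  have h10 := lam_pos hp (m + 1)
  have h11 : p.kap * (16 * p.lam m) ≤ p.kap * p.lam (m + 1) := mul_le_mul_of_nonneg_left h9 h8.le
  have h12 : p.lam (m + 1) * (16 * (1 / p.rho ^ 2)) ≤ p.lam (m + 1) * p.kap :=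
    mul_le_mul_of_nonneg_left h4 h10.le
  have h13 : 0 < p.kap * p.lam (m + 1) := mul_pos h8 h10
  nlinarith

/-! ### level `i`: removable or thin -/

lemma dem_level {p : Par} (hp : p.Ok) {dl c' : ℝ} (hB : P_BEN E dl c') (hn : ‖w‖ = 1)
    (hw : V.Q i w = w) (hw' : w ∈ (V.M (i + 1))ᗮ) {μ : Multiset E} {K : Set E} {sl : ℝ}
    (hK : NearOpt p V i μ K sl) :
    (∫ x in K, ⟪w, x⟫ ^ 2 ∂(gau (V.H i))) ≤ (1 - c') * (gau (V.H i)).real K ∨
      D p V i μ - D p (dem V i w hw') i μ ≤ sl + 2 * dl * p.lam i := by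
  have hin := block_lt hn hw
  have hlam := lam_pos hp i
  obtain ⟨hK, hKval⟩ := hK
  set V' := dem V i w hw' with hV'
  have hHw : V.H i w = w := by
    rw [H_block le_rfl hin hw]; simp
  have hH' : ∀ x, V'.H i x = V.H i x - ⟪w, x⟫ • w := dem_H_self hn hw hw'
  have hH'w : V'.H i w = 0 := by
    rw [hH', hHw, real_inner_self_eq_norm_sq, hn]; simp
  by_cases hthin : (∫ x in K, ⟪w, x⟫ ^ 2 ∂(gau (V.H i))) ≤ (1 - c') * (gau (V.H i)).real K
  · exact Or.inl hthin
  right
  refine le_of_forall_pos_le_add fun e he => ?_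
  obtain ⟨K', hK', hK'val⟩ := exists_near hp V' i μ he
  have cK := adm_compact hK
  have cK' := adm_compact hK'
  have nK : K.Nonempty := ⟨0, adm_zero hK⟩
  have nK' : K'.Nonempty := ⟨0, adm_zero hK'⟩
  set C := F6core696.mix (1 / 2) K K' with hC
  have cC : IsCompact C := F6core696.mix_compact cK cK'
  have hben := hB w hn (V.H i ⁻¹' K) (V'.H i ⁻¹' K') (V.H i ⁻¹' C)
    (hK.1.preimage (V.H i).continuous) (Dom640.pre_conv (V.H i) hK.2.1)
    (Dom640.pre_symm (V.H i) hK.2.2.1)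
    (hK'.1.preimage (V'.H i).continuous) (Dom640.pre_conv (V'.H i) hK'.2.1)
    (Dom640.pre_symm (V'.H i) hK'.2.2.1) (cC.isClosed.preimage (V.H i).continuous)
    (fun x => by simp only [mem_preimage, map_sub, map_smul, hH'w, smul_zero, sub_zero])
    (by
      intro x hx y hy hwy
      simp only [mem_preimage] at hx hy ⊢
      rw [map_add, map_smul, map_smul]
      refine F6core696.mem_mix.2 ⟨V.H i x, hx, V'.H i y, hy, ?_⟩
      rw [hH' y, hwy, zero_smul, sub_zero]
      norm_num)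
  have hmeasK : (stdGaussian E).real (V.H i ⁻¹' K) = (gau (V.H i)).real K :=
    (gau_real_apply _ hK.1.measurableSet).symm
  have hmeasK' : (stdGaussian E).real (V'.H i ⁻¹' K') = (gau (V'.H i)).real K' :=
    (gau_real_apply _ hK'.1.measurableSet).symm
  have hmeasC : (stdGaussian E).real (V.H i ⁻¹' C) = (gau (V.H i)).real C :=
    (gau_real_apply _ cC.isClosed.measurableSet).symm
  rw [hmeasK, hmeasK', hmeasC] at hben
  have hint : (∫ x in K, ⟪w, x⟫ ^ 2 ∂(gau (V.H i)))
      = ∫ g in V.H i ⁻¹' K, ⟪w, g⟫ ^ 2 ∂(stdGaussian E) := by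
    unfold gau
    rw [setIntegral_map hK.1.measurableSet (by fun_prop) (V.H i).continuous.aemeasurable]
    refine integral_congr_ae (Eventually.of_forall fun g => ?_)
    show ⟪w, V.H i g⟫ ^ 2 = ⟪w, g⟫ ^ 2
    rw [← inner_H, hHw]
  rw [← hint] at hben
  rcases hben with hben | hben
  · exact absurd hben hthin
  have p1 := adm_pos hK
  have p2 := adm_pos hK'
  have hCpos : 0 < Real.exp (-dl) * Real.sqrt ((gau (V.H i)).real K * (gau (V'.H i)).real K') := by
    positivity
  have hadm : Adm p V i C := by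
    refine ⟨cC.isClosed, F6core696.mix_convex hK.2.1 hK'.2.1, F6core696.mix_neg hK.2.2.1 hK'.2.2.1,
      ?_, hCpos.trans_le hben⟩
    exact F6core696.mix_subset (by norm_num) (by norm_num) (cap_convex V _ i) hK.2.2.2.1
      (hK'.2.2.2.1.trans (dem_cap_self hn hw hw'))
  have h1 := D_le hp hadm (μ := μ)
  have h2 : Eh C μ = (1 - 1 / 2) * Eh K μ + 1 / 2 * Eh K' μ :=
    F6core696.Eh_mix (by norm_num) (by norm_num) cK cK' nK nK' μ
  have h3 := Real.log_le_log hCpos hben
  rw [Real.log_mul (Real.exp_pos _).ne' (by positivity), Real.log_exp, Real.log_sqrt (by positivity),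
    Real.log_mul p1.ne' p2.ne'] at h3
  unfold val at h1 hKval hK'val
  rw [h2] at h1
  nlinarith

/-- **strong form**: thin or demotable -/
theorem dem_or_thin {p : Par} (hp : p.Ok) {c' : ℝ} (hB : P_BEN E (p.kap / 16) c') (V : Flag E)
    (μ : Multiset E) (i : ℕ) (hi : 1 ≤ i) :
    ThinAt p V μ i c' (p.kap / 8) ∨ ∃ V' : Flag E, J p V μ + p.kap / 2 * p.lam i ≤ J p V' μ := by
  by_cases h : ThinAt p V μ i c' (p.kap / 8)
  · exact Or.inl h
  right
  unfold ThinAt at h
  push Not at h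
  obtain ⟨K, hK, w, hn, hw, hlt⟩ := h
  have hw' := block_perp hw
  refine ⟨dem V i w hw', ?_⟩
  have h1 := dem_J hp hi hn hw hw' μ
  rcases dem_level hp hB hn hw hw' hK with h2 | h2
  · exact absurd h2 (not_le.2 hlt)
  · have := lam_pos hp i
    have := hp.kap_pos
    have h3 : 0 < p.kap * p.lam i := by positivity
    nlinarith

theorem target_THIN (hBEN : Target_BEN) : Target_THIN := by
  intro kap h0 h1
  obtain ⟨c', hc0, hc1, hB⟩ := hBEN (kap / 16) (by positivity)
  refine ⟨c', kap / 8, 0, hc0, hc1, by positivity, fun d p hp hk _ => ?_⟩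
  intro V μ i hi hmax
  subst hk
  rcases dem_or_thin hp (hB d) V μ i hi with h | ⟨V', hV'⟩
  · exact h
  · exfalso
    have h2 := hmax V'
    have := lam_pos hp i
    have := hp.kap_pos
    have h3 : 0 < p.kap * p.lam i := by positivity
    nlinarith

end Crest.Agent.R239.Thin597
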